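import Vale.Agent.P188.Mean
import Vale.Agent.P188.H428.Op
import Mathlib.Algebra.QuadraticDiscriminant

/-!
# Operator bound for random chains in a right `S`-set with an invariant mean

`S` a group acting on the right on a set `X`, `μ` an invariant mean on `X`, `A'`, `A` finite
subsets of `S`.  One block of a chain goes from `z` to `z * n'⁻¹ * (n * g)`, `n' ∈ A'`, `n ∈ A`.
-/

set_option linter.unusedSectionVars false

universe u v w

namespace Vale.Agent.P188.H382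

open Finset Vale.Agent.P188 Agent.P188.H428

/-- A right action. -/
structure RAct (S : Type u) [Group S] (X : Type v) where
  act : X → S → X
  one : ∀ z, act z 1 = z
  mul : ∀ z s t, act (act z s) t = act z (s * t)

/-- An invariant mean on an `S`-set. -/
structure InvMean {S : Type u} [Group S] {X : Type v} (A : RAct S X) (μ : (X → ℝ) → ℝ) :
    Prop where
  mean : IsMean μ
  inv : ∀ s f, Bdd f → μ (fun z => f (A.act z s)) = μ f

lemma Bdd.mul' {X : Type v} {f g : X → ℝ} (hf : Bdd f) (hg : Bdd g) :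
    Bdd (fun x => f x * g x) := by
  obtain ⟨M, hM⟩ := hf
  obtain ⟨N, hN⟩ := hg
  refine ⟨M * N, fun x => ?_⟩
  rw [abs_mul]
  exact mul_le_mul (hM x) (hN x) (abs_nonneg _) ((abs_nonneg _).trans (hM x))

lemma Bdd.sq' {X : Type v} {f : X → ℝ} (hf : Bdd f) : Bdd (fun x => f x ^ 2) := by
  have := Bdd.mul' hf hf
  simpa only [sq] using this

lemma Bdd.sum' {X : Type v} {ι : Type w} (s : Finset ι) (f : ι → X → ℝ)
    (hf : ∀ i ∈ s, Bdd (f i)) : Bdd (fun x => ∑ i ∈ s, f i x) := by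
  classical
  induction s using Finset.induction_on with
  | empty => simp only [Finset.sum_empty]; exact Bdd.const 0
  | insert a s ha ih =>
    have h1 := ih (fun i hi => hf i (Finset.mem_insert_of_mem hi))
    have h2 := hf a (Finset.mem_insert_self a s)
    have e : (fun x => ∑ i ∈ insert a s, f i x) = f a + fun x => ∑ i ∈ s, f i x := by
      funext x; rw [Finset.sum_insert ha]; rfl
    rw [e]
    exact h2.add h1

/-- Cauchy–Schwarz for a mean. -/
lemma IsMean.cs {X : Type v} {μ : (X → ℝ) → ℝ} (h : IsMean μ) {f g : X → ℝ} (hf : Bdd f)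
    (hg : Bdd g) :
    μ (fun x => f x * g x) ^ 2 ≤ μ (fun x => f x ^ 2) * μ (fun x => g x ^ 2) := by
  set a := μ (fun x => g x ^ 2) with ha
  set b := 2 * μ (fun x => f x * g x) with hb
  set c := μ (fun x => f x ^ 2) with hc
  have key : ∀ t : ℝ, 0 ≤ a * (t * t) + b * t + c := by
    intro t
    have h1 : 0 ≤ μ (fun x => (f x + t * g x) ^ 2) :=
      h.nonneg _ (Bdd.sq' (hf.add (hg.const_mul t))) (fun x => sq_nonneg _)
    have e : (fun x => (f x + t * g x) ^ 2)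
        = ((fun x => (t * t) * (g x ^ 2)) + fun x => (2 * t) * (f x * g x)) +
          fun x => f x ^ 2 := by
      funext x; simp only [Pi.add_apply]; ring
    rw [e, h.add _ _ (((Bdd.sq' hg).const_mul _).add ((Bdd.mul' hf hg).const_mul _)) (Bdd.sq' hf),
      h.add _ _ ((Bdd.sq' hg).const_mul _) ((Bdd.mul' hf hg).const_mul _),
      h.smul _ _ (Bdd.sq' hg), h.smul _ _ (Bdd.mul' hf hg)] at h1
    rw [ha, hb, hc]
    linarith
  have hd := discrim_le_zero key
  unfold discrim at hd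
  rw [hb] at hd
  nlinarith

lemma IsMean.sq_le {X : Type v} {μ : (X → ℝ) → ℝ} (h : IsMean μ) {f : X → ℝ} (hf : Bdd f) :
    μ f ^ 2 ≤ μ (fun x => f x ^ 2) := by
  have := IsMean.cs h hf (Bdd.const 1)
  simpa [h.one] using this

variable {S : Type u} [Group S] [DecidableEq S] {X : Type v} (A : RAct S X) {μ : (X → ℝ) → ℝ}

/-- One block operator. -/
def blk (b : X → S → ℝ) (B' B : Finset S) (g : S) (f : X → ℝ) (z : X) : ℝ :=
  ∑ n' ∈ B', ∑ n ∈ B, b (A.act z n'⁻¹) n' * b (A.act z n'⁻¹) (n * g) *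
    f (A.act z (n'⁻¹ * (n * g)))

lemma blk_bdd (b : X → S → ℝ) (hb : ∀ h, Bdd (fun Y => b Y h)) (B' B : Finset S) (g : S)
    (f : X → ℝ) (hf : Bdd f) : Bdd (blk A b B' B g f) := by
  unfold blk
  refine Bdd.sum' B' _ fun n' _ => Bdd.sum' B _ fun n _ => ?_
  exact Bdd.mul' (Bdd.mul' ((hb n').comp _) ((hb (n * g)).comp _)) (hf.comp _)

lemma blk_sq_le (hμ : InvMean A μ) (b : X → S → ℝ) (hb : ∀ h, Bdd (fun Y => b Y h))
    (B' B : Finset S) (g : S) (f : X → ℝ) (hf : Bdd f) (P' P : ℝ) (hP'0 : 0 ≤ P') (hP0 : 0 ≤ P)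
    (hP' : ∀ Y, ∑ n ∈ B', b Y n ^ 2 ≤ P') (hP : ∀ Y, ∑ n ∈ B, b Y (n * g) ^ 2 ≤ P) :
    μ (fun z => blk A b B' B g f z ^ 2) ≤ (P' * B'.card) * (P * B.card) * μ (fun z => f z ^ 2) := by
  have hm := hμ.mean
  set v : X → ℝ := blk A b B' B g f with hv
  have hvb : Bdd v := blk_bdd A b hb B' B g f hf
  set Ff : X → ℝ := fun Y => ∑ n ∈ B, b Y (n * g) * f (A.act Y (n * g)) with hFf
  have hFfb : Bdd Ff := Bdd.sum' B _ fun n _ => Bdd.mul' (hb _) (hf.comp _)
  set Fv : X → ℝ := fun Y => ∑ n' ∈ B', b Y n' * v (A.act Y n') with hFv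
  have hFvb : Bdd Fv := Bdd.sum' B' _ fun n _ => Bdd.mul' (hb _) (hvb.comp _)
  set V : ℝ := μ (fun z => v z ^ 2) with hV
  have hV0 : 0 ≤ V := hm.nonneg _ (Bdd.sq' hvb) fun z => sq_nonneg _
  have key1 : V = μ (fun Y => Fv Y * Ff Y) := by
    have e1 : (fun z => v z ^ 2) = fun z => ∑ n' ∈ B',
        b (A.act z n'⁻¹) n' * v (A.act (A.act z n'⁻¹) n') * Ff (A.act z n'⁻¹) := by
      funext z
      have h1 : v z = ∑ n' ∈ B', b (A.act z n'⁻¹) n' * Ff (A.act z n'⁻¹) := by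
        rw [hv]
        unfold blk
        refine Finset.sum_congr rfl fun n' _ => ?_
        rw [hFf, Finset.mul_sum]
        refine Finset.sum_congr rfl fun n _ => ?_
        rw [A.mul]; ring
      have h2 : v z ^ 2 = v z * ∑ n' ∈ B', b (A.act z n'⁻¹) n' * Ff (A.act z n'⁻¹) := by
        rw [← h1, sq]
      rw [h2, Finset.mul_sum]
      refine Finset.sum_congr rfl fun n' _ => ?_
      rw [A.mul, inv_mul_cancel, A.one]; ring
    have e2 : (fun Y => Fv Y * Ff Y) = fun Y => ∑ n' ∈ B', b Y n' * v (A.act Y n') * Ff Y := by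
      funext Y
      rw [hFv, Finset.sum_mul]
    rw [hV, e1, e2]
    have hbd : ∀ n' ∈ B', Bdd (fun Y => b Y n' * v (A.act Y n') * Ff Y) := fun n' _ =>
      Bdd.mul' (Bdd.mul' (hb n') (hvb.comp _)) hFfb
    rw [(hm.sum B' (fun n' z => b (A.act z n'⁻¹) n' * v (A.act (A.act z n'⁻¹) n') *
      Ff (A.act z n'⁻¹)) (fun n' hn' => (hbd n' hn').comp (fun z => A.act z n'⁻¹))).2,
      (hm.sum B' (fun n' Y => b Y n' * v (A.act Y n') * Ff Y) hbd).2]
    refine Finset.sum_congr rfl fun n' hn' => ?_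
    exact hμ.inv n'⁻¹ _ (hbd n' hn')
  have key2 : μ (fun Y => Fv Y ^ 2) ≤ P' * B'.card * V := by
    have h1 : ∀ Y, Fv Y ^ 2 ≤ P' * ∑ n' ∈ B', v (A.act Y n') ^ 2 := by
      intro Y
      refine le_trans (Finset.sum_mul_sq_le_sq_mul_sq B' (fun n' => b Y n')
            (fun n' => v (A.act Y n'))) ?_
      exact mul_le_mul_of_nonneg_right (hP' Y) (Finset.sum_nonneg fun n _ => sq_nonneg _)
    have hbd : ∀ n' ∈ B', Bdd (fun Y => v (A.act Y n') ^ 2) := fun n' _ =>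
      Bdd.sq' (hvb.comp _)
    have hbs : Bdd (fun Y => ∑ n' ∈ B', v (A.act Y n') ^ 2) := Bdd.sum' B' _ hbd
    have h2 := hm.le (Bdd.sq' hFvb) (hbs.const_mul P') h1
    rw [hm.smul _ _ hbs, (hm.sum B' _ hbd).2] at h2
    refine h2.trans (le_of_eq ?_)
    have h3 : ∀ n' ∈ B', μ (fun Y => v (A.act Y n') ^ 2) = V := fun n' _ =>
      hμ.inv n' (fun z => v z ^ 2) (Bdd.sq' hvb)
    rw [Finset.sum_congr rfl h3, Finset.sum_const, nsmul_eq_mul]; ring
  have key3 : μ (fun Y => Ff Y ^ 2) ≤ P * B.card * μ (fun z => f z ^ 2) := by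
    have h1 : ∀ Y, Ff Y ^ 2 ≤ P * ∑ n ∈ B, f (A.act Y (n * g)) ^ 2 := by
      intro Y
      refine le_trans (Finset.sum_mul_sq_le_sq_mul_sq B (fun n => b Y (n * g))
            (fun n => f (A.act Y (n * g)))) ?_
      exact mul_le_mul_of_nonneg_right (hP Y) (Finset.sum_nonneg fun n _ => sq_nonneg _)
    have hbd : ∀ n ∈ B, Bdd (fun Y => f (A.act Y (n * g)) ^ 2) := fun n _ =>
      Bdd.sq' (hf.comp _)
    have hbs : Bdd (fun Y => ∑ n ∈ B, f (A.act Y (n * g)) ^ 2) := Bdd.sum' B _ hbd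
    have h2 := hm.le (Bdd.sq' hFfb) (hbs.const_mul P) h1
    rw [hm.smul _ _ hbs, (hm.sum B _ hbd).2] at h2
    refine h2.trans (le_of_eq ?_)
    have h3 : ∀ n ∈ B, μ (fun Y => f (A.act Y (n * g)) ^ 2) = μ (fun z => f z ^ 2) := fun n _ =>
      hμ.inv (n * g) (fun z => f z ^ 2) (Bdd.sq' hf)
    rw [Finset.sum_congr rfl h3, Finset.sum_const, nsmul_eq_mul]; ring
  have hU0 : 0 ≤ μ (fun z => f z ^ 2) := hm.nonneg _ (Bdd.sq' hf) fun z => sq_nonneg _
  have key4 : V ^ 2 ≤ (P' * B'.card * V) * (P * B.card * μ (fun z => f z ^ 2)) := by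
    calc V ^ 2 = μ (fun Y => Fv Y * Ff Y) ^ 2 := by rw [key1]
      _ ≤ μ (fun Y => Fv Y ^ 2) * μ (fun Y => Ff Y ^ 2) := IsMean.cs hm hFvb hFfb
      _ ≤ _ := by
          apply mul_le_mul key2 key3 (hm.nonneg _ (Bdd.sq' hFfb) fun z => sq_nonneg _)
          positivity
  rcases hV0.eq_or_lt with h0 | h0
  · rw [← h0]
    exact mul_nonneg (mul_nonneg (mul_nonneg hP'0 (Nat.cast_nonneg _))
            (mul_nonneg hP0 (Nat.cast_nonneg _))) hU0
  · have h5 : V * V ≤ V * ((P' * B'.card) * (P * B.card) * μ (fun z => f z ^ 2)) := by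
      calc V * V = V ^ 2 := (sq V).symm
        _ ≤ (P' * B'.card * V) * (P * B.card * μ (fun z => f z ^ 2)) := key4
        _ = _ := by ring
    exact le_of_mul_le_mul_left h5 h0

/-- Product of the values of `b` along a chain. -/
def wt (b : X → S → ℝ) : (J : ℕ) → (Fin J → S) → (Fin J → S × S) → X → ℝ
  | 0, _, _, _ => 1
  | J + 1, g, ω, z => b (A.act z (ω 0).1⁻¹) (ω 0).1 * b (A.act z (ω 0).1⁻¹) ((ω 0).2 * g 0) *
      wt b J (Fin.tail g) (Fin.tail ω) (A.act z ((ω 0).1⁻¹ * ((ω 0).2 * g 0)))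

lemma wt_bdd (b : X → S → ℝ) (hb : ∀ h, Bdd (fun Y => b Y h)) (J : ℕ) (g : Fin J → S)
    (ω : Fin J → S × S) : Bdd (wt A b J g ω) := by
  induction J with
  | zero => exact Bdd.const 1
  | succ J ih =>
    have h := ih (Fin.tail g) (Fin.tail ω)
    exact Bdd.mul' (Bdd.mul' ((hb (ω 0).1).comp (fun z => A.act z (ω 0).1⁻¹))
      ((hb ((ω 0).2 * g 0)).comp (fun z => A.act z (ω 0).1⁻¹))) (h.comp _)

lemma sum_wt_succ (b : X → S → ℝ) (B' B : Finset S) (J : ℕ) (g : Fin (J + 1) → S) (z : X) :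
    ∑ ω ∈ noise B' B (J + 1), wt A b (J + 1) g ω z
      = blk A b B' B (g 0) (fun y => ∑ ω ∈ noise B' B J, wt A b J (Fin.tail g) ω y) z := by
  rw [sum_noise_succ]
  unfold blk
  refine Finset.sum_congr rfl fun n' _ => Finset.sum_congr rfl fun n _ => ?_
  rw [Finset.mul_sum]
  refine Finset.sum_congr rfl fun ω _ => ?_
  simp only [wt, Fin.cons_zero, Fin.tail_cons]

lemma mean_wt_sq_le (hμ : InvMean A μ) (b : X → S → ℝ) (hb : ∀ h, Bdd (fun Y => b Y h))
    (B' B : Finset S) (P' P : ℝ) (hP'0 : 0 ≤ P') (hP0 : 0 ≤ P)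
    (J : ℕ) (g : Fin J → S)
    (hP' : ∀ Y, ∑ n ∈ B', b Y n ^ 2 ≤ P') (hP : ∀ i Y, ∑ n ∈ B, b Y (n * g i) ^ 2 ≤ P) :
    μ (fun z => (∑ ω ∈ noise B' B J, wt A b J g ω z) ^ 2)
      ≤ ((P' * B'.card) * (P * B.card)) ^ J := by
  induction J with
  | zero =>
    have : ∀ z, ∑ ω ∈ noise B' B 0, wt A b 0 g ω z = 1 := by
      intro z
      simp only [wt]
      rw [Finset.sum_const, card_noise]
      simp
    simp only [this]
    simp [hμ.mean.one]
  | succ J ih =>
    have h1 := ih (Fin.tail g) (fun i Y => hP i.succ Y)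
    have h2 := blk_sq_le A hμ b hb B' B (g 0)
      (fun y => ∑ ω ∈ noise B' B J, wt A b J (Fin.tail g) ω y)
      (Bdd.sum' _ _ fun ω _ => wt_bdd A b hb J _ ω) P' P hP'0 hP0 hP' (fun Y => hP 0 Y)
    have h3 : (fun z => (∑ ω ∈ noise B' B (J + 1), wt A b (J + 1) g ω z) ^ 2)
        = fun z => blk A b B' B (g 0)
          (fun y => ∑ ω ∈ noise B' B J, wt A b J (Fin.tail g) ω y) z ^ 2 := by
      funext z; rw [sum_wt_succ]
    rw [h3]
    refine le_trans h2 ?_
    rw [pow_succ]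
    calc P' * ↑B'.card * (P * ↑B.card) *
          μ (fun z => (∑ ω ∈ noise B' B J, wt A b J (Fin.tail g) ω z) ^ 2)
        ≤ P' * ↑B'.card * (P * ↑B.card) *
          ((P' * ↑B'.card * (P * ↑B.card)) ^ J) := by
          apply mul_le_mul_of_nonneg_left h1
          positivity
      _ = _ := by ring

end Vale.Agent.P188.H382
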