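import Vale.Agent.P188.H382.Haar
import Vale.Agent.P188.H789.Model
import Vale.Agent.P188.Z1.Fat

/-!
# Route A in the real model

`NCA M`: the neutral comparison, for points which are good in the sense of the Haar measure.
`InputA M 𝓕`: flatness on grids of boxes of `E` at one scale.
`outA_model`: `NCA` and `InputA` give `Cmp`.
-/

set_option linter.all false

open MeasureTheory Set
open scoped ENNReal

namespace Vale.Agent.P188.H382

open Vale.Agent.P188 Agent.P188.H428 Vale.Agent.P188.H789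
open Vale.Agent.P188.Z1 (RModel)
open Vale.Agent.P188.H530 (hgt)

section

variable {S : Type} [Group S] [MeasurableSpace S] {Γ : Type} [Group Γ]
  {V : Type} [AddCommGroup V] [Module ℝ V] {k : ℕ} (M : RModel S Γ V k)

/-- the displacement of the heights -/
noncomputable def dsp (F : Γ → Γ) (z : S) : Fin k → ℝ := M.f F z - M.f id z

/-- **The neutral comparison** (Haar form). The shapes `P R k` are sets of elements of `S` of length
at most `CR * R`, with `CR` independent of the rate `c'`. -/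
def NCA : Prop := ∀ K : ℝ, ∃ (ξ : ℝ) (CR : ℕ), 0 < ξ ∧ 1 ≤ CR ∧ ∀ c' : ℝ, 0 < c' →
  ∃ (κ : Type) (Kf : ℕ → Finset κ) (P : ℕ → κ → Set S) (R0 : ℕ),
    (∀ R, R0 ≤ R → ∀ a ∈ Kf R, ∀ y ∈ P R a, M.l y ≤ CR * R) ∧
    (∀ ε : ℝ, 0 < ε → ∃ C : ℝ, ∀ R : ℕ, ((Kf R).card : ℝ) ≤ C * Real.exp (ε * R)) ∧
    (∀ R, R0 ≤ R → ∀ a ∈ Kf R, M.μ {x | ∃ y ∈ P R a, (M.l (y⁻¹ * x) : ℝ) ≤ 2 * M.C0} ≤
      ENNReal.ofReal (Real.exp (c' * R)) * M.μ (P R a)) ∧
    (∀ R, R0 ≤ R → ∀ a ∈ Kf R, M.μ (P R a) ≠ ⊤) ∧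
    ∀ A : ℕ, ∃ c : ℝ, 0 < c ∧ ∃ R1 : ℕ, ∀ R, R1 ≤ R → ∀ j : ℕ, (j : ℝ) ≤ Real.exp (c * R) →
      ∀ F F' : Γ → Γ, M.QIm K F F' → ∀ z : ℕ → S,
      (∀ i < j, M.l ((z i)⁻¹ * z (i + 1)) ≤ A) →
      (∀ i ≤ j, GoodH M.μ (dsp M F) (ξ * R) (Real.exp (-(c' * R))) (Kf R) (P R) (z i)) →
      (∀ i ≤ j, ‖M.θ (z i) - M.θ (z 0)‖ ≤ 2 * R) →
      ‖dsp M F (z j) - dsp M F (z 0)‖ ≤ R / 8

/-- **The input**: flatness on the translates of a grid of a box of `E`, at one (arbitrarily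
large) scale, for a family of maps. -/
def InputA (𝓕 : Set (Γ → Γ)) : Prop := ∃ C1 Mc : ℕ, ∀ η0 ε0 : ℝ, 0 < η0 → 0 < ε0 → ∀ Rm : ℕ,
  ∃ (R1 : ℕ) (I : Type) (φ : I → S) (B Bs : Finset I), Rm ≤ R1 ∧ 1 ≤ R1 ∧
    BoxesI φ M.l M.E C1 Mc R1 B Bs ∧
    ∀ F ∈ 𝓕, ∀ Y : S, FlatI (selfAct S) φ M.l (fun s => dsp M F (Y * s)) R1 B (η0 * R1) ε0

/-- the rounding of the model -/
def rnd : Rounding S Γ {s : S // M.fl s = 1} where
  j := M.inG
  fl := M.fl
  π s := ⟨(M.inG (M.fl s))⁻¹ * s, by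
    rw [← map_inv, M.fl_mul, inv_mul_cancel]⟩
  r q := q.1
  eq s := by simp
  π_j g s := by
    apply Subtype.ext
    simp only
    rw [M.fl_mul, map_mul]
    group
  fl_j g s := M.fl_mul g s
  π_r q := by
    apply Subtype.ext
    simp only
    rw [q.2, map_one, inv_one, one_mul]
  fl_r q := q.2

theorem rnd_fl (s : S) : (rnd M).fl s = M.fl s := rfl
theorem rnd_j (g : Γ) : (rnd M).j g = M.inG g := rfl

theorem rnd_r_le (q : {s : S // M.fl s = 1}) : M.l ((rnd M).r q) ≤ ⌈M.C0⌉₊ := by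
  have h := M.fl_close q.1
  rw [q.2, map_one, inv_one, one_mul] at h
  exact_mod_cast h.trans (Nat.le_ceil _)

theorem rnd_fl_le (q : {s : S // M.fl s = 1}) (s : S) :
    M.l (M.inG ((rnd M).fl ((rnd M).r q * s))) ≤ (2 * ⌈M.C0⌉₊ + 1) * M.l s := by
  rcases Nat.eq_zero_or_pos (M.l s) with h | h
  · have hs := M.l_zero s h
    subst hs
    rw [mul_one, (rnd M).fl_r, map_one, M.len.one]
    exact Nat.zero_le _
  · set x : S := (rnd M).r q * s with hx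
    have h1 := M.fl_close x
    have h2 : (M.l ((M.inG (M.fl x))⁻¹ * x) : ℝ) ≤ ⌈M.C0⌉₊ := h1.trans (Nat.le_ceil _)
    have h3 : M.l ((M.inG (M.fl x))⁻¹ * x) ≤ ⌈M.C0⌉₊ := by exact_mod_cast h2
    have h4 : M.l (M.inG (M.fl x)) ≤ M.l x + M.l ((M.inG (M.fl x))⁻¹ * x) := by
      have e : M.inG (M.fl x) = x * ((M.inG (M.fl x))⁻¹ * x)⁻¹ := by group
      have := M.len.mul x ((M.inG (M.fl x))⁻¹ * x)⁻¹
      rw [M.len.inv, ← e] at this
      exact this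
    have h5 : M.l x ≤ M.l ((rnd M).r q) + M.l s := M.len.mul _ _
    have h6 := rnd_r_le M q
    show M.l (M.inG (M.fl x)) ≤ _
    nlinarith

/-- the displacement is Lipschitz -/
theorem dsp_lip {K : ℝ} {F F' : Γ → Γ} (h : M.QIm K F F') (x s : S) :
    ‖dsp M F (x * s) - dsp M F x‖ ≤ M.C0 * (K + 1) * (2 * M.C0 + 1) * (M.l s + 1) := by
  have hid : M.QIm 1 (id : Γ → Γ) id := by
    refine ⟨fun g y => ?_, fun g y => ?_, fun g => ?_, fun g => ?_⟩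
    · simp only [id, inv_mul_cancel_left]; linarith
    · simp only [id, inv_mul_cancel_left]; linarith
    · simp only [id, inv_mul_cancel, map_one, M.len.one]; norm_num
    · simp only [id, inv_mul_cancel, map_one, M.len.one]; norm_num
  have h1 := h.f_lip x s
  have h2 := hid.f_lip x s
  unfold dsp
  have e : M.f F (x * s) - M.f id (x * s) - (M.f F x - M.f id x) =
      (M.f F (x * s) - M.f F x) - (M.f id (x * s) - M.f id x) := by abel
  rw [e]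
  refine (norm_sub_le _ _).trans ((add_le_add h1 h2).trans (le_of_eq ?_))
  ring

/-- the cell of `1` -/
theorem cell_len {s : S} (hs : M.fl s = M.fl 1) : (M.l s : ℝ) ≤ 2 * M.C0 := by
  have h1 := M.fl_close s
  have h2 := M.fl_close 1
  rw [hs] at h1
  rw [mul_one, M.len.inv] at h2
  have h3 : (M.l s : ℝ) ≤ M.l (M.inG (M.fl 1)) + M.l ((M.inG (M.fl 1))⁻¹ * s) := by
    have := M.len.mul (M.inG (M.fl 1)) ((M.inG (M.fl 1))⁻¹ * s)
    rw [mul_inv_cancel_left] at this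
    exact_mod_cast this
  linarith

/-- a measurable set of finite measure containing a ball -/
theorem exists_B1 (r : ℝ) : ∃ B1 : Set S, MeasurableSet B1 ∧ M.μ B1 ≠ ⊤ ∧
    (∀ s, (M.l s : ℝ) ≤ r → s ∈ B1) ∧ ∀ s ∈ B1, (M.l s : ℝ) ≤ r + 2 * M.C0 := by
  refine ⟨M.cells {γ | (M.l (M.inG γ) : ℝ) ≤ r + M.C0}, M.measurableSet_cells _, ?_, ?_, ?_⟩
  · refine ne_top_of_le_ne_top (M.ball_ne_top ⌈r + 2 * M.C0⌉₊) (measure_mono ?_)
    intro s hs
    have h1 : (M.l (M.inG (M.fl s)) : ℝ) ≤ r + M.C0 := hs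
    have h2 := M.fl_close s
    have h3 : (M.l s : ℝ) ≤ M.l (M.inG (M.fl s)) + M.l ((M.inG (M.fl s))⁻¹ * s) := by
      have := M.len.mul (M.inG (M.fl s)) ((M.inG (M.fl s))⁻¹ * s)
      rw [mul_inv_cancel_left] at this
      exact_mod_cast this
    have h4 : (M.l s : ℝ) ≤ ⌈r + 2 * M.C0⌉₊ := (by linarith : (M.l s : ℝ) ≤ r + 2 * M.C0).trans
      (Nat.le_ceil _)
    exact_mod_cast h4
  · intro s hs
    have h2 := M.fl_close s
    show (M.l (M.inG (M.fl s)) : ℝ) ≤ r + M.C0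
    have h3 : (M.l (M.inG (M.fl s)) : ℝ) ≤ M.l s + M.l ((M.inG (M.fl s))⁻¹ * s) := by
      have := M.len.mul s ((M.inG (M.fl s))⁻¹ * s)⁻¹
      rw [M.len.inv] at this
      have e : s * ((M.inG (M.fl s))⁻¹ * s)⁻¹ = M.inG (M.fl s) := by group
      rw [e] at this
      exact_mod_cast this
    linarith
  · intro s hs
    have h1 : (M.l (M.inG (M.fl s)) : ℝ) ≤ r + M.C0 := hs
    have h2 := M.fl_close s
    have h3 : (M.l s : ℝ) ≤ M.l (M.inG (M.fl s)) + M.l ((M.inG (M.fl s))⁻¹ * s) := by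
      have := M.len.mul (M.inG (M.fl s)) ((M.inG (M.fl s))⁻¹ * s)
      rw [mul_inv_cancel_left] at this
      exact_mod_cast this
    linarith

/-- `M.f id` is the height up to a constant -/
theorem f_id_le (z : S) : ‖M.f id z - M.θ z‖ ≤ M.C0 * M.C0 := by
  have h : M.f id z - M.θ z = M.θ (z⁻¹ * M.inG (M.fl z)) := by
    rw [M.θ_inv_mul]; rfl
  rw [h]
  refine (M.θ_le _).trans (mul_le_mul_of_nonneg_left ?_ M.C0_pos.le)
  rw [← M.l_comm]
  exact M.fl_close z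

open Classical in
/-- **From the Haar form of the comparison to the counting form.** -/
theorem hNC_of_NCA (hN : NCA M) (K : ℝ) : ∃ (ξ : ℝ) (CR : ℕ), 0 < ξ ∧ 1 ≤ CR ∧
    ∀ c' : ℝ, 0 < c' → ∃ (κ J : Type) (Kf : ℕ → Finset κ) (Lam : ℕ → κ → Finset J)
      (ψ : ℕ → κ → J → S), (∀ R, ∀ k ∈ Kf R, ∀ i ∈ Lam R k, M.l (ψ R k i) ≤ CR * R) ∧
      (∀ ε : ℝ, 0 < ε → ∃ C : ℝ, ∀ R : ℕ, ((Kf R).card : ℝ) ≤ C * Real.exp (ε * R)) ∧
      ∀ A : ℕ, ∃ c : ℝ, 0 < c ∧ ∃ R1 : ℕ, ∀ R, R1 ≤ R → ∀ j : ℕ,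
      (j : ℝ) ≤ Real.exp (c * R) → ∀ F F' : Γ → Γ, M.QIm K F F' →
        NCat M.l (M.f id) (dsp M F) A j R ξ (Real.exp (-(c' * R))) (Kf R) (Lam R) (ψ R) := by
  obtain ⟨ξ0, CR, hξ0, hCR, HN⟩ := hN K
  refine ⟨ξ0 / 2, CR, by positivity, hCR, fun c' hc' => ?_⟩
  obtain ⟨κ, Kf, P, R0, h1, h2, h3, h4, h5⟩ := HN (c' / 3) (by positivity)
  -- the cells
  obtain ⟨B0, hB0⟩ : ∃ B0 : Set S, B0 = M.fl ⁻¹' {M.fl 1} := ⟨_, rfl⟩
  have hB0m : MeasurableSet B0 := by rw [hB0]; exact M.fl_meas _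
  have hB0μ : M.μ B0 = M.cv := by rw [hB0]; exact M.mu_cell _
  have hB0pos : M.μ B0 ≠ 0 := by rw [hB0μ]; exact M.cv_ne_zero
  have hB0top : M.μ B0 ≠ ⊤ := by rw [hB0μ]; exact M.cv_ne_top
  have hB0len : ∀ b ∈ B0, (M.l b : ℝ) ≤ 2 * M.C0 := by
    intro b hb
    rw [hB0] at hb
    exact cell_len M hb
  have h10 : (1 : S) ∈ B0 := by rw [hB0]; rfl
  obtain ⟨B1, hB1m, hB1top, hB1a, hB1b⟩ := exists_B1 M (4 * M.C0)
  have hB01 : ∀ b ∈ B0, ∀ b' ∈ B0, b' * b⁻¹ ∈ B1 := by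
    intro b hb b' hb'
    apply hB1a
    have := M.len.mul b' b⁻¹
    rw [M.len.inv] at this
    have h6 : (M.l (b' * b⁻¹) : ℝ) ≤ M.l b' + M.l b := by exact_mod_cast this
    have h7 := hB0len b hb
    have h8 := hB0len b' hb'
    linarith
  obtain ⟨a, ha⟩ : ∃ a : ℝ, a = (M.μ B1 / M.μ B0).toReal := ⟨_, rfl⟩
  have ha0 : 0 ≤ a := by rw [ha]; exact ENNReal.toReal_nonneg
  have haμ : M.μ B1 ≤ ENNReal.ofReal a * M.μ B0 := by
    rw [ha, ENNReal.ofReal_toReal (ENNReal.div_ne_top hB1top hB0pos),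
      ENNReal.div_mul_cancel hB0pos hB0top]
  -- the nets
  have hnet : ∀ R k, R0 ≤ R → k ∈ Kf R → ∃ Y : Finset S, (∀ y ∈ Y, y ∈ P R k) ∧
      (Y.card : ℝ≥0∞) * M.μ B0 ≤ M.μ {x | ∃ y ∈ P R k, (M.l (y⁻¹ * x) : ℝ) ≤ 2 * M.C0} ∧
      ∀ y ∈ P R k, ∃ y' ∈ Y, ∃ b ∈ B0, ∃ b' ∈ B0, y * b = y' * b' := by
    intro R k hR hk
    refine exists_net M.μ M.mpl hB0m hB0pos h10 (fun y hy b hb => ⟨y, hy, ?_⟩) ?_
    · rw [inv_mul_cancel_left]
      exact hB0len b hb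
    · exact ne_top_of_le_ne_top (ENNReal.mul_ne_top ENNReal.ofReal_ne_top (h4 R hR k hk))
        (h3 R hR k hk)
  choose! Y hY1 hY2 hY3 using hnet
  obtain ⟨Lam, hLam⟩ : ∃ Lam : ℕ → κ → Finset S, Lam = fun R k =>
    if R0 ≤ R ∧ k ∈ Kf R then Y R k else ∅ := ⟨_, rfl⟩
  have hLam1 : ∀ R k, R0 ≤ R ∧ k ∈ Kf R → Lam R k = Y R k := by
    intro R k h
    rw [hLam]
    simp only
    rw [if_pos h]
  have hLam2 : ∀ R k, ¬ (R0 ≤ R ∧ k ∈ Kf R) → Lam R k = ∅ := by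
    intro R k h
    rw [hLam]
    simp only
    rw [if_neg h]
  refine ⟨κ, S, Kf, Lam, fun _ _ y => y, ?_, h2, ?_⟩
  · intro R k hk y hy
    by_cases hR : R0 ≤ R ∧ k ∈ Kf R
    · rw [hLam1 R k hR] at hy
      exact h1 R hR.1 k hk y (hY1 R k hR.1 hR.2 y hy)
    · rw [hLam2 R k hR] at hy
      simp at hy
  intro A
  obtain ⟨c, hc, R1, H⟩ := h5 A
  obtain ⟨δ, hδ⟩ : ∃ δ : ℝ, δ = M.C0 * (K + 1) * (2 * M.C0 + 1) * (6 * M.C0 + 1) := ⟨_, rfl⟩
  have ev1 := Z1.ev_const a (ε := c' / 3) (by positivity)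
  obtain ⟨r₁, hr₁⟩ := (((ev1.and (Filter.eventually_ge_atTop (2 * δ / ξ0))).and
    (Filter.eventually_ge_atTop (2 * (M.C0 * M.C0))))).exists_forall_of_atTop
  obtain ⟨R2, hR2⟩ := exists_nat_ge r₁
  refine ⟨c, hc, R0 + R1 + R2, fun R hR j hj F F' hF z hz hgood hconf a' => ?_⟩
  have hR0 : R0 ≤ R := by omega
  have hRr : r₁ ≤ R := hR2.trans (by exact_mod_cast (by omega : R2 ≤ R))
  obtain ⟨⟨e1, e2⟩, e3⟩ := hr₁ R hRr
  have hC0 := M.C0_pos
  have hK0 := hF.K_nonneg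
  have hmain := H R (by omega) j hj F F' hF z hz ?_ ?_
  · have h6 := norm_le_pi_norm (dsp M F (z j) - dsp M F (z 0)) a'
    rw [Real.norm_eq_abs, Pi.sub_apply] at h6
    exact h6.trans hmain
  · intro i hi k hk
    have hg := hgood i hi k hk
    rw [hLam1 R k ⟨hR0, hk⟩] at hg
    have h6 := haar_le M.μ M.mpl (hY2 R k hR0 hk) (hY3 R k hR0 hk) hB1m hB01 haμ (dsp M F)
      (δ := δ) (fun x g hg => (dsp_lip M hF x g).trans (by
        rw [hδ]
        have h7 := hB1b g hg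
        have h8 : (0 : ℝ) ≤ M.C0 * (K + 1) * (2 * M.C0 + 1) := by positivity
        exact mul_le_mul_of_nonneg_left (by linarith) h8)) (z := z i) (τ := ξ0 / 2 * R)
      (θ := Real.exp (-(c' * R))) (Real.exp_pos _).le hg
    refine (measure_mono ?_).trans (h6.trans ?_)
    · rintro y ⟨hy, hlt⟩
      refine ⟨hy, lt_of_le_of_lt ?_ hlt⟩
      rw [div_le_iff₀ hξ0] at e2
      linarith
    · calc ENNReal.ofReal (Real.exp (-(c' * R))) * (ENNReal.ofReal a *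
            M.μ {x | ∃ y ∈ P R k, (M.l (y⁻¹ * x) : ℝ) ≤ 2 * M.C0})
          ≤ ENNReal.ofReal (Real.exp (-(c' * R))) * (ENNReal.ofReal (Real.exp (c' / 3 * R)) *
            (ENNReal.ofReal (Real.exp (c' / 3 * R)) * M.μ (P R k))) := by
            gcongr
            exact h3 R hR0 k hk
        _ = ENNReal.ofReal (Real.exp (-(c' / 3 * R))) * M.μ (P R k) := by
            rw [← mul_assoc, ← mul_assoc, ← ENNReal.ofReal_mul (Real.exp_pos _).le,
              ← ENNReal.ofReal_mul (by positivity), ← Real.exp_add, ← Real.exp_add]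
            congr 3
            ring
  · intro i hi
    have h6 := hconf i hi
    have h7 : ‖M.f id (z i) - M.f id (z 0)‖ ≤ R := by
      rw [pi_norm_le_iff_of_nonneg (Nat.cast_nonneg R)]
      intro b
      rw [Real.norm_eq_abs, Pi.sub_apply]
      exact h6 b
    have h8 := f_id_le M (z i)
    have h9 := f_id_le M (z 0)
    have e : M.θ (z i) - M.θ (z 0) = -(M.f id (z i) - M.θ (z i)) +
        ((M.f id (z 0) - M.θ (z 0)) + (M.f id (z i) - M.f id (z 0))) := by abel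
    rw [e]
    refine (norm_add_le _ _).trans ?_
    have h10 := norm_add_le (M.f id (z 0) - M.θ (z 0)) (M.f id (z i) - M.f id (z 0))
    rw [norm_neg]
    linarith

/-! ### the main theorem -/

section glue

variable {η : Γ →* Multiplicative (Fin k → ℤ)}

theorem θ_inG (hη : M.η.comp M.inG = η) (y : Γ) (a : Fin k) : M.θ (M.inG y) a = htG η y a := by
  subst hη
  rfl

theorem dispF_eq (hη : M.η.comp M.inG = η) {H : Type} [Group H] (F : H → Γ) (F' : Γ → H) (h : H)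
    (g : Γ) : (fun s => dispF η F F' (h, g * (rnd M).fl s)) =
      fun s => dsp M (Psi F F' h) (M.inG g * s) := by
  funext s a
  unfold dispF dsp RModel.f Psi
  rw [Pi.sub_apply, θ_inG M hη, θ_inG M hη, M.fl_mul]
  rfl

theorem dispF_eq' (hη : M.η.comp M.inG = η) {H : Type} [Group H] (F : H → Γ) (F' : Γ → H)
    (h : H) : (fun s => dispF η F F' (h, (rnd M).fl s)) = dsp M (Psi F F' h) := by
  funext s a
  unfold dispF dsp RModel.f Psi
  rw [Pi.sub_apply, θ_inG M hη, θ_inG M hη]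
  rfl

theorem htG_eq (hη : M.η.comp M.inG = η) : (fun s => htG η ((rnd M).fl s)) = M.f id := by
  funext s a
  unfold RModel.f
  rw [θ_inG M hη]
  rfl

open Classical in
/-- flatness of a function which is close -/
theorem flatI_close {I : Type} {φ : I → S} {W W' : S → Fin k → ℝ} {R1 : ℕ} {B : Finset I}
    {α α' ε r : ℝ} (h : FlatI (selfAct S) φ M.l W R1 B α ε) (hr : ∀ z, ‖W' z - W z‖ ≤ r)
    (hα : α + 2 * r ≤ α') : FlatI (selfAct S) φ M.l W' R1 B α' ε := by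
  intro Y g hg
  refine le_trans ?_ (h Y g hg)
  have : ((B ×ˢ B).filter fun q => α' < ‖W' ((selfAct S).act Y (φ q.2 * g)) -
      W' ((selfAct S).act Y (φ q.1))‖) ⊆ ((B ×ˢ B).filter fun q =>
      α < ‖W ((selfAct S).act Y (φ q.2 * g)) - W ((selfAct S).act Y (φ q.1))‖) := by
    intro q hq
    rw [Finset.mem_filter] at hq ⊢
    refine ⟨hq.1, ?_⟩
    have h1 := hr ((selfAct S).act Y (φ q.2 * g))
    have h2 := hr ((selfAct S).act Y (φ q.1))
    have h3 : ‖W' ((selfAct S).act Y (φ q.2 * g)) - W' ((selfAct S).act Y (φ q.1))‖ ≤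
        ‖W ((selfAct S).act Y (φ q.2 * g)) - W ((selfAct S).act Y (φ q.1))‖ + 2 * r := by
      have e : W' ((selfAct S).act Y (φ q.2 * g)) - W' ((selfAct S).act Y (φ q.1)) =
          (W ((selfAct S).act Y (φ q.2 * g)) - W ((selfAct S).act Y (φ q.1))) +
          ((W' ((selfAct S).act Y (φ q.2 * g)) - W ((selfAct S).act Y (φ q.2 * g))) -
            (W' ((selfAct S).act Y (φ q.1)) - W ((selfAct S).act Y (φ q.1)))) := by abel
      rw [e]
      refine (norm_add_le _ _).trans ?_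
      have := norm_sub_le (W' ((selfAct S).act Y (φ q.2 * g)) - W ((selfAct S).act Y (φ q.2 * g)))
        (W' ((selfAct S).act Y (φ q.1)) - W ((selfAct S).act Y (φ q.1)))
      linarith
    linarith [hq.2]
  exact_mod_cast Finset.card_le_card this

variable {H : Type} [Group H] {F : H → Γ} {F' : Γ → H}

open Pointwise in
/-- the maps of the restricted family are close to the maps of the family -/
theorem psi_close (hF : Coarse F) (hF' : Coarse F') (hFF : CloseId (F' ∘ F))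
    {H₀ : Subgroup H} {F₀' : Γ → H₀} (c4 : CloseId ((fun x : H₀ => F x) ∘ F₀')) :
    ∃ r : ℝ, 0 ≤ r ∧ ∀ (h : H₀) (z : S),
      ‖dsp M (Psi (fun x : H₀ => F x) F₀' h) z - dsp M (Psi F F' h) z‖ ≤ r := by
  obtain ⟨E, hE, hE'⟩ := hFF
  obtain ⟨E₄, hE₄, hE₄'⟩ := c4
  obtain ⟨B₁, hB₁, hB₁'⟩ := hF' E₄ hE₄
  obtain ⟨B, hB, hB'⟩ := hF (B₁ * E⁻¹) (hB₁.mul hE.inv)
  obtain ⟨r, hr0, hr⟩ := len_finite M hB
  refine ⟨M.C0 * r, mul_nonneg M.C0_pos.le hr0, fun h z => ?_⟩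
  have e1 : dsp M (Psi (fun x : H₀ => F x) F₀' h) z - dsp M (Psi F F' h) z =
      M.θ (M.inG ((F ((h : H) * F' (M.fl z)))⁻¹ * F ((h * F₀' (M.fl z) : H₀) : H))) := by
    rw [map_mul, map_inv, M.θ_inv_mul]
    unfold dsp RModel.f Psi
    abel
  rw [e1]
  refine (M.θ_le _).trans (mul_le_mul_of_nonneg_left ?_ M.C0_pos.le)
  apply hr
  refine hB' _ _ ?_
  have h1 : (F₀' (M.fl z) : H)⁻¹ * F' (F (F₀' (M.fl z))) ∈ E := hE' _
  have h2 : (F' (M.fl z))⁻¹ * F' (F (F₀' (M.fl z))) ∈ B₁ := hB₁' _ _ (hE₄' (M.fl z))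
  have e2 : ((h : H) * F' (M.fl z))⁻¹ * ((h * F₀' (M.fl z) : H₀) : H) =
      ((F' (M.fl z))⁻¹ * F' (F (F₀' (M.fl z)))) *
        ((F₀' (M.fl z) : H)⁻¹ * F' (F (F₀' (M.fl z))))⁻¹ := by
    rw [Subgroup.coe_mul]; group
  rw [e2]
  exact Set.mul_mem_mul h2 (Set.inv_mem_inv.2 h1)

open Pointwise in
/-- **Route A for one model.** -/
theorem outA_model (hη : M.η.comp M.inG = η) (hS : HasMean S) (hG : HasMean Γ) {c : ℕ}
    (hnil : lcs M.E c = ⊥) {p Cg : ℕ} (hCg : 1 ≤ Cg) (hgen : Gen M.l M.E p Cg) (hNC : NCA M)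
    [Group.FG H] (hF : Coarse F) (hF' : Coarse F') (hFF : CloseId (F' ∘ F))
    (hFF' : CloseId (F ∘ F')) (H₀ : Subgroup H) (hH₀ : H₀.FiniteIndex)
    (hin : InputA M {Ψ | ∃ h ∈ H₀, Ψ = Psi F F' h}) :
    ∃ T : Set H₀, T.Finite ∧ Subgroup.closure T = ⊤ ∧ ∃ μ : (H₀ → ℝ) → ℝ, IsMean μ ∧
      (∀ (g : H₀) f, Bdd f → μ (fun x => f (x * g)) = μ f) ∧
      Cmp μ (hts η fun x : H₀ => F x) (T ∪ T⁻¹ ∪ {1}) := by
  classical
  haveI := M.E_normal
  obtain ⟨F₀', c1, c2, c3, c4⟩ := coarse_restrict hF hF' hFF hFF' H₀ hH₀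
  haveI : Group.FG H₀ := by
    haveI := hH₀
    exact Subgroup.fg_of_index_ne_zero H₀
  obtain ⟨T, hTf, hT⟩ := exists_fin_gen (G := H₀) inferInstance
  obtain ⟨K, hK⟩ := fam_QIm M c1 c2 c3 c4
  obtain ⟨ξ, CR, hξ, hCR, HN⟩ := hNC_of_NCA M hNC K
  obtain ⟨C1, Mc, HI⟩ := hin
  obtain ⟨r, hr0, hr⟩ := psi_close M hF hF' hFF c4
  have hK0 : 0 ≤ K := (hK 1).K_nonneg
  have hC0 := M.C0_pos
  have key := cmp_A2 M.l M.len M.E c hnil p Cg hCg hgen C1 Mc hS hG (rnd M)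
    (fun g => M.l (M.inG g)) (2 * ⌈M.C0⌉₊ + 1) (fun q s => rnd_fl_le M q s) ⌈M.C0⌉₊
    (fun q => rnd_r_le M q) η (fun x : H₀ => F x) F₀' c1 c3 c4
    (M.C0 * (K + 1) * (2 * M.C0 + 1) * 2) (by positivity) ?_ ξ hξ CR hCR ?_ ?_
  · obtain ⟨ν, h1, h2, h3⟩ := key
    exact ⟨T, hTf, hT, ν, h1, h2, h3 _ ((hTf.union hTf.inv).union (Set.finite_singleton 1))⟩
  · -- Lipschitz
    rintro ⟨h, x⟩ g
    have e1 : dispF η (fun x : H₀ => F x) F₀' ((prodAct H₀ Γ).act (h, x) g) -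
        dispF η (fun x : H₀ => F x) F₀' (h, x) =
        M.θ (M.inG ((Psi (fun x : H₀ => F x) F₀' h x)⁻¹ *
          Psi (fun x : H₀ => F x) F₀' h (x * g))) - M.θ (M.inG g) := by
      funext a
      have h1 : M.θ (M.inG g) a = M.θ (M.inG (x * g)) a - M.θ (M.inG x) a := by
        rw [map_mul, M.θ_mul, Pi.add_apply]; ring
      rw [Pi.sub_apply, Pi.sub_apply, h1, map_mul, map_inv, M.θ_inv_mul, Pi.sub_apply,
        θ_inG M hη, θ_inG M hη, θ_inG M hη, θ_inG M hη]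
      unfold dispF Psi prodAct
      simp only
      ring
    rw [e1]
    have h2 := (hK h).lip x g
    have h3 : ‖M.θ (M.inG ((Psi (fun x : H₀ => F x) F₀' h x)⁻¹ *
        Psi (fun x : H₀ => F x) F₀' h (x * g)))‖ ≤ M.C0 * (K * (M.l (M.inG g) + 1)) :=
      (M.θ_le _).trans (mul_le_mul_of_nonneg_left h2 hC0.le)
    have h4 := M.θ_le (M.inG g)
    rcases Nat.eq_zero_or_pos (M.l (M.inG g)) with h5 | h5
    · have h6 := M.l_zero _ h5
      have h7 : g = 1 := M.inG_inj (h6.trans (map_one _).symm)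
      subst h7
      rw [mul_one, inv_mul_cancel, map_one, M.θ_one, sub_zero, norm_zero]
      positivity
    · have h6 : (1 : ℝ) ≤ M.l (M.inG g) := by exact_mod_cast h5
      refine (norm_sub_le _ _).trans ((add_le_add h3 h4).trans ?_)
      have h7 : M.C0 * (K * (M.l (M.inG g) + 1)) ≤ M.C0 * (K * (M.l (M.inG g) * 2)) :=
        mul_le_mul_of_nonneg_left (mul_le_mul_of_nonneg_left (by linarith) hK0) hC0.le
      have h8 : M.C0 * (K + 1) * 1 * 2 * (M.l (M.inG g) : ℝ) ≤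
          M.C0 * (K + 1) * (2 * M.C0 + 1) * 2 * (M.l (M.inG g) : ℝ) := by
        have : (0 : ℝ) ≤ M.C0 * (K + 1) := by positivity
        gcongr
        linarith
      have h9 : 0 ≤ M.C0 * (M.l (M.inG g) : ℝ) := by positivity
      refine le_trans ?_ h8
      nlinarith
  · intro c' hc'
    obtain ⟨κ, J, Kf, Lam, ψ, a1, a2, a3⟩ := HN c' hc'
    refine ⟨κ, J, Kf, Lam, ψ, a1, a2, fun A => ?_⟩
    obtain ⟨c, hc, R1, a4⟩ := a3 A
    refine ⟨c, hc, R1, fun R hR j hj h => ?_⟩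
    rw [htG_eq M hη, dispF_eq' M hη]
    exact a4 R hR j hj _ _ (hK h)
  · intro η0 ε0 hη0 hε0
    obtain ⟨Rm, hRm⟩ := exists_nat_ge (4 * r / η0)
    obtain ⟨R1, I, φ, B, Bs, b1, b2, b3, b4⟩ := HI (η0 / 2) ε0 (by positivity) hε0 Rm
    refine ⟨R1, I, φ, B, Bs, b2, b3, fun h g => ?_⟩
    rw [dispF_eq M hη]
    refine flatI_close M (b4 _ ⟨h, h.2, rfl⟩ (M.inG g)) (r := r)
      (fun z => hr h (M.inG g * z)) ?_
    have h1 : 4 * r / η0 ≤ R1 := hRm.trans (by exact_mod_cast b1)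
    rw [div_le_iff₀ hη0] at h1
    linarith

end glue

end

end Vale.Agent.P188.H382
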