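import Vale.Agent.P188.H235.EBox
import Vale.Agent.P188.H235.Grid
import Vale.Agent.P188.H382.AsmA

/-!
# P188, route A, block hinput: flatness on the grid from flatness for the measure
-/

set_option linter.all false

open MeasureTheory Set Filter Topology
open scoped ENNReal Pointwise

namespace Vale.Agent.P188.H382

open Vale.Agent.P188 Agent.P188.H428 Vale.Agent.P188.H789
open Vale.Agent.P188.Z1 (RModel)
open Vale.Agent.P188.H235
open Vale.Agent.P188.H540 (vec LP)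

/-- disjoint cells of a grid -/
theorem cells_count {d : ℕ} {q : ℝ} (hq : 0 < q) (A : Finset (Fin d → ℤ)) (U : Set (Fin d → ℝ))
    (h : ∀ n ∈ A, ∀ x : Fin d → ℝ, (∀ i, q⁻¹ * n i ≤ x i ∧ x i < q⁻¹ * (n i + 1)) → x ∈ U) :
    (A.card : ℝ≥0∞) * ENNReal.ofReal (q⁻¹ ^ d) ≤ volume U := by
  classical
  obtain ⟨cell, hcell⟩ : ∃ cell : (Fin d → ℤ) → Set (Fin d → ℝ), cell = fun n =>
    Set.pi univ fun i => Ico (q⁻¹ * (n i : ℝ)) (q⁻¹ * ((n i : ℝ) + 1)) := ⟨_, rfl⟩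
  have hmem : ∀ n x, x ∈ cell n ↔ ∀ i, q⁻¹ * (n i : ℝ) ≤ x i ∧ x i < q⁻¹ * ((n i : ℝ) + 1) := by
    intro n x
    rw [hcell]
    simp only [Set.mem_pi, Set.mem_univ, true_imp_iff, Set.mem_Ico]
  have hm : ∀ n, MeasurableSet (cell n) := by
    intro n
    rw [hcell]
    exact MeasurableSet.univ_pi fun i => measurableSet_Ico
  have hv : ∀ n, volume (cell n) = ENNReal.ofReal (q⁻¹ ^ d) := by
    intro n
    rw [hcell]
    simp only
    rw [Real.volume_pi_Ico]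
    have : ∀ i : Fin d, ENNReal.ofReal (q⁻¹ * ((n i : ℝ) + 1) - q⁻¹ * (n i : ℝ)) =
        ENNReal.ofReal q⁻¹ := by
      intro i
      congr 1
      ring
    rw [Finset.prod_congr rfl fun i _ => this i, Finset.prod_const, Finset.card_univ,
      Fintype.card_fin, ENNReal.ofReal_pow (by positivity)]
  have hfl : ∀ n x, x ∈ cell n → n = fun i => ⌊q * x i⌋ := by
    intro n x hx
    rw [hmem] at hx
    funext i
    obtain ⟨h1, h2⟩ := hx i
    symm
    rw [Int.floor_eq_iff]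
    rw [inv_mul_le_iff₀ hq] at h1
    rw [lt_inv_mul_iff₀ hq] at h2
    exact ⟨h1, h2⟩
  have hd : (A : Set (Fin d → ℤ)).PairwiseDisjoint cell := by
    intro n _ n' _ hne
    rw [Function.onFun, Set.disjoint_left]
    intro x hx hx'
    exact hne ((hfl n x hx).trans (hfl n' x hx').symm)
  calc (A.card : ℝ≥0∞) * ENNReal.ofReal (q⁻¹ ^ d) = ∑ n ∈ A, volume (cell n) := by
        rw [Finset.sum_congr rfl fun n _ => hv n, Finset.sum_const, nsmul_eq_mul]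
    _ = volume (⋃ n ∈ A, cell n) := (measure_biUnion_finset hd fun n _ => hm n).symm
    _ ≤ volume U := by
        refine measure_mono ?_
        intro x hx
        simp only [Set.mem_iUnion] at hx
        obtain ⟨n, hn, hx⟩ := hx
        exact h n hn x ((hmem n x).1 hx)

variable {S : Type} [Group S] [MeasurableSpace S] {Γ : Type} [Group Γ]
  {V : Type} [AddCommGroup V] [Module ℝ V] {k : ℕ} {M : RModel S Γ V k}

/-- the constant in `flatI_grid` -/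
noncomputable def flC (M : RModel S Γ V k) (K : ℝ) : ℝ :=
  2 * (M.C0 * K * (2 * M.C0 + 1) * (2 * M.C0 + 1) + M.C0 * M.C0)

/-- small moves in the chart -/
theorem chart_move {B : M.NatBox} {d : ℕ} (c : EChart M B d) {R : M.ι → ℝ}
    (hR : ∀ i, 2 * B.C ^ 2 ≤ R i) (R1 : ℕ) :
    ∃ δ : ℝ, 0 < δ ∧ ∀ x x' : Fin d → ℝ, (c.P x ∈ B.Bx fun i => B.C⁻¹ * R i) → ‖x' - x‖ ≤ δ →
      c.P x' ∈ B.Bx R ∧ ∀ K F F', M.QIm K F F' → ∀ Y g, M.l g ≤ R1 →
        ‖M.f F (Y * (c.P x' * g)) - M.f F (Y * (c.P x * g))‖ ≤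
          M.C0 * K * (2 * M.C0 + 1) * (2 * M.C0 + 1) := by
  have hC := B.one_le
  have hC0 : 0 < B.C := by linarith
  have hm0 := M.one_le_C0
  have hRC : ∀ i, 2 * B.C ≤ B.C⁻¹ * R i := by
    intro i
    rw [le_inv_mul_iff₀ hC0]
    have := hR i
    nlinarith
  have hRp : ∀ i, 0 < B.C⁻¹ * R i := fun i => by have := hRC i; linarith
  obtain ⟨Cb, hCb⟩ := (c.cpt (fun i => B.C⁻¹ * R i) hRp).isBounded.exists_norm_le
  obtain ⟨δ, hδ, H⟩ := c.cont Cb (Real.exp (-(M.C0 * R1))) (Real.exp_pos _)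
  refine ⟨δ, hδ, fun x x' hx hxx => ?_⟩
  obtain ⟨z, hz, hP⟩ := H x x' (hCb x hx) hxx
  have hz1 : M.nm z ≤ 1 := hz.trans (Real.exp_le_one_iff.2 (by
    have : (0 : ℝ) ≤ M.C0 * R1 := by positivity
    linarith))
  -- `z ∈ e`
  have hzE : M.ex z ∈ M.E := by
    have h1 : M.ex z = (c.P x)⁻¹ * c.P x' := by rw [hP]; group
    rw [h1]
    exact M.E.mul_mem (M.E.inv_mem (c.mem x)) (c.mem x')
  obtain ⟨v, hv, hvz⟩ := (M.mem_E _).1 hzE
  have hvz' : v = z := M.ex_inj hvz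
  subst hvz'
  constructor
  · have h1 : M.ex v ∈ B.Bx fun i => B.C⁻¹ * R i := by
      refine B.mono _ _ ?_ ?_ (B.ball_e v hv)
      · intro i
        unfold RModel.two
        split_ifs
        · norm_num
        · have := M.nm_nonneg v
          positivity
      · intro i
        refine le_trans ?_ (hRC i)
        unfold RModel.two
        split_ifs
        · linarith
        · nlinarith
    have h2 := B.mul (fun i => B.C⁻¹ * R i) (fun i => (hRp i).le) _ hx _ h1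
    rw [hP]
    have e : (fun i => B.C * (B.C⁻¹ * R i)) = R := by
      funext i
      rw [mul_inv_cancel_left₀ hC0.ne']
    rwa [e] at h2
  · intro K F F' hF Y g hg
    have e1 : Y * (c.P x' * g) = (Y * (c.P x * g)) * (g⁻¹ * M.ex v * g) := by
      rw [hP]; group
    have e2 : g⁻¹ * M.ex v * g = M.ex (M.Ad g⁻¹ v) := by
      rw [M.ex_Ad, inv_inv]
    rw [e1, e2]
    refine (hF.f_lip _ _).trans ?_
    have h3 : M.nm (M.Ad g⁻¹ v) ≤ 1 := by
      refine (M.Ad_le _ _).trans ?_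
      rw [M.len.inv]
      calc Real.exp (M.C0 * M.l g) * M.nm v
          ≤ Real.exp (M.C0 * R1) * Real.exp (-(M.C0 * R1)) := by
            refine mul_le_mul (Real.exp_le_exp.2 ?_) hz (M.nm_nonneg _) (Real.exp_pos _).le
            have : (M.l g : ℝ) ≤ R1 := by exact_mod_cast hg
            exact mul_le_mul_of_nonneg_left this (by linarith)
        _ = 1 := by rw [← Real.exp_add, add_neg_cancel, Real.exp_zero]
    have h4 := M.met_V (M.Ad g⁻¹ v)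
    have h5 : (M.l (M.ex (M.Ad g⁻¹ v)) : ℝ) ≤ 2 * M.C0 := h4.trans (by nlinarith)
    have hK := hF.K_nonneg
    have h6 : (0 : ℝ) ≤ M.C0 * K * (2 * M.C0 + 1) := by positivity
    exact mul_le_mul_of_nonneg_left (by linarith) h6

open Classical in
/-- **From flatness for the measure to flatness on the grid.** -/
theorem flatI_grid {B : M.NatBox} {d : ℕ} (c : EChart M B d) {R : M.ι → ℝ}
    (hR : ∀ i, 2 * B.C ^ 2 ≤ R i) {K : ℝ} {𝓕 : Set (Γ → Γ)}
    (hQ : ∀ F ∈ 𝓕, ∃ F', M.QIm K F F') {τ ε : ℝ} (hε : 0 ≤ ε) {R1 : ℕ}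
    (hlam : ∀ F ∈ 𝓕, ∀ Y : S, ∃ cY : Fin k → ℝ, ∀ g, M.l g ≤ R1 →
      c.ν {x | x ∈ B.Bx R ∧ τ < ‖M.f F (Y * (x * g)) - cY - M.θ g‖} ≤
        ENNReal.ofReal ε * c.ν (B.Bx fun i => B.C⁻¹ * R i)) :
    ∀ᶠ q : ℝ in atTop, ∀ (hq : GridP d {x | c.P x ∈ B.Bx fun i => B.C⁻¹ * R i} q),
      ∀ F ∈ 𝓕, ∀ Y : S, FlatI (selfAct S) (fun n : Fin d → ℤ => c.P (q⁻¹ • vec n)) M.l
        (fun s => dsp M F (Y * s)) R1 hq.fin.toFinset (2 * τ + flC M K) (4 * ε) := by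
  have hC := B.one_le
  have hC0 : 0 < B.C := by linarith
  have hm0 := M.one_le_C0
  have hRp : ∀ i, 0 < B.C⁻¹ * R i := fun i => by
    have := hR i
    have h2 : 0 < R i := by nlinarith
    positivity
  obtain ⟨δ, hδ, H⟩ := chart_move c hR R1
  filter_upwards [eventually_ge_atTop δ⁻¹, eventually_gt_atTop 0] with q hqδ hq0 hq F hF Y
  obtain ⟨F', hFF⟩ := hQ F hF
  have hqi : q⁻¹ ≤ δ := by
    rw [inv_le_comm₀ hq0 hδ]
    exact hqδ
  obtain ⟨Cl, hCl⟩ : ∃ Cl : ℝ, Cl = M.C0 * K * (2 * M.C0 + 1) * (2 * M.C0 + 1) := ⟨_, rfl⟩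
  obtain ⟨Bf, hBf⟩ : ∃ Bf : Finset (Fin d → ℤ), Bf = hq.fin.toFinset := ⟨_, rfl⟩
  rw [← hBf]
  have hBmem : ∀ n ∈ Bf, c.P (q⁻¹ • vec n) ∈ B.Bx fun i => B.C⁻¹ * R i := by
    intro n hn
    rw [hBf, Set.Finite.mem_toFinset] at hn
    exact (Set.mem_smul_set_iff_inv_smul_mem₀ hq0.ne' _ _).1 hn
  have hBcard : volume.real {x | c.P x ∈ B.Bx fun i => B.C⁻¹ * R i} * q ^ d ≤ 2 * Bf.card := by
    have h1 := hq.vol
    rwa [Set.ncard_eq_toFinset_card _ hq.fin, ← hBf] at h1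
  intro Y' g hg
  obtain ⟨cY, hcY⟩ := hlam F hF (Y * Y')
  -- bad points of the grid
  have bad : ∀ g' : S, M.l g' ≤ R1 → (((Bf.filter fun n => τ + Cl <
      ‖M.f F (Y * Y' * (c.P (q⁻¹ • vec n) * g')) - cY - M.θ g'‖).card : ℝ)) ≤
      2 * ε * Bf.card := by
    intro g' hg'
    obtain ⟨A, hA⟩ : ∃ A : Finset (Fin d → ℤ), A = Bf.filter fun n => τ + Cl <
      ‖M.f F (Y * Y' * (c.P (q⁻¹ • vec n) * g')) - cY - M.θ g'‖ := ⟨_, rfl⟩
    rw [← hA]
    obtain ⟨U, hU⟩ : ∃ U : Set S, U = {x | x ∈ B.Bx R ∧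
      τ < ‖M.f F (Y * Y' * (x * g')) - cY - M.θ g'‖} := ⟨_, rfl⟩
    have h1 := cells_count hq0 A (c.P ⁻¹' U) (by
      intro n hn x hx
      rw [hA, Finset.mem_filter] at hn
      have h2 : ‖x - q⁻¹ • vec n‖ ≤ δ := by
        refine le_trans ?_ hqi
        rw [pi_norm_le_iff_of_nonneg (by positivity)]
        intro i
        obtain ⟨h3, h4⟩ := hx i
        rw [Real.norm_eq_abs, Pi.sub_apply, Pi.smul_apply, smul_eq_mul, abs_le]
        have h5 : vec n i = (n i : ℝ) := rfl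
        rw [h5]
        have h6 : 0 < q⁻¹ := by positivity
        constructor
        · linarith
        · rw [mul_add, mul_one] at h4
          linarith
      obtain ⟨h7, h8⟩ := H _ x (hBmem n hn.1) h2
      have h9 := h8 K F F' hFF (Y * Y') g' hg'
      rw [Set.mem_preimage, hU]
      refine ⟨h7, ?_⟩
      have h10 := hn.2
      have e : M.f F (Y * Y' * (c.P (q⁻¹ • vec n) * g')) - cY - M.θ g' =
          (M.f F (Y * Y' * (c.P x * g')) - cY - M.θ g') - (M.f F (Y * Y' * (c.P x * g')) -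
            M.f F (Y * Y' * (c.P (q⁻¹ • vec n) * g'))) := by abel
      rw [e] at h10
      have h11 := norm_sub_le (M.f F (Y * Y' * (c.P x * g')) - cY - M.θ g')
        (M.f F (Y * Y' * (c.P x * g')) - M.f F (Y * Y' * (c.P (q⁻¹ • vec n) * g')))
      rw [← hCl] at h9
      linarith)
    have h2 : volume (c.P ⁻¹' U) ≤ ENNReal.ofReal ε *
        volume {x | c.P x ∈ B.Bx fun i => B.C⁻¹ * R i} := by
      rw [← c.ν_apply (B.meas _)]
      refine le_trans ?_ (hcY g' hg')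
      rw [← hU]
      exact Measure.le_map_apply c.meas.aemeasurable U
    have hfin : volume {x | c.P x ∈ B.Bx fun i => B.C⁻¹ * R i} ≠ ⊤ :=
      (c.cpt _ hRp).measure_lt_top.ne
    have h3 := h1.trans h2
    have h4 := ENNReal.toReal_mono (ENNReal.mul_ne_top ENNReal.ofReal_ne_top hfin) h3
    rw [ENNReal.toReal_mul, ENNReal.toReal_mul, ENNReal.toReal_natCast,
      ENNReal.toReal_ofReal (by positivity), ENNReal.toReal_ofReal hε] at h4
    have h5 : (0 : ℝ) < q ^ d := by positivity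
    have h6 : (A.card : ℝ) * (q⁻¹ ^ d) * q ^ d ≤ ε * volume.real {x | c.P x ∈ B.Bx fun i =>
        B.C⁻¹ * R i} * q ^ d := mul_le_mul_of_nonneg_right h4 h5.le
    rw [mul_assoc, ← mul_pow, inv_mul_cancel₀ hq0.ne', one_pow, mul_one, mul_assoc] at h6
    calc (A.card : ℝ) ≤ ε * (volume.real {x | c.P x ∈ B.Bx fun i => B.C⁻¹ * R i} * q ^ d) := h6
      _ ≤ ε * (2 * Bf.card) := mul_le_mul_of_nonneg_left hBcard hε
      _ = 2 * ε * Bf.card := by ring
  -- pairs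
  have hθP : ∀ n : Fin d → ℤ, M.θ (c.P (q⁻¹ • vec n)) = 0 := by
    intro n
    obtain ⟨v, _, hv⟩ := (M.mem_E _).1 (c.mem (q⁻¹ • vec n))
    have h1 : M.η (c.P (q⁻¹ • vec n)) = 1 := by rw [← hv]; exact M.η_ex v
    funext i
    show ((Multiplicative.toAdd (M.η (c.P (q⁻¹ • vec n))) i : ℤ) : ℝ) = 0
    rw [h1]
    simp
  have hdsp : ∀ (n : Fin d → ℤ) (g' : S), ‖dsp M F (Y * (Y' * (c.P (q⁻¹ • vec n) * g'))) -
      (M.f F (Y * Y' * (c.P (q⁻¹ • vec n) * g')) - M.θ (Y * Y') - M.θ g')‖ ≤ M.C0 * M.C0 := by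
    intro n g'
    have e0 : Y * (Y' * (c.P (q⁻¹ • vec n) * g')) = Y * Y' * (c.P (q⁻¹ • vec n) * g') := by group
    have e1 : M.θ (Y * Y' * (c.P (q⁻¹ • vec n) * g')) = M.θ (Y * Y') + M.θ g' := by
      rw [M.θ_mul, M.θ_mul (c.P _), hθP, zero_add]
    unfold dsp
    rw [e0]
    have e2 : M.f F (Y * Y' * (c.P (q⁻¹ • vec n) * g')) -
        M.f id (Y * Y' * (c.P (q⁻¹ • vec n) * g')) -
        (M.f F (Y * Y' * (c.P (q⁻¹ • vec n) * g')) - M.θ (Y * Y') - M.θ g') =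
        -(M.f id (Y * Y' * (c.P (q⁻¹ • vec n) * g')) -
          M.θ (Y * Y' * (c.P (q⁻¹ • vec n) * g'))) := by
      rw [e1]; abel
    rw [e2, norm_neg]
    exact f_id_le M _
  have hb1 := bad g hg
  have hb2 := bad 1 (by rw [M.len.one]; exact Nat.zero_le _)
  obtain ⟨G1, hG1⟩ : ∃ G1 : Finset (Fin d → ℤ), G1 = Bf.filter fun n => τ + Cl <
      ‖M.f F (Y * Y' * (c.P (q⁻¹ • vec n) * g)) - cY - M.θ g‖ := ⟨_, rfl⟩
  obtain ⟨G2, hG2⟩ : ∃ G2 : Finset (Fin d → ℤ), G2 = Bf.filter fun n => τ + Cl <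
      ‖M.f F (Y * Y' * (c.P (q⁻¹ • vec n) * 1)) - cY - M.θ 1‖ := ⟨_, rfl⟩
  rw [← hG1] at hb1
  rw [← hG2] at hb2
  have hsub : ((Bf ×ˢ Bf).filter fun p : (Fin d → ℤ) × (Fin d → ℤ) => 2 * τ + flC M K <
      ‖(fun s => dsp M F (Y * s)) ((selfAct S).act Y' (c.P (q⁻¹ • vec p.2) * g)) -
        (fun s => dsp M F (Y * s)) ((selfAct S).act Y' (c.P (q⁻¹ • vec p.1)))‖) ⊆
      (Bf ×ˢ G1) ∪ (G2 ×ˢ Bf) := by
    intro p hp
    rw [Finset.mem_filter, Finset.mem_product] at hp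
    obtain ⟨⟨hp1, hp2⟩, hp3⟩ := hp
    rw [Finset.mem_union, Finset.mem_product, Finset.mem_product]
    by_contra hcon
    push Not at hcon
    obtain ⟨hc1, hc2⟩ := hcon
    have hn1 : ‖M.f F (Y * Y' * (c.P (q⁻¹ • vec p.2) * g)) - cY - M.θ g‖ ≤ τ + Cl := by
      by_contra h
      refine hc1 hp1 ?_
      rw [hG1, Finset.mem_filter]
      exact ⟨hp2, not_le.1 h⟩
    have hn2 : ‖M.f F (Y * Y' * (c.P (q⁻¹ • vec p.1) * 1)) - cY - M.θ 1‖ ≤ τ + Cl := by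
      by_contra h
      refine hc2 ?_ hp2
      rw [hG2, Finset.mem_filter]
      exact ⟨hp1, not_le.1 h⟩
    have hd1 := hdsp p.2 g
    have hd2 := hdsp p.1 1
    have ea : (selfAct S).act Y' (c.P (q⁻¹ • vec p.2) * g) =
      Y' * (c.P (q⁻¹ • vec p.2) * g) := rfl
    have eb : (selfAct S).act Y' (c.P (q⁻¹ • vec p.1)) = Y' * (c.P (q⁻¹ • vec p.1) * 1) := by
      rw [mul_one]; rfl
    rw [ea, eb] at hp3
    simp only at hp3
    refine absurd hp3 (not_lt.2 ?_)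
    have e3 : dsp M F (Y * (Y' * (c.P (q⁻¹ • vec p.2) * g))) -
        dsp M F (Y * (Y' * (c.P (q⁻¹ • vec p.1) * 1))) =
        (dsp M F (Y * (Y' * (c.P (q⁻¹ • vec p.2) * g))) -
          (M.f F (Y * Y' * (c.P (q⁻¹ • vec p.2) * g)) - M.θ (Y * Y') - M.θ g)) -
        (dsp M F (Y * (Y' * (c.P (q⁻¹ • vec p.1) * 1))) -
          (M.f F (Y * Y' * (c.P (q⁻¹ • vec p.1) * 1)) - M.θ (Y * Y') - M.θ 1)) +
        ((M.f F (Y * Y' * (c.P (q⁻¹ • vec p.2) * g)) - cY - M.θ g) -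
          (M.f F (Y * Y' * (c.P (q⁻¹ • vec p.1) * 1)) - cY - M.θ 1)) := by abel
    rw [e3]
    refine (norm_add_le _ _).trans ?_
    have h1 := norm_sub_le (dsp M F (Y * (Y' * (c.P (q⁻¹ • vec p.2) * g))) -
          (M.f F (Y * Y' * (c.P (q⁻¹ • vec p.2) * g)) - M.θ (Y * Y') - M.θ g))
        (dsp M F (Y * (Y' * (c.P (q⁻¹ • vec p.1) * 1))) -
          (M.f F (Y * Y' * (c.P (q⁻¹ • vec p.1) * 1)) - M.θ (Y * Y') - M.θ 1))
    have h2 := norm_sub_le (M.f F (Y * Y' * (c.P (q⁻¹ • vec p.2) * g)) - cY - M.θ g)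
          (M.f F (Y * Y' * (c.P (q⁻¹ • vec p.1) * 1)) - cY - M.θ 1)
    have e4 : flC M K = 2 * Cl + 2 * (M.C0 * M.C0) := by rw [hCl]; unfold flC; ring
    rw [e4]
    linarith
  refine (Nat.cast_le.2 (Finset.card_le_card hsub)).trans ?_
  have h1 : (((Bf ×ˢ G1) ∪ (G2 ×ˢ Bf)).card : ℝ) ≤ Bf.card * G1.card + G2.card * Bf.card := by
    have := Finset.card_union_le (Bf ×ˢ G1) (G2 ×ˢ Bf)
    rw [Finset.card_product, Finset.card_product] at this
    exact_mod_cast this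
  refine h1.trans ?_
  have hB0 : (0 : ℝ) ≤ Bf.card := Nat.cast_nonneg _
  nlinarith

end Vale.Agent.P188.H382
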