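import Vale.Agent.P188.H382.IdxL2

/-!
# Rare large displacements and fixed displacements modulo `⁅N, N⁆`: indexed noise
-/

set_option linter.unusedSectionVars false

universe u v w x y

namespace Vale.Agent.P188.H382

open Finset Vale.Agent.P188 Agent.P188.H428

variable {S : Type u} [Group S] [DecidableEq S] {X : Type v} (A : RAct S X) {μ : (X → ℝ) → ℝ}
variable {I : Type y} (φ : I → S) {E : Type w} [NormedAddCommGroup E]

/-- the noise in the group -/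
def om {J : ℕ} (ω : Fin J → I × I) : Fin J → S × S := fun i => (φ (ω i).1, φ (ω i).2)

/-- number of bad events along a chain. -/
def icost (bd : S → X → I → I → ℕ) : (J : ℕ) → (Fin J → S) → (Fin J → I × I) → X → ℕ
  | 0, _, _, _ => 0
  | J + 1, g, ω, z => bd (g 0) (A.act z (φ (ω 0).1)⁻¹) (ω 0).1 (ω 0).2 +
      icost bd J (Fin.tail g) (Fin.tail ω) (A.act z ((φ (ω 0).1)⁻¹ * (φ (ω 0).2 * g 0)))

lemma iwt_eq_pow (bd : S → X → I → I → ℕ) (t : ℝ) (J : ℕ) (g : Fin J → S) (ω : Fin J → I × I)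
    (z : X) :
    iwt A φ (fun s Y h h' => t ^ bd s Y h h') J g ω z = t ^ icost A φ bd J g ω z := by
  induction J generalizing z with
  | zero => simp [iwt, icost]
  | succ J ih =>
    simp only [iwt, icost]
    rw [ih, pow_add]

lemma idisp_le (W : X → E) (bd : S → X → I → I → ℕ) (α D : ℝ) (hα : 0 ≤ α) (hD : 0 ≤ D)
    (B : Finset I) (J : ℕ) (g : Fin J → S)
    (hbd : ∀ i Y n' n, bd (g i) Y n' n = 0 →
      ‖W (A.act Y (φ n * g i)) - W (A.act Y (φ n'))‖ ≤ α)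
    (hW : ∀ i, ∀ n' ∈ B, ∀ n ∈ B, ∀ z, ‖W (A.act z ((φ n')⁻¹ * (φ n * g i))) - W z‖ ≤ D)
    (ω : Fin J → I × I) (hω : ω ∈ nz B J) (z : X) :
    ‖W (A.act z (out J g (om φ ω))) - W z‖ ≤ α * J + D * icost A φ bd J g ω z := by
  induction J generalizing z with
  | zero => simp [out, icost, A.one]
  | succ J ih =>
    rw [mem_nz] at hω
    have h0 := hω 0
    set z' : X := A.act z ((φ (ω 0).1)⁻¹ * (φ (ω 0).2 * g 0)) with hz'
    have h1 := ih (Fin.tail g) (fun i => hbd i.succ) (fun i => hW i.succ) (Fin.tail ω)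
      (by rw [mem_nz]; exact fun i => hω i.succ) z'
    have h2 : A.act z (out (J + 1) g (om φ ω)) =
        A.act z' (out J (Fin.tail g) (om φ (Fin.tail ω))) := by
      rw [hz', A.mul]; rfl
    have h3 : ‖W z' - W z‖ ≤ α + D * (bd (g 0) (A.act z (φ (ω 0).1)⁻¹) (ω 0).1 (ω 0).2 : ℕ) := by
      by_cases hb : bd (g 0) (A.act z (φ (ω 0).1)⁻¹) (ω 0).1 (ω 0).2 = 0
      · have e2 := hbd 0 _ _ _ hb
        rw [A.mul, A.mul, inv_mul_cancel, A.one] at e2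
        rw [hb]
        calc ‖W z' - W z‖ ≤ α := e2
          _ = α + D * (0 : ℕ) := by push_cast; ring
      · have hb1 : 1 ≤ bd (g 0) (A.act z (φ (ω 0).1)⁻¹) (ω 0).1 (ω 0).2 := by omega
        have e1 := hW 0 _ h0.1 _ h0.2 z
        have hb2 : (1 : ℝ) ≤ (bd (g 0) (A.act z (φ (ω 0).1)⁻¹) (ω 0).1 (ω 0).2 : ℕ) := by
          exact_mod_cast hb1
        calc ‖W z' - W z‖ ≤ D := e1
          _ = D * 1 := (mul_one D).symm
          _ ≤ D * (bd (g 0) (A.act z (φ (ω 0).1)⁻¹) (ω 0).1 (ω 0).2 : ℕ) :=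
              mul_le_mul_of_nonneg_left hb2 hD
          _ ≤ _ := by linarith
    rw [h2]
    calc ‖W (A.act z' (out J (Fin.tail g) (om φ (Fin.tail ω)))) - W z‖
        = ‖(W (A.act z' (out J (Fin.tail g) (om φ (Fin.tail ω)))) - W z') + (W z' - W z)‖ := by
          congr 1; abel
      _ ≤ ‖W (A.act z' (out J (Fin.tail g) (om φ (Fin.tail ω)))) - W z'‖ + ‖W z' - W z‖ :=
          norm_add_le _ _
      _ ≤ (α * J + D * icost A φ bd J (Fin.tail g) (Fin.tail ω) z') + (α + D *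
          (bd (g 0) (A.act z (φ (ω 0).1)⁻¹) (ω 0).1 (ω 0).2 : ℕ)) :=
          add_le_add h1 h3
      _ = α * (J + 1 : ℕ) + D * icost A φ bd (J + 1) g ω z := by
          simp only [icost, hz']; push_cast; ring

lemma len_iout_le (l : S → ℕ) (h1 : l 1 = 0) (hmul : ∀ x y, l (x * y) ≤ l x + l y)
    (B : Finset I) (J : ℕ) (g : Fin J → S) (Λ : ℕ)
    (hl : ∀ i, ∀ n' ∈ B, ∀ n ∈ B, l ((φ n')⁻¹ * (φ n * g i)) ≤ Λ)
    (ω : Fin J → I × I) (hω : ω ∈ nz B J) : l (out J g (om φ ω)) ≤ Λ * J := by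
  induction J with
  | zero => simp [out, h1]
  | succ J ih =>
    rw [mem_nz] at hω
    have h2 := ih (Fin.tail g) (fun i => hl i.succ) (Fin.tail ω)
      (by rw [mem_nz]; exact fun i => hω i.succ)
    have h3 := hl 0 _ (hω 0).1 _ (hω 0).2
    have e : out (J + 1) g (om φ ω) = (φ (ω 0).1)⁻¹ * (φ (ω 0).2 * g 0) *
        out J (Fin.tail g) (om φ (Fin.tail ω)) := rfl
    rw [e]
    calc l ((φ (ω 0).1)⁻¹ * (φ (ω 0).2 * g 0) * out J (Fin.tail g) (om φ (Fin.tail ω)))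
        ≤ l ((φ (ω 0).1)⁻¹ * (φ (ω 0).2 * g 0)) + l (out J (Fin.tail g) (om φ (Fin.tail ω))) :=
          hmul _ _
      _ ≤ Λ + Λ * J := add_le_add h3 h2
      _ = Λ * (J + 1) := by ring

/-- First moment bound. -/
lemma mean_iwt_le (hμ : InvMean A μ) (b : S → X → I → I → ℝ)
    (hb : ∀ s h h', Bdd (fun Y => b s Y h h'))
    (B : Finset I) (hB : B.Nonempty) (J : ℕ) (g : Fin J → S)
    (hP : ∀ i Y, ∑ n' ∈ B, ∑ n ∈ B, b (g i) Y n' n ^ 2 ≤ 2 * (B.card * B.card)) :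
    ∑ ω ∈ nz B J, μ (iwt A φ b J g ω) ≤ (2 * (B.card * B.card)) ^ J := by
  have hm := hμ.mean
  have hbd : ∀ ω ∈ nz B J, Bdd (iwt A φ b J g ω) := fun ω _ => iwt_bdd A φ b hb J g ω
  have h1 := mean_iwt_sq_le A φ hμ b hb B hB (2 * (B.card * B.card)) (by positivity) J g hP
  rw [← (hm.sum (nz B J) (fun ω => iwt A φ b J g ω) hbd).2]
  have h2 := IsMean.sq_le hm (Bdd.sum' (nz B J) (fun ω => iwt A φ b J g ω) hbd)
  have hk : (1 : ℝ) ≤ B.card := by exact_mod_cast hB.card_pos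
  have h3 : μ (fun z => ∑ ω ∈ nz B J, iwt A φ b J g ω z) ^ 2
      ≤ ((2 * (B.card * B.card : ℝ)) ^ J) ^ 2 := by
    calc μ (fun z => ∑ ω ∈ nz B J, iwt A φ b J g ω z) ^ 2
        ≤ μ (fun z => (∑ ω ∈ nz B J, iwt A φ b J g ω z) ^ 2) := h2
      _ ≤ (2 * (B.card * B.card) * (B.card : ℝ) ^ 2) ^ J := h1
      _ ≤ ((2 * (B.card * B.card : ℝ)) ^ 2) ^ J := by
          apply pow_le_pow_left₀ (by positivity)
          have : 0 ≤ (B.card : ℝ) ^ 4 := by positivity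
          nlinarith
      _ = ((2 * (B.card * B.card : ℝ)) ^ J) ^ 2 := by
          rw [← pow_mul, ← pow_mul, Nat.mul_comm]
  have h4 : 0 ≤ (2 * (B.card * B.card : ℝ)) ^ J := by positivity
  exact (le_abs_self _).trans (abs_le_of_sq_le_sq h3 h4)

open Classical in
/-- Exceptional noise. -/
lemma card_bad_nz (hμ : InvMean A μ) (W : X → E) (bd : S → X → I → I → ℕ) (α D : ℝ)
    (hbd1 : ∀ s Y h h', bd s Y h h' ≤ 1)
    (hα : 0 ≤ α) (hD : 0 ≤ D) (B : Finset I) (hB : B.Nonempty) (J : ℕ) (g : Fin J → S)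
    (hbd : ∀ i Y n' n, bd (g i) Y n' n = 0 →
      ‖W (A.act Y (φ n * g i)) - W (A.act Y (φ n'))‖ ≤ α)
    (hW : ∀ i, ∀ n' ∈ B, ∀ n ∈ B, ∀ z, ‖W (A.act z ((φ n')⁻¹ * (φ n * g i))) - W z‖ ≤ D)
    (t κ : ℝ) (ht : 1 ≤ t) (htκ : t ^ κ = 1024)
    (hP : ∀ i Y, ∑ n' ∈ B, ∑ n ∈ B, ((t ^ bd (g i) Y n' n) ^ 2 : ℝ) ≤ 2 * (B.card * B.card)) :
    ((((nz B J).filter fun ω =>
      (1 / 16) ^ J < dev A μ W ((α + D * κ) * J) (out J g (om φ ω))).card : ℕ) : ℝ)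
      ≤ (1 / 32) ^ J * (nz B J).card := by
  set b : S → X → I → I → ℝ := fun s Y h h' => t ^ bd s Y h h' with hb
  have ht0 : 0 < t := lt_of_lt_of_le one_pos ht
  have hb0 : ∀ s Y h h', 0 ≤ b s Y h h' := fun s Y h h' => pow_nonneg ht0.le _
  have hbb : ∀ s h h', Bdd (fun Y => b s Y h h') := by
    intro s h h'
    refine ⟨t, fun Y => ?_⟩
    rw [abs_of_nonneg (hb0 _ _ _ _)]
    calc t ^ bd s Y h h' ≤ t ^ 1 := pow_le_pow_right₀ ht (hbd1 s Y h h')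
      _ = t := pow_one t
  have h1 := mean_iwt_le A φ hμ b hbb B hB J g hP
  set Ω := nz B J with hΩ
  have hΩcard : (Ω.card : ℝ) = (B.card * B.card : ℝ) ^ J := by
    rw [hΩ, card_nz]; push_cast; ring
  -- pointwise Markov
  have h2 : ∀ ω ∈ Ω, (dev A μ W ((α + D * κ) * J) (out J g (om φ ω)) : ℝ) * 1024 ^ J
      ≤ μ (iwt A φ b J g ω) := by
    intro ω hω
    unfold dev
    rw [mul_comm, ← hμ.mean.smul _ _ (bdd_ite _)]
    refine hμ.mean.le ((bdd_ite _).const_mul _) (iwt_bdd A φ b hbb J g ω) fun z => ?_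
    split_ifs with h
    · have h3 := idisp_le A φ W bd α D hα hD B J g hbd hW ω hω z
      have h4 : D * κ * J < D * icost A φ bd J g ω z := by nlinarith
      have h5 : κ * J < icost A φ bd J g ω z := by
        have : D * (κ * J) < D * icost A φ bd J g ω z := by rw [← mul_assoc]; exact h4
        exact lt_of_mul_lt_mul_left this hD
      rw [hb, iwt_eq_pow, mul_one]
      calc (1024 : ℝ) ^ J = (t ^ κ) ^ J := by rw [htκ]
        _ = t ^ (κ * J) := by rw [← Real.rpow_natCast, ← Real.rpow_mul ht0.le]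
        _ ≤ t ^ ((icost A φ bd J g ω z : ℕ) : ℝ) := Real.rpow_le_rpow_of_exponent_le ht h5.le
        _ = t ^ icost A φ bd J g ω z := Real.rpow_natCast _ _
    · rw [mul_zero, hb, iwt_eq_pow]
      positivity
  have h3 : (∑ ω ∈ Ω, (dev A μ W ((α + D * κ) * J) (out J g (om φ ω)) : ℝ)) * 1024 ^ J
      ≤ (2 * (B.card * B.card)) ^ J := by
    rw [Finset.sum_mul]
    exact (Finset.sum_le_sum h2).trans h1
  set Bd := Ω.filter fun ω =>
      (1 / 16) ^ J < dev A μ W ((α + D * κ) * J) (out J g (om φ ω)) with hBd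
  have h4 : (Bd.card : ℝ) * ((1 / 16) ^ J)
      ≤ ∑ ω ∈ Ω, (dev A μ W ((α + D * κ) * J) (out J g (om φ ω)) : ℝ) := by
    calc (Bd.card : ℝ) * ((1 / 16) ^ J)
        = ∑ _ω ∈ Bd, ((1 / 16 : ℝ) ^ J) := by rw [Finset.sum_const, nsmul_eq_mul]
      _ ≤ ∑ ω ∈ Bd, (dev A μ W ((α + D * κ) * J) (out J g (om φ ω)) : ℝ) :=
          Finset.sum_le_sum fun ω hω => (Finset.mem_filter.1 hω).2.le
      _ ≤ ∑ ω ∈ Ω, (dev A μ W ((α + D * κ) * J) (out J g (om φ ω)) : ℝ) :=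
          Finset.sum_le_sum_of_subset_of_nonneg (Finset.filter_subset _ _)
            fun _ _ _ => dev_nonneg A hμ W _ _
  have h5 : (Bd.card : ℝ) * ((1 / 16) ^ J) * 1024 ^ J ≤ (2 * (B.card * B.card)) ^ J :=
    le_trans (mul_le_mul_of_nonneg_right h4 (by positivity)) h3
  rw [hΩcard]
  have e1 : (Bd.card : ℝ) * ((1 / 16) ^ J) * 1024 ^ J = 64 ^ J * Bd.card := by
    have : (1024 : ℝ) ^ J = 16 ^ J * 64 ^ J := by rw [← mul_pow]; norm_num
    rw [this]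
    have e2 : (1 / 16 : ℝ) ^ J * 16 ^ J = 1 := by rw [← mul_pow]; norm_num
    linear_combination (Bd.card : ℝ) * 64 ^ J * e2
  have h7 : (64 : ℝ) ^ J * ((1 / 32) ^ J * (B.card * B.card) ^ J)
      = (2 * (B.card * B.card : ℝ)) ^ J := by
    rw [← mul_pow, ← mul_pow]
    congr 1
    ring
  rw [e1] at h5
  rw [← h7] at h5
  exact le_of_mul_le_mul_left h5 (by positivity)

/-- A big box `B` and a small box `Bs` of indices at scale `R1`, `φ` maps them to `N`; the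
overlap of `B` shifted by `Bs⁻¹ Bs` with `B` is only required modulo `⁅N, N⁆`. -/
structure BoxesI (l : S → ℕ) (N : Subgroup S) (C1 M R1 : ℕ) (B Bs : Finset I) : Prop where
  ne : Bs.Nonempty
  sub : Bs ⊆ B
  mem : ∀ n ∈ B, φ n ∈ N
  len : ∀ n ∈ B, l (φ n) ≤ C1 * R1
  card : B.card ≤ M * Bs.card
  shift : ∀ a ∈ Bs, ∀ b ∈ Bs, ∃ (D : Finset I) (σ : I → I), D ⊆ B ∧ B.card ≤ 2 * D.card ∧
    Set.InjOn σ D ∧ (∀ n ∈ D, σ n ∈ B) ∧
    ∀ n ∈ D, (φ n * ((φ a)⁻¹ * φ b))⁻¹ * φ (σ n) ∈ ⁅N, N⁆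

open Classical in
/-- Pairwise flatness of `W` on all translates of the box. -/
def FlatI (l : S → ℕ) (W : X → E) (R1 : ℕ) (B : Finset I) (α ε : ℝ) : Prop :=
  ∀ Y g, l g ≤ R1 → (((B ×ˢ B).filter fun q =>
    α < ‖W (A.act Y (φ q.2 * g)) - W (A.act Y (φ q.1))‖).card : ℝ) ≤ ε * (B.card * B.card)

open Classical in
lemma isum_sq_bd_le (W : X → E) (Y : X) (g : S) (B A' Bs : Finset I) (M : ℕ) (α ε t : ℝ)
    (hAB : A' ⊆ B) (hBA : Bs ⊆ A') (hcard : B.card ≤ M * Bs.card)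
    (hε : (M : ℝ) ^ 2 * ε * t ^ 2 ≤ 1) (hε0 : 0 ≤ ε)
    (hf : (((B ×ˢ B).filter fun q =>
      α < ‖W (A.act Y (φ q.2 * g)) - W (A.act Y (φ q.1))‖).card : ℝ) ≤ ε * (B.card * B.card)) :
    ∑ n' ∈ A', ∑ n ∈ A', ((t ^ (if ‖W (A.act Y (φ n * g)) - W (A.act Y (φ n'))‖ ≤ α
      then 0 else 1)) ^ 2 : ℝ) ≤ 2 * (A'.card * A'.card : ℝ) := by
  rw [← Finset.sum_product' A' A' (fun n' n => ((t ^ (if ‖W (A.act Y (φ n * g)) -
    W (A.act Y (φ n'))‖ ≤ α then 0 else 1)) ^ 2 : ℝ))]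
  have h1 : ∀ q ∈ A' ×ˢ A', ((t ^ (if ‖W (A.act Y (φ q.2 * g)) - W (A.act Y (φ q.1))‖ ≤ α
      then 0 else 1)) ^ 2 : ℝ)
      ≤ 1 + (if α < ‖W (A.act Y (φ q.2 * g)) - W (A.act Y (φ q.1))‖ then t ^ 2 else 0) := by
    intro q _
    by_cases h : ‖W (A.act Y (φ q.2 * g)) - W (A.act Y (φ q.1))‖ ≤ α
    · rw [if_pos h, if_neg (not_lt.2 h)]; simp
    · rw [if_neg h, if_pos (not_le.1 h)]; simp
  have h2 : ∑ q ∈ A' ×ˢ A', (if α < ‖W (A.act Y (φ q.2 * g)) - W (A.act Y (φ q.1))‖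
      then t ^ 2 else 0) = ((A' ×ˢ A').filter fun q =>
        α < ‖W (A.act Y (φ q.2 * g)) - W (A.act Y (φ q.1))‖).card * t ^ 2 := by
    rw [← Finset.sum_filter, Finset.sum_const, nsmul_eq_mul]
  have h3 : (((A' ×ˢ A').filter fun q =>
        α < ‖W (A.act Y (φ q.2 * g)) - W (A.act Y (φ q.1))‖).card : ℝ)
      ≤ ((B ×ˢ B).filter fun q => α < ‖W (A.act Y (φ q.2 * g)) - W (A.act Y (φ q.1))‖).card := by
    exact_mod_cast Finset.card_le_card
      (Finset.filter_subset_filter _ (Finset.product_subset_product hAB hAB))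
  have h4 : (B.card : ℝ) ≤ M * A'.card := by
    have : B.card ≤ M * A'.card := hcard.trans (Nat.mul_le_mul_left _ (Finset.card_le_card hBA))
    exact_mod_cast this
  have h4' : (B.card : ℝ) * B.card ≤ (M * A'.card) * (M * A'.card) :=
    mul_le_mul h4 h4 (Nat.cast_nonneg _) (by positivity)
  have h5 : (((A' ×ˢ A').filter fun q =>
        α < ‖W (A.act Y (φ q.2 * g)) - W (A.act Y (φ q.1))‖).card : ℝ) * t ^ 2
      ≤ A'.card * A'.card := by
    calc (((A' ×ˢ A').filter fun q =>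
        α < ‖W (A.act Y (φ q.2 * g)) - W (A.act Y (φ q.1))‖).card : ℝ) * t ^ 2
        ≤ (ε * ((M * A'.card) * (M * A'.card))) * t ^ 2 := by
          apply mul_le_mul_of_nonneg_right _ (sq_nonneg t)
          exact (h3.trans hf).trans (mul_le_mul_of_nonneg_left h4' hε0)
      _ = ((M : ℝ) ^ 2 * ε * t ^ 2) * (A'.card * A'.card) := by ring
      _ ≤ 1 * (A'.card * A'.card) := mul_le_mul_of_nonneg_right hε (by positivity)
      _ = A'.card * A'.card := one_mul _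
  calc ∑ q ∈ A' ×ˢ A', ((t ^ (if ‖W (A.act Y (φ q.2 * g)) - W (A.act Y (φ q.1))‖ ≤ α
      then 0 else 1)) ^ 2 : ℝ)
      ≤ ∑ q ∈ A' ×ˢ A', (1 + (if α < ‖W (A.act Y (φ q.2 * g)) - W (A.act Y (φ q.1))‖
        then t ^ 2 else 0)) := Finset.sum_le_sum h1
    _ = A'.card * A'.card + ((A' ×ˢ A').filter fun q =>
        α < ‖W (A.act Y (φ q.2 * g)) - W (A.act Y (φ q.1))‖).card * t ^ 2 := by
        rw [Finset.sum_add_distrib, h2]; simp [Finset.card_product]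
    _ ≤ 2 * (A'.card * A'.card : ℝ) := by linarith

open Classical in
/-- Existence of three good pieces of noise. -/
lemma exists_threeI (B Bs : Finset I) (hB : B.Nonempty) (J : ℕ) (P : I → I → I → I → Prop)
    (hs : ∀ a ∈ Bs, ∀ b ∈ Bs, ∃ (D : Finset I) (σ : I → I), D ⊆ B ∧ B.card ≤ 2 * D.card ∧
      Set.InjOn σ D ∧ (∀ n ∈ D, σ n ∈ B) ∧ ∀ n ∈ D, P n a b (σ n))
    (T1 T3 : (Fin J → I × I) → Prop) (q : ℝ) (hq : 2 * q < (1 / 2) ^ J)
    (hT1 : (((nz B J).filter T1).card : ℝ) ≤ q * (nz B J).card)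
    (hT3 : ((nz Bs J).filter T3).card < (nz Bs J).card) :
    ∃ ω ∈ nz B J, ∃ ω3 ∈ nz Bs J, ∃ ω' ∈ nz B J,
      ¬ T1 ω ∧ ¬ T3 ω3 ∧ ¬ T1 ω' ∧ (∀ i, (ω' i).1 = (ω i).1) ∧
      ∀ i, P (ω i).2 (ω3 i).1 (ω3 i).2 (ω' i).2 := by
  obtain ⟨ω3, hω3, hT3'⟩ : ∃ ω3 ∈ nz Bs J, ¬ T3 ω3 := by
    by_contra hcon
    push Not at hcon
    rw [Finset.filter_true_of_mem hcon] at hT3
    exact lt_irrefl _ hT3
  have hω3' := mem_nz.1 hω3
  choose D σ hDB hD hσ1 hσ2 hσ3 using fun i => hs _ (hω3' i).1 _ (hω3' i).2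
  set Ω := nz B J with hΩ
  set sh : (Fin J → I × I) → (Fin J → I × I) := fun ω i => ((ω i).1, σ i (ω i).2) with hsh
  set T : Finset (Fin J → I × I) := Fintype.piFinset fun i => B ×ˢ D i with hT
  have hmemT : ∀ ω, ω ∈ T ↔ ∀ i, (ω i).1 ∈ B ∧ (ω i).2 ∈ D i := by
    intro ω
    rw [hT, Fintype.mem_piFinset]
    simp only [Finset.mem_product]
  have hTΩ : ∀ ω ∈ T, ω ∈ Ω := by
    intro ω hω
    rw [hmemT] at hω
    rw [hΩ, mem_nz]
    exact fun i => ⟨(hω i).1, hDB i (hω i).2⟩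
  have hshΩ : ∀ ω ∈ T, sh ω ∈ Ω := by
    intro ω hω
    rw [hmemT] at hω
    rw [hΩ, mem_nz]
    exact fun i => ⟨(hω i).1, hσ2 i _ (hω i).2⟩
  have hinj : Set.InjOn sh T := by
    intro ω hω ω' hω' h
    rw [Finset.mem_coe, hmemT] at hω hω'
    funext i
    have hi := congrFun h i
    simp only [hsh, Prod.mk.injEq] at hi
    exact Prod.ext hi.1 (hσ1 i (hω i).2 (hω' i).2 hi.2)
  have hcount : Ω.card ≤ 2 ^ J * T.card := by
    rw [hΩ, card_nz, hT, Fintype.card_piFinset]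
    have h2 : (B.card * B.card) ^ J = ∏ _i : Fin J, (B.card * B.card) := by simp
    have h3 : (2 : ℕ) ^ J = ∏ _i : Fin J, 2 := by simp
    rw [h2, h3, ← Finset.prod_mul_distrib]
    refine Finset.prod_le_prod' fun i _ => ?_
    rw [Finset.card_product]
    calc B.card * B.card ≤ B.card * (2 * (D i).card) := Nat.mul_le_mul_left _ (hD i)
      _ = 2 * (B.card * (D i).card) := by ring
  by_contra hcon
  push Not at hcon
  have hsub : T ⊆ (Ω.filter T1) ∪ (T.filter fun ω => T1 (sh ω)) := by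
    intro ω hω
    have hω1 := hTΩ ω hω
    rw [Finset.mem_union]
    by_cases h : T1 ω
    · exact Or.inl (Finset.mem_filter.2 ⟨hω1, h⟩)
    · refine Or.inr (Finset.mem_filter.2 ⟨hω, ?_⟩)
      by_contra h'
      obtain ⟨i, hi⟩ := hcon ω hω1 ω3 hω3 (sh ω) (hshΩ ω hω) h hT3' h' (fun i => rfl)
      exact hi (hσ3 i _ ((hmemT ω).1 hω i).2)
  have hc2 : (T.filter fun ω => T1 (sh ω)).card ≤ (Ω.filter T1).card := by
    refine Finset.card_le_card_of_injOn sh ?_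
      (hinj.mono (Finset.coe_subset.2 (Finset.filter_subset _ _)))
    intro ω hω
    have h1 := Finset.mem_filter.1 hω
    exact Finset.mem_coe.2 (Finset.mem_filter.2 ⟨hshΩ ω h1.1, h1.2⟩)
  have hc1 : T.card ≤ (Ω.filter T1).card + (Ω.filter T1).card :=
    le_trans (Finset.card_le_card hsub) (le_trans (Finset.card_union_le _ _)
      (Nat.add_le_add_left hc2 _))
  have hpos : 0 < Ω.card := by
    rw [hΩ, card_nz]
    exact pow_pos (Nat.mul_pos hB.card_pos hB.card_pos) J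
  have hposR : (0 : ℝ) < Ω.card := by exact_mod_cast hpos
  have h1 : (Ω.card : ℝ) ≤ 2 ^ J * T.card := by exact_mod_cast hcount
  have h2 : (T.card : ℝ) ≤ 2 * (q * Ω.card) := by
    have : (T.card : ℝ) ≤ (Ω.filter T1).card + (Ω.filter T1).card := by exact_mod_cast hc1
    linarith
  have h3 : (Ω.card : ℝ) ≤ 2 ^ J * (2 * q) * Ω.card := by
    calc (Ω.card : ℝ) ≤ 2 ^ J * T.card := h1
      _ ≤ 2 ^ J * (2 * (q * Ω.card)) := mul_le_mul_of_nonneg_left h2 (by positivity)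
      _ = _ := by ring
  have h4 : (2 : ℝ) ^ J * (2 * q) < 1 := by
    calc (2 : ℝ) ^ J * (2 * q) < 2 ^ J * (1 / 2) ^ J :=
          mul_lt_mul_of_pos_left hq (by positivity)
      _ = 1 := by rw [← mul_pow]; norm_num
  have h5 : (2 : ℝ) ^ J * (2 * q) * Ω.card < 1 * Ω.card := mul_lt_mul_of_pos_right h4 hposR
  linarith

/-- **Fixed displacements modulo `⁅N, N⁆`.** -/
theorem exists_Gm_modI (hμ : InvMean A μ) (l : S → ℕ) (h1 : l 1 = 0)
    (hmul : ∀ x y, l (x * y) ≤ l x + l y)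
    (hinv : ∀ x, l x⁻¹ = l x) (N : Subgroup S) [N.Normal] (W : X → E) (L : ℝ) (hL : 0 ≤ L)
    (hW : ∀ z h, ‖W (A.act z h) - W z‖ ≤ L * l h) (C1 M R1 : ℕ) (B Bs : Finset I)
    (hbox : BoxesI φ l N C1 M R1 B Bs) (α ε κ : ℝ) (hα : 0 ≤ α) (hκ : 0 < κ) (hε0 : 0 ≤ ε)
    (hε : (M : ℝ) ^ 2 * ε * ((1024 : ℝ) ^ (1 / κ)) ^ 2 ≤ 1) (hflat : FlatI A φ l W R1 B α ε)
    (J : ℕ) (hJ : 1 ≤ J) (g : Fin J → S) (hg : ∀ i, l (g i) ≤ R1) :
    ∃ d, (xp J g)⁻¹ * d ∈ ⁅N, N⁆ ∧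
      Gm A μ l W (3 * ((α + L * ((2 * C1 + 1) * R1 : ℕ) * κ) * J)) (3 * (1 / 16) ^ J)
        (3 * ((2 * C1 + 1) * R1 * J)) d := by
  classical
  set t : ℝ := (1024 : ℝ) ^ (1 / κ) with ht
  have ht1 : 1 ≤ t := by
    rw [ht]; exact Real.one_le_rpow (by norm_num) (by positivity)
  have htκ : t ^ κ = 1024 := by
    rw [ht, ← Real.rpow_mul (by norm_num), one_div, inv_mul_cancel₀ hκ.ne', Real.rpow_one]
  set bd : S → X → I → I → ℕ := fun s Y n' n =>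
    if ‖W (A.act Y (φ n * s)) - W (A.act Y (φ n'))‖ ≤ α then 0 else 1 with hbd
  have hbd0 : ∀ i Y n' n, bd (g i) Y n' n = 0 →
      ‖W (A.act Y (φ n * g i)) - W (A.act Y (φ n'))‖ ≤ α := by
    intro i Y n' n hh
    by_contra hcon
    simp only [hbd, if_neg hcon] at hh
    exact one_ne_zero hh
  have hbd1 : ∀ s Y h h', bd s Y h h' ≤ 1 := by
    intro s Y h h'
    simp only [hbd]
    split_ifs <;> omega
  set D : ℝ := L * ((2 * C1 + 1) * R1 : ℕ) with hD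
  have hD0 : 0 ≤ D := by positivity
  set r : ℕ := (2 * C1 + 1) * R1 * J with hr
  -- bounds valid for both boxes
  have hlen : ∀ A' : Finset I, A' ⊆ B → ∀ i, ∀ n' ∈ A', ∀ n ∈ A',
      l ((φ n')⁻¹ * (φ n * g i)) ≤ (2 * C1 + 1) * R1 := by
    intro A' hA i n' hn' n hn
    calc l ((φ n')⁻¹ * (φ n * g i)) ≤ l (φ n')⁻¹ + (l (φ n) + l (g i)) :=
          (hmul _ _).trans (Nat.add_le_add_left (hmul _ _) _)
      _ ≤ C1 * R1 + (C1 * R1 + R1) := by
          rw [hinv]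
          exact add_le_add (hbox.len _ (hA hn')) (add_le_add (hbox.len _ (hA hn)) (hg i))
      _ = (2 * C1 + 1) * R1 := by ring
  have main : ∀ A' : Finset I, A'.Nonempty → A' ⊆ B → Bs ⊆ A' →
      ((((nz A' J).filter fun ω =>
      (1 / 16) ^ J < dev A μ W ((α + D * κ) * J) (out J g (om φ ω))).card : ℕ) : ℝ)
      ≤ (1 / 32) ^ J * (nz A' J).card := by
    intro A' hA' hAB hBA
    refine card_bad_nz A φ hμ W bd α D hbd1 hα hD0 A' hA' J g hbd0 ?_ t κ ht1 htκ ?_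
    · intro i n' hn' n hn z
      refine (hW z _).trans (mul_le_mul_of_nonneg_left ?_ hL)
      exact_mod_cast hlen A' hAB i n' hn' n hn
    · intro i Y
      exact isum_sq_bd_le A φ W Y (g i) B A' Bs M α ε t hAB hBA hbox.card hε hε0
        (hflat Y (g i) (hg i))
  have hBne : B.Nonempty := hbox.ne.mono hbox.sub
  have mB := main B hBne (Finset.Subset.refl _) hbox.sub
  have mBs := main Bs hbox.ne hbox.sub (Finset.Subset.refl _)
  have hq : 2 * ((1 / 32 : ℝ) ^ J) < (1 / 2) ^ J := by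
    have e1 : (1 / 32 : ℝ) ^ J = (1 / 2) ^ J * (1 / 16) ^ J := by rw [← mul_pow]; norm_num
    have e2 : (1 / 16 : ℝ) ^ J ≤ 1 / 16 := by
      calc (1 / 16 : ℝ) ^ J ≤ (1 / 16) ^ 1 :=
            pow_le_pow_of_le_one (by norm_num) (by norm_num) hJ
        _ = 1 / 16 := pow_one _
    have e3 : (0 : ℝ) < (1 / 2) ^ J := by positivity
    rw [e1]
    nlinarith
  have hT3 : ((nz Bs J).filter fun ω =>
      (1 / 16) ^ J < dev A μ W ((α + D * κ) * J) (out J g (om φ ω))).card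
      < (nz Bs J).card := by
    have hpos : 0 < (nz Bs J).card := by
      rw [card_nz]
      exact pow_pos (Nat.mul_pos hbox.ne.card_pos hbox.ne.card_pos) J
    have hposR : (0 : ℝ) < (nz Bs J).card := by exact_mod_cast hpos
    have e1 : (1 / 32 : ℝ) ^ J < 1 := by
      have : (1 / 32 : ℝ) ^ J ≤ (1 / 32) ^ 1 :=
        pow_le_pow_of_le_one (by norm_num) (by norm_num) hJ
      rw [pow_one] at this
      linarith
    have e2 : (1 / 32 : ℝ) ^ J * (nz Bs J).card < (nz Bs J).card := by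
      nlinarith
    exact_mod_cast lt_of_le_of_lt mBs e2
  obtain ⟨ω, hω, ω3, hω3, ω', hω', g1, g3, g2, he1, he2⟩ := exists_threeI B Bs hBne J
    (fun n a b m => (φ n * ((φ a)⁻¹ * φ b))⁻¹ * φ m ∈ ⁅N, N⁆) hbox.shift
    (fun ω => (1 / 16) ^ J < dev A μ W ((α + D * κ) * J) (out J g (om φ ω)))
    (fun ω => (1 / 16) ^ J < dev A μ W ((α + D * κ) * J) (out J g (om φ ω)))
    ((1 / 32) ^ J) hq mB hT3
  have k1 : Gm A μ l W ((α + D * κ) * J) ((1 / 16) ^ J) r (out J g (om φ ω)) :=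
    ⟨len_iout_le φ l h1 hmul B J g _ (hlen B (Finset.Subset.refl _)) ω hω, not_lt.1 g1⟩
  have k2 : Gm A μ l W ((α + D * κ) * J) ((1 / 16) ^ J) r (out J g (om φ ω')) :=
    ⟨len_iout_le φ l h1 hmul B J g _ (hlen B (Finset.Subset.refl _)) ω' hω', not_lt.1 g2⟩
  have k3 : Gm A μ l W ((α + D * κ) * J) ((1 / 16) ^ J) r (out J g (om φ ω3)) :=
    ⟨len_iout_le φ l h1 hmul Bs J g _ (hlen Bs hbox.sub) ω3 hω3, not_lt.1 g3⟩
  have k4 := (k3.mul hμ hmul (k2.inv hμ hinv)).mul hμ hmul k1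
  refine ⟨out J g (om φ ω3) * (out J g (om φ ω'))⁻¹ * out J g (om φ ω), ?_,
    k4.mono hμ ?_ ?_ ?_⟩
  · rw [← QuotientGroup.eq]
    have hN : ∀ a ∈ N, ∀ b ∈ N, (QuotientGroup.mk' ⁅N, N⁆) a * (QuotientGroup.mk' ⁅N, N⁆) b
        = (QuotientGroup.mk' ⁅N, N⁆) b * (QuotientGroup.mk' ⁅N, N⁆) a := by
      intro a ha b hb
      rw [← map_mul, ← map_mul]
      change ((a * b : S) : S ⧸ ⁅N, N⁆) = ((b * a : S) : S ⧸ ⁅N, N⁆)
      rw [QuotientGroup.eq]
      have := Subgroup.commutator_mem_commutator (H₁ := N) (H₂ := N)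
        (N.inv_mem hb) (N.inv_mem ha)
      simpa only [commutatorElement_def, inv_inv, mul_inv_rev, mul_assoc] using this
    have hid := pr_identity (QuotientGroup.mk' ⁅N, N⁆) N hN J
      (fun i => (om φ ω i).1⁻¹ * (om φ ω i).2) (fun i => (om φ ω3 i).1⁻¹ * (om φ ω3 i).2) g
      (fun i => N.mul_mem (N.inv_mem (hbox.mem _ (mem_nz.1 hω i).1))
        (hbox.mem _ (mem_nz.1 hω i).2))
      (fun i => N.mul_mem (N.inv_mem (hbox.mem _ (hbox.sub (mem_nz.1 hω3 i).1)))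
        (hbox.mem _ (hbox.sub (mem_nz.1 hω3 i).2)))
    have e1 : (QuotientGroup.mk' ⁅N, N⁆) (out J g (om φ ω')) = (QuotientGroup.mk' ⁅N, N⁆)
        (_root_.Agent.P188.H428.pr J
          (fun i => (om φ ω i).1⁻¹ * (om φ ω i).2 * ((om φ ω3 i).1⁻¹ * (om φ ω3 i).2)) g) := by
      refine out_congr (QuotientGroup.mk' ⁅N, N⁆) J g (om φ ω') _ fun i => ?_
      have h3 : (QuotientGroup.mk' ⁅N, N⁆) (φ (ω i).2 * ((φ (ω3 i).1)⁻¹ * φ (ω3 i).2))
          = (QuotientGroup.mk' ⁅N, N⁆) (φ (ω' i).2) := QuotientGroup.eq.2 (he2 i)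
      simp only [om]
      rw [he1 i, map_mul, ← h3, ← map_mul]
      congr 1
      group
    rw [← e1, ← out_eq_pr, ← out_eq_pr] at hid
    change (QuotientGroup.mk' ⁅N, N⁆) (xp J g) =
      (QuotientGroup.mk' ⁅N, N⁆) (out J g (om φ ω3) * (out J g (om φ ω'))⁻¹ * out J g (om φ ω))
    rw [map_mul, map_mul, map_inv, hid]
    group
  · linarith
  · linarith
  · omega

end Vale.Agent.P188.H382
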