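import Vale.Agent.P188.H382.AsmA
import Vale.Agent.P188.Z1.ModelN
import Vale.Agent.P188.Z1.LabS
import Vale.Agent.P188.H131.SolvMean
import Vale.Agent.P188.H671.Grp

/-!
# Route A: the final assembly

The facts about the real model which are needed (nilpotency and generation of `E`, invariant means),
and the theorem `outA_of`.
-/

set_option linter.all false

open MeasureTheory Set
open scoped ENNReal commutatorElement

namespace Vale.Agent.P188.H382

open Vale.Agent.P188 Agent.P188.H428 Vale.Agent.P188.H789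
open Vale.Agent.P188.H796 Vale.Agent.P188.H615 Vale.Agent.P188.H269 Vale.Agent.P188.H131
open Vale.Agent.P188.Z1 (RModel Conc)

section model

variable {Γ : Type} [Group Γ] {k : ℕ} {η : Γ →* Multiplicative (Fin k → ℤ)} {d n : ℕ}
  {D : MB η.ker d n}

/-- metric facts of `E` -/
theorem conc_met {hη : Function.Surjective η} {F : Set Γ} (hF : F.Finite)
    (hgen : Subgroup.closure F = ⊤) {t : D.S} {M : RModel D.S Γ D.R.V k}
    (hM : Conc D hη F t M) : Met D M.l (eId D.AdE t) := by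
  haveI := (HS D).normal
  rw [hM.l_eq]
  exact met_of hη hF hgen ((HS D).lrep.eId_inv t)
    ((HS D).lrep.mem_PF_iff hM.sep (covers_of_sep hM.sep))

theorem conc_gen {hη : Function.Surjective η} {F : Set Γ} (hF : F.Finite)
    (hgen : Subgroup.closure F = ⊤) {t : D.S} {M : RModel D.S Γ D.R.V k}
    (hM : Conc D hη F t M) : ∃ p Cg : ℕ, 1 ≤ Cg ∧ Gen M.l M.E p Cg := by
  rw [hM.E_eq]
  exact gen_ER (conc_met hF hgen hM)

theorem conc_lcs {hη : Function.Surjective η} {F : Set Γ} {t : D.S} {M : RModel D.S Γ D.R.V k}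
    (hM : Conc D hη F t M) : lcs M.E D.R.m = ⊥ := by
  rw [hM.E_eq]
  exact lcs_ER_bot _

/-- the real group is solvable -/
theorem solvable_S {hη : Function.Surjective η} {F : Set Γ} {t : D.S} {M : RModel D.S Γ D.R.V k}
    (hM : Conc D hη F t M) : Group.IsSolvable D.S := by
  have h0 : derivedSeries D.S 1 ≤ ER (⊤ : LieIdeal ℝ D.R.V) := by
    rw [derivedSeries_one]
    have h1 : commutator D.S ≤ M.η.ker := Abelianization.commutator_subset_ker M.η
    refine h1.trans fun s hs => ?_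
    obtain ⟨v, hv⟩ := M.ex_of_η s hs
    rw [mem_ER]
    refine ⟨v, trivial, ?_⟩
    rw [← hM.ex_eq]; exact hv
  have key : ∀ i, derivedSeries D.S (1 + i) ≤ lcs (ER (⊤ : LieIdeal ℝ D.R.V)) i := by
    intro i
    induction i with
    | zero => exact h0
    | succ i ih =>
      rw [← add_assoc, derivedSeries_succ]
      have h2 : derivedSeries D.S (1 + i) ≤ ER (⊤ : LieIdeal ℝ D.R.V) :=
        (derivedSeries_antitone D.S (Nat.le_add_right 1 i)).trans h0
      exact Subgroup.commutator_mono ih h2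
  refine ⟨⟨1 + D.R.m, ?_⟩⟩
  rw [eq_bot_iff]
  exact (key _).trans (le_of_eq (lcs_ER_bot _))

theorem hasMean_S {hη : Function.Surjective η} {F : Set Γ} {t : D.S} {M : RModel D.S Γ D.R.V k}
    (hM : Conc D hη F t M) : HasMean D.S := by
  haveI := solvable_S hM
  exact hasMean_of_solvable D.S

end model

section fam

variable {S : Type} [Group S] [MeasurableSpace S] {Γ : Type} [Group Γ]
  {V : Type} [AddCommGroup V] [Module ℝ V] {k : ℕ} (M : RModel S Γ V k)
  {H : Type} [Group H] {F : H → Γ} {F' : Γ → H}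

/-- the family of maps of `Γ` is a family in the sense of LAB -/
theorem fam_psi [Group.FG H] (hF : Coarse F) (hF' : Coarse F') (h1 : CloseId (F' ∘ F))
    (h2 : CloseId (F ∘ F')) : ∃ K : ℝ, M.Fam K (Psi F F') := by
  obtain ⟨K, hK⟩ := fam_QIm M hF hF' h1 h2
  obtain ⟨E, hE, hE'⟩ := h1
  obtain ⟨E₂, hE₂, hE₂'⟩ := h2
  obtain ⟨B, hB, hB'⟩ := hF E hE
  obtain ⟨c, hc0, hc⟩ := len_finite M (hE₂.union hB)
  have hK0 := (hK 1).K_nonneg
  refine ⟨K + c, ⟨fun h => ?_, fun h h' g => ?_, fun g => ?_⟩⟩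
  · have hh := hK h
    refine ⟨fun g y => (hh.lip g y).trans ?_, fun g y => (hh.lip' g y).trans ?_,
      fun g => (hh.inv g).trans (by linarith), fun g => (hh.inv' g).trans (by linarith)⟩
    · have : (0 : ℝ) ≤ M.l (M.inG y) := Nat.cast_nonneg _
      nlinarith
    · have : (0 : ℝ) ≤ M.l (M.inG y) := Nat.cast_nonneg _
      nlinarith
  · have e : (Psi F F' (h * h') g)⁻¹ * Psi F F' h (Psi F F' h' g) ∈ E₂ ∪ B := by
      right
      refine hB' _ _ ?_
      have e2 : (h * h' * F' g)⁻¹ * (h * F' (Psi F F' h' g)) =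
          (h' * F' g)⁻¹ * F' (F (h' * F' g)) := by
        unfold Psi; group
      rw [e2]
      exact hE' _
    have := hc _ e
    linarith
  · have e : g⁻¹ * Psi F F' 1 g ∈ E₂ ∪ B := by
      left
      unfold Psi
      rw [one_mul]
      exact hE₂' g
    have := hc _ e
    linarith

end fam

/-- the facts about the box model which are used -/
structure BoxData {Γ : Type} [Group Γ] {k : ℕ} {η : Γ →* Multiplicative (Fin k → ℤ)} {d n : ℕ}
    (D : MB η.ker d n) (hη : Function.Surjective η) (F : Set Γ) (t : D.S)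
    (M : RModel D.S Γ D.R.V k) (B : M.NatBox) : Prop where
  conc : Conc D hη F t M
  extra : M.Extra
  nat : NatHyp M
  bx : B.Bx = NBx D M.X
  fine : B.Fine

/-- **Final assembly of route A.** The hypotheses are `NCA`, the labels, and the input at one
scale. -/
theorem outA_of
    (hNC : ∀ {Γ : Type} [Group Γ] {k : ℕ} {η : Γ →* Multiplicative (Fin k → ℤ)} {d n : ℕ}
      (D : MB η.ker d n) (hη : Function.Surjective η) (F : Set Γ) (t : D.S)
      (M : RModel D.S Γ D.R.V k) (B : M.NatBox), BoxData D hη F t M B → 0 < k → NCA M)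
    (hLab : ∀ {Γ : Type} [Group Γ] {k : ℕ} {η : Γ →* Multiplicative (Fin k → ℤ)} {d n : ℕ}
      (D : MB η.ker d n) (hη : Function.Surjective η) (F : Set Γ) (t : D.S)
      (M : RModel D.S Γ D.R.V k) (B : M.NatBox), BoxData D hη F t M B → 0 < k → M.LAB B)
    (hIn : ∀ {Γ : Type} [Group Γ] {k : ℕ} {η : Γ →* Multiplicative (Fin k → ℤ)} {d n : ℕ}
      (D : MB η.ker d n) (hη : Function.Surjective η) (F : Set Γ) (t : D.S)
      (M : RModel D.S Γ D.R.V k) (B : M.NatBox), BoxData D hη F t M B → 0 < k →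
      ∀ (K : ℝ) (𝓕 : Set (Γ → Γ)), (∀ Ψ ∈ 𝓕, ∃ Ψ', M.QIm K Ψ Ψ') → M.FLAT1 B 𝓕 → InputA M 𝓕) :
    OutA := by
  intro Γ _ k η hk hZ H _ _ F F' hF hF' hFF hFF'
  obtain ⟨d, n, D, F₁, t, M, B, hC, hX, hη, hF₁, hgen, hN, hB, hfine⟩ := Z1.exists_model_box hZ
  have hD : BoxData D hZ.surj F₁ t M B := ⟨hC, hX, hN, hB, hfine⟩
  obtain ⟨p, Cg, hCg, hG⟩ := conc_gen hF₁ hgen hC
  obtain ⟨m, hm⟩ := hZ.polyZ
  obtain ⟨N, hLab'⟩ := hLab D hZ.surj F₁ t M B hD hk
  obtain ⟨H₀, hH₀, hcore⟩ := H671.exists_core (H := H) inferInstance N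
  obtain ⟨K, hfam⟩ := fam_psi M hF hF' hFF hFF'
  have hflat := hLab' K H (Psi F F') hfam H₀ hcore
  have hin := hIn D hZ.surj F₁ t M B hD hk K _ (by
    rintro Ψ ⟨h, _, rfl⟩
    exact ⟨_, hfam.qi h⟩) hflat
  obtain ⟨T, hT⟩ := outA_model M hη (hasMean_S hC) (hasMean_of_PolyZ m Γ hm) (conc_lcs hC) hCg hG
    (hNC D hZ.surj F₁ t M B hD hk) hF hF' hFF hFF' H₀ hH₀ hin
  exact ⟨H₀, hH₀, T, hT⟩

end Vale.Agent.P188.H382
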