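import Vale.Agent.P188.H382.Dense
import Vale.Agent.P188.H789.Exit3

/-!
# Route A: from exponentially dense good elements and the neutral comparison to `Cmp`
-/

set_option linter.unusedSectionVars false

universe u v w

namespace Vale.Agent.P188.H382

open Finset Vale.Agent.P188 Vale.Agent.P188.H789

variable {H : Type u} [Group H] {G : Type v} [Group G] {k : ℕ}

lemma mset_mono {X : Type u} {ν : (X → ℝ) → ℝ} (hν : IsMean ν) {s t : Set X} (h : s ⊆ t) :
    mset ν s ≤ mset ν t :=
  hν.le (Bdd.indicator s) (Bdd.indicator t)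
    (fun x => Set.indicator_le_indicator_of_subset h (fun _ => zero_le_one) x)

lemma mset_biUnion_le {X : Type u} {ν : (X → ℝ) → ℝ} (hν : IsMean ν) (m : ℕ) (s : ℕ → Set X)
    {β : ℝ} (h : ∀ i < m, mset ν (s i) ≤ β) : mset ν {x | ∃ i < m, x ∈ s i} ≤ m * β := by
  have h1 : mset ν {x | ∃ i < m, x ∈ s i} ≤ ∑ i ∈ range m, mset ν (s i) := by
    unfold mset
    rw [← (hν.sum (range m) (fun i => (s i).indicator fun _ => (1 : ℝ))
      fun i _ => Bdd.indicator (s i)).2]
    refine hν.le (Bdd.indicator _) (Bdd.sum' _ _ fun i _ => Bdd.indicator (s i)) fun x => ?_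
    by_cases hx : x ∈ {x | ∃ i < m, x ∈ s i}
    · rw [Set.indicator_of_mem hx]
      obtain ⟨i, hi, hxi⟩ := hx
      have h2 : (s i).indicator (fun _ => (1 : ℝ)) x = 1 := Set.indicator_of_mem hxi _
      have h3 := Finset.single_le_sum (f := fun i => (s i).indicator (fun _ => (1 : ℝ)) x)
        (fun i _ => Set.indicator_nonneg (fun _ _ => zero_le_one) x) (mem_range.2 hi)
      simp only [h2] at h3
      exact h3
    · rw [Set.indicator_of_notMem hx]
      exact Finset.sum_nonneg fun i _ => Set.indicator_nonneg (fun _ _ => zero_le_one) x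
  refine h1.trans ((Finset.sum_le_sum fun i hi => h i (mem_range.1 hi)).trans ?_)
  rw [Finset.sum_const, nsmul_eq_mul, card_range]

open Classical in
/-- **Route A**: good elements and the comparison along good paths give `Cmp`. -/
theorem cmp_of_gd {ν : (H → ℝ) → ℝ} (hν : IsMean ν)
    (hinv : ∀ (g : H) f, Bdd f → ν (fun x => f (x * g)) = ν f)
    (F : H → G) (θ : G → Fin k → ℝ) (B : Set H) (BG : Set G)
    (hB : ∀ x y, x⁻¹ * y ∈ B → (F x)⁻¹ * F y ∈ BG)
    (W : H × G → Fin k → ℝ) (C1 : ℝ)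
    (hW : ∀ h x a, |θ (F (h * x)) a - θ (F x) a - W (h, F x) a| ≤ C1)
    (P : ℕ → H × G → Prop) (C cc : ℝ) (hcc : 0 < cc) (R0 : ℕ)
    (hdense : ∀ R : ℕ, R0 ≤ R →
      ν (fun x => if x ∈ Gd ν F (P R) (Real.exp (-(cc * R))) then 0 else 1)
        ≤ C * Real.exp (-(cc * R)))
    (c : ℝ) (hc : 0 < c) (R1 : ℕ)
    (hNC : ∀ R : ℕ, R1 ≤ R → ∀ j : ℕ, (j : ℝ) ≤ Real.exp (c * R) → ∀ (h : H) (z : ℕ → G),
      (∀ i < j, (z i)⁻¹ * z (i + 1) ∈ BG) → (∀ i ≤ j, P R (h, z i)) →
      (∀ i ≤ j, ∀ a, |θ (z i) a - θ (z 0) a| ≤ R) →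
      ∀ a, |W (h, z j) a - W (h, z 0) a| ≤ R / 8) :
    Cmp ν (fun x => θ (F x)) B := by
  set c' : ℝ := min c (cc / 4) with hc'
  have hc'0 : 0 < c' := lt_min hc (by positivity)
  have hC1 : 0 ≤ C1 ∨ k = 0 := by
    rcases Nat.eq_zero_or_pos k with h | h
    · exact Or.inr h
    · exact Or.inl ((abs_nonneg _).trans (hW 1 1 ⟨0, h⟩))
  -- large R
  obtain ⟨R2, hR2⟩ := exists_nat_ge (16 * |C1| + (4 * |C| + 4) * 4 / cc + 16 + R0 + R1)
  refine ⟨c', hc'0, R2, fun R hR m hm y hy0 hy => ?_⟩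
  have hRpos : 0 < R := by
    have h1 : 0 ≤ (4 * |C| + 4) * 4 / cc := by positivity
    have h2 : (0 : ℝ) ≤ R0 := Nat.cast_nonneg _
    have h3 : (0 : ℝ) ≤ R1 := Nat.cast_nonneg _
    have h4 := abs_nonneg C1
    linarith
  set n : ℕ := ⌈R⌉₊ with hn
  have hnR : R ≤ n := Nat.le_ceil R
  have hnR' : (n : ℝ) ≤ R + 1 := (Nat.ceil_lt_add_one hRpos.le).le
  have hbig : 16 * |C1| + (4 * |C| + 4) * 4 / cc + 16 + R0 + R1 ≤ R := hR2.trans hR
  have hc0 : 0 ≤ (4 * |C| + 4) * 4 / cc := by positivity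
  have hR0n : R0 ≤ n := by
    have h3 : (0 : ℝ) ≤ R1 := Nat.cast_nonneg _
    have h4 := abs_nonneg C1
    have : (R0 : ℝ) ≤ n := by linarith
    exact_mod_cast this
  have hR1n : R1 ≤ n := by
    have h3 : (0 : ℝ) ≤ R0 := Nat.cast_nonneg _
    have h4 := abs_nonneg C1
    have : (R1 : ℝ) ≤ n := by linarith
    exact_mod_cast this
  -- the union bound
  have hm1 : ((m : ℝ) + 1) ≤ 2 * Real.exp (cc / 4 * n) := by
    have h1 : (m : ℝ) ≤ Real.exp (cc / 4 * n) := hm.trans (Real.exp_le_exp.2 (by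
      have : c' ≤ cc / 4 := min_le_right _ _
      nlinarith))
    have h2 : 1 ≤ Real.exp (cc / 4 * n) := Real.one_le_exp (by positivity)
    linarith
  have hCexp : 4 * |C| + 4 ≤ Real.exp (cc / 4 * n) := by
    have h1 : (4 * |C| + 4) * 4 / cc ≤ n := by
      have h3 : (0 : ℝ) ≤ R1 := Nat.cast_nonneg _
      have h4 := abs_nonneg C1
      have h2 : (0 : ℝ) ≤ R0 := Nat.cast_nonneg _
      linarith
    rw [div_le_iff₀ hcc] at h1
    have := Real.add_one_le_exp (cc / 4 * n)
    linarith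
  set D : Set H := Gd ν F (P n) (Real.exp (-(cc * n))) with hD
  have hDm : mset ν Dᶜ ≤ |C| * Real.exp (-(cc * n)) := by
    have h1 := hdense n hR0n
    have h2 : mset ν Dᶜ = ν (fun x => if x ∈ D then (0 : ℝ) else 1) := by
      unfold mset
      congr 1
      funext x
      by_cases hx : x ∈ D
      · rw [if_pos hx, Set.indicator_of_notMem (not_not.2 hx)]
      · rw [if_neg hx, Set.indicator_of_mem hx]
    rw [h2]
    refine h1.trans (mul_le_mul_of_nonneg_right (le_abs_self C) (Real.exp_pos _).le)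
  have hshift : ∀ g : H, mset ν {x | x * g ∈ Dᶜ} = mset ν Dᶜ := by
    intro g
    unfold mset
    rw [← hinv g _ (Bdd.indicator Dᶜ)]
    rfl
  have hexp : Real.exp (cc / 4 * n) * Real.exp (cc / 4 * n) * Real.exp (-(cc * n)) ≤
      Real.exp (-(cc / 4 * n)) := by
    rw [← Real.exp_add, ← Real.exp_add]
    apply Real.exp_le_exp.2
    nlinarith
  have hsub : {g | ¬ GoodAt ν (fun x => θ (F x)) R m y g} ⊆
      {g | ∃ i < m + 1, g ∈ {x | x * y i ∈ Dᶜ}} := by
    intro g hg
    by_contra hcon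
    apply hg
    have hall : ∀ i ≤ m, g * y i ∈ D := by
      intro i hi
      by_contra h
      exact hcon ⟨i, by omega, h⟩
    -- bad `h`
    set Bad : Set H := {h | ∃ i < m + 1, h ∈ {h | ¬ P n (h, F (g * y i))}} with hBad
    have hBadm : mset ν Bad ≤ ((m + 1 : ℕ) : ℝ) * Real.exp (-(cc * n)) := by
      refine mset_biUnion_le hν (m + 1) _ fun i hi => ?_
      have h1 : ν (fun h => if P n (h, F (g * y i)) then (0 : ℝ) else 1)
        ≤ Real.exp (-(cc * n)) := hall i (by omega)
      refine le_of_eq_of_le ?_ h1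
      unfold mset
      congr 1
      funext x
      by_cases hx : P n (x, F (g * y i))
      · rw [if_pos hx, Set.indicator_of_notMem (not_not.2 hx)]
      · rw [if_neg hx, Set.indicator_of_mem hx]
    refine ⟨Bad, ?_, fun h hh j hj hconf a => ?_⟩
    · push_cast at hBadm
      have h1 : (m : ℝ) ≤ Real.exp (cc / 4 * n) := hm.trans (Real.exp_le_exp.2 (by
        have : c' ≤ cc / 4 := min_le_right _ _
        nlinarith))
      calc (m : ℝ) * mset ν Bad ≤ m * ((m + 1) * Real.exp (-(cc * n))) :=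
            mul_le_mul_of_nonneg_left hBadm (Nat.cast_nonneg _)
        _ ≤ Real.exp (cc / 4 * n) * ((2 * Real.exp (cc / 4 * n)) * Real.exp (-(cc * n))) := by
            refine mul_le_mul h1 ?_ (by positivity) (Real.exp_pos _).le
            exact mul_le_mul_of_nonneg_right hm1 (Real.exp_pos _).le
        _ = 2 * (Real.exp (cc / 4 * n) * Real.exp (cc / 4 * n) * Real.exp (-(cc * n))) := by
            ring
        _ ≤ 2 * Real.exp (-(cc / 4 * n)) := by linarith
        _ ≤ 1 := by
            rw [Real.exp_neg]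
            have h3 : 4 ≤ Real.exp (cc / 4 * n) := by
              have := abs_nonneg C; linarith
            have h4 : (Real.exp (cc / 4 * n))⁻¹ ≤ 4⁻¹ := inv_anti₀ (by norm_num) h3
            linarith
    · have hPall : ∀ i ≤ j, P n (h, F (g * y i)) := by
        intro i hi
        by_contra hP
        exact hh ⟨i, by omega, hP⟩
      have hjc : (j : ℝ) ≤ Real.exp (c * n) := by
        have h1 : (j : ℝ) ≤ m := by exact_mod_cast hj
        refine h1.trans (hm.trans (Real.exp_le_exp.2 ?_))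
        have : c' ≤ c := min_le_left _ _
        nlinarith
      have h1 := hNC n hR1n j hjc h (fun i => F (g * y i)) (fun i hi => hB _ _ (by
          have : (g * y i)⁻¹ * (g * y (i + 1)) = (y i)⁻¹ * y (i + 1) := by group
          rw [this]; exact hy i (by omega))) hPall
        (fun i hi a => by
          have := hconf i hi a
          simp only [hy0, mul_one]
          exact this.trans hnR) a
      simp only [hy0, mul_one] at h1
      have h2 := hW h (g * y j) a
      have h3 := hW h g a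
      have h4 : C1 ≤ |C1| := le_abs_self _
      have h5 : 16 * |C1| + 16 ≤ R := by
        have h3 : (0 : ℝ) ≤ R1 := Nat.cast_nonneg _
        have h2 : (0 : ℝ) ≤ R0 := Nat.cast_nonneg _
        linarith
      rw [abs_le] at h1 h2 h3 ⊢
      constructor <;> linarith [h1.1, h1.2, h2.1, h2.2, h3.1, h3.2]
  refine (mset_mono hν hsub).trans ?_
  refine (mset_biUnion_le hν (m + 1) (fun i => {x | x * y i ∈ Dᶜ}) (β := mset ν Dᶜ)
    fun i _ => (hshift (y i)).le).trans ?_
  push_cast
  calc ((m : ℝ) + 1) * mset ν Dᶜ ≤ (2 * Real.exp (cc / 4 * n)) *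
        (|C| * Real.exp (-(cc * n))) :=
        mul_le_mul hm1 hDm (mset_nonneg hν _) (by positivity)
    _ ≤ (2 * Real.exp (cc / 4 * n)) * (Real.exp (cc / 4 * n) / 4 * Real.exp (-(cc * n))) := by
        refine mul_le_mul_of_nonneg_left ?_ (by positivity)
        exact mul_le_mul_of_nonneg_right (by linarith) (Real.exp_pos _).le
    _ = (Real.exp (cc / 4 * n) * Real.exp (cc / 4 * n) * Real.exp (-(cc * n))) / 2 := by ring
    _ ≤ Real.exp (-(cc / 4 * n)) / 2 := by linarith
    _ ≤ 1 / 2 := by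
        have : Real.exp (-(cc / 4 * n)) ≤ 1 := Real.exp_le_one_iff.2 (by
          have : 0 ≤ cc / 4 * n := by positivity
          linarith)
        linarith

end Vale.Agent.P188.H382
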