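import Vale.Agent.P188.H382.Trans

/-!
# Good points and good elements are exponentially dense
-/

set_option linter.unusedSectionVars false

universe u v w x y y' y''

namespace Vale.Agent.P188.H382

open Finset Vale.Agent.P188 Agent.P188.H428 Vale.Agent.P188.H789

variable {S : Type u} [Group S] {E : Type w} [NormedAddCommGroup E]

open Classical in
/-- **Good points are exponentially dense** (concentration, and a union bound). -/
theorem good_dense (l : S → ℕ) (hl : IsLen l) (N : Subgroup S) [N.Normal] (c : ℕ)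
    (hnil : lcs N c = ⊥) (p Cg : ℕ) (hCg : 1 ≤ Cg) (hgen : Gen l N p Cg) (C1 M : ℕ)
    (L : ℝ) (hL : 0 ≤ L) (η : ℝ) (hη : 0 < η) (θ : ℝ) (hθ : 0 < θ) (CR : ℕ) (hCR : 1 ≤ CR) :
    ∃ η0 ε0 : ℝ, 0 < η0 ∧ 0 < ε0 ∧ ∀ (R1 : ℕ) (I : Type y) (φ : I → S) (B Bs : Finset I),
      1 ≤ R1 → BoxesI φ l N C1 M R1 B Bs → ∃ (R0 : ℕ) (cc : ℝ), 0 < cc ∧
      ∀ (X : Type v) (A : RAct S X) (μ : (X → ℝ) → ℝ) (W : X → E), InvMean A μ →
      (∀ z h, ‖W (A.act z h) - W z‖ ≤ L * l h) → FlatI A φ l W R1 B (η0 * R1) ε0 →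
      ∀ R : ℕ, R0 ≤ R → ∀ (κ : Type y') (J : Type y'') (K : Finset κ) (Lam : κ → Finset J)
        (ψ : κ → J → S), (∀ k ∈ K, ∀ i ∈ Lam k, l (ψ k i) ≤ CR * R) →
        (K.card : ℝ) ≤ Real.exp (cc * R) →
        μ (fun z => if GoodS A W (η * R) θ K Lam ψ z then 0 else 1) ≤ Real.exp (-(cc * R)) := by
  have hCR' : (1 : ℝ) ≤ CR := by exact_mod_cast hCR
  obtain ⟨η0, ε0, hη0, hε0, H⟩ := concI.{u, v, w, y} (E := E) l hl N c hnil p Cg hCg hgen C1 M
    L hL (η / CR) (by positivity)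
  refine ⟨η0, ε0, hη0, hε0, fun R1 I φ B Bs hR1 hbox => ?_⟩
  obtain ⟨R0, cc, hcc, HH⟩ := H R1 I φ B Bs hR1 hbox
  -- exp (-(cc / 3) R) ≤ θ for large R
  obtain ⟨R2, hR2⟩ := exists_nat_ge (3 * (1 / θ) / cc)
  refine ⟨R0 + R2, cc / 3, by positivity, ?_⟩
  intro X A μ W hμ hW hflat R hR κ J K Lam ψ hlen hK
  have hRR : R0 ≤ CR * R := by
    have : R0 ≤ R := by omega
    nlinarith
  have hdev : ∀ k ∈ K, ∀ i ∈ Lam k, dev A μ W (η * R) (ψ k i) ≤ Real.exp (-(cc * R)) := by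
    intro k hk i hi
    have h1 := HH X A μ W hμ hW hflat (CR * R) hRR (ψ k i) (hlen k hk i hi)
    have e1 : η / CR * ((CR * R : ℕ) : ℝ) = η * R := by
      push_cast
      field_simp
    rw [e1] at h1
    refine h1.trans (Real.exp_le_exp.2 ?_)
    push_cast
    have : (R : ℝ) ≤ CR * R := by nlinarith [(Nat.cast_nonneg R : (0 : ℝ) ≤ R)]
    have := mul_le_mul_of_nonneg_left this hcc.le
    linarith
  refine (mean_not_good_le A hμ W (η * R) θ (Real.exp (-(cc * R))) hθ K Lam ψ hdev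
    (Real.exp_pos _).le).trans ?_
  have hθ2 : 1 / θ ≤ Real.exp (cc / 3 * R) := by
    have h2 : 3 * (1 / θ) / cc ≤ R := hR2.trans (by exact_mod_cast (by omega : R2 ≤ R))
    rw [div_le_iff₀ hcc] at h2
    have h3 := Real.add_one_le_exp (cc / 3 * R)
    have h4 : 1 / θ ≤ cc / 3 * R := by linarith
    linarith
  calc (K.card : ℝ) * (Real.exp (-(cc * R)) / θ)
      = K.card * (1 / θ) * Real.exp (-(cc * R)) := by ring
    _ ≤ Real.exp (cc / 3 * R) * Real.exp (cc / 3 * R) * Real.exp (-(cc * R)) := by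
        refine mul_le_mul_of_nonneg_right ?_ (Real.exp_pos _).le
        exact mul_le_mul hK hθ2 (by positivity) (Real.exp_pos _).le
    _ = Real.exp (-(cc / 3 * R)) := by
        rw [← Real.exp_add, ← Real.exp_add]
        congr 1
        ring

section

variable {G : Type v} [Group G] {H : Type x} [Group H] {Q : Type y} (ρ : Rounding S G Q)

open Classical in
/-- Good points of the `G`-set `H × G`: some point above in the induced `S`-set is good. -/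
def Good0 (W : H × G → E) (τ θ : ℝ) {κ : Type y'} {J : Type y''} (K : Finset κ)
    (Lam : κ → Finset J) (ψ : κ → J → S) (z : H × G) : Prop :=
  ∃ q : Q, GoodS (ind ρ (prodAct H G)) (fun z : (H × G) × Q => W z.1) τ θ K Lam ψ (z, q)

open Classical in
/-- The mean of the bad points of `H × G` is at most the mean of the bad points above. -/
theorem prodMean_not_Good0_le {ν : (H → ℝ) → ℝ} (hν : IsMean ν) {μ : (G → ℝ) → ℝ}
    (hμ : IsMean μ) (hinv : ∀ (g : G) f, Bdd f → μ (fun x => f (x * g)) = μ f)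
    {m : (S → ℝ) → ℝ} (hm : IsMean m) (hminv : ∀ (s : S) f, Bdd f → m (fun t => f (t * s)) = m f)
    (W : H × G → E) (τ θ : ℝ) {κ : Type y'} {J : Type y''} (K : Finset κ)
    (Lam : κ → Finset J) (ψ : κ → J → S) :
    prodMean ν μ (fun z => if Good0 ρ W τ θ K Lam ψ z then 0 else 1) ≤
      indMean (qMean ρ m) (prodMean ν μ) (fun z => if GoodS (ind ρ (prodAct H G))
        (fun z : (H × G) × Q => W z.1) τ θ K Lam ψ z then 0 else 1) := by
  have hi := invMean_ind ρ (prodAct H G) (invMean_prod hν hμ hinv) hm hminv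
  rw [← indMean_fst ρ hm (prodMean ν μ) (fun z => if Good0 ρ W τ θ K Lam ψ z then 0 else 1)]
  refine hi.mean.le (bdd_ite' _) (bdd_ite' _) fun z => ?_
  by_cases h : GoodS (ind ρ (prodAct H G)) (fun z : (H × G) × Q => W z.1) τ θ K Lam ψ z
  · rw [if_pos h, if_pos (show Good0 ρ W τ θ K Lam ψ z.1 from ⟨z.2, h⟩)]
  · rw [if_neg h]
    split_ifs <;> simp

open Classical in
/-- **Good elements of `H` are exponentially dense.** -/
theorem gd_dense (l : S → ℕ) (hl : IsLen l) (N : Subgroup S) [N.Normal] (c : ℕ)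
    (hnil : lcs N c = ⊥) (p Cg : ℕ) (hCg : 1 ≤ Cg) (hgen : Gen l N p Cg) (C1 M : ℕ)
    (L0 : ℝ) (hL0 : 0 ≤ L0) (C2 : ℕ) (η : ℝ) (hη : 0 < η) (θ : ℝ) (hθ : 0 < θ) (CR : ℕ)
    (hCR : 1 ≤ CR) (hS : HasMean S) (lG : G → ℕ) (hlG : ∀ q s, lG (ρ.fl (ρ.r q * s)) ≤ C2 * l s)
    {F : H → G} {ν : (H → ℝ) → ℝ} (hν : IsMean ν) {μ : (G → ℝ) → ℝ}
    (hμ : IsMean μ) (hinv : ∀ (g : G) f, Bdd f → μ (fun x => f (x * g)) = μ f)
    {C : ℝ} (hC : 0 < C)
    (htr : ∀ u : G → ℝ, Bdd u → (∀ y, 0 ≤ u y) → ν (fun x => u (F x)) ≤ C * μ u) :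
    ∃ η0 ε0 : ℝ, 0 < η0 ∧ 0 < ε0 ∧ ∀ (R1 : ℕ) (I : Type*) (φ : I → S) (B Bs : Finset I),
      1 ≤ R1 → BoxesI φ l N C1 M R1 B Bs → ∃ (R0 : ℕ) (cc : ℝ), 0 < cc ∧
      ∀ W : H × G → E, (∀ z g, ‖W ((prodAct H G).act z g) - W z‖ ≤ L0 * lG g) →
      (∀ z, FlatI (selfAct S) φ l (fun s => W ((prodAct H G).act z (ρ.fl s))) R1 B
        (η0 * R1) ε0) →
      ∀ R : ℕ, R0 ≤ R → ∀ (κ : Type y') (J : Type y'') (K : Finset κ) (Lam : κ → Finset J)
        (ψ : κ → J → S), (∀ k ∈ K, ∀ i ∈ Lam k, l (ψ k i) ≤ CR * R) →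
        (K.card : ℝ) ≤ Real.exp (cc * R) →
        ν (fun x => if x ∈ Gd ν F (Good0 ρ W (η * R) θ K Lam ψ) (Real.exp (-(cc * R)))
          then 0 else 1) ≤ C * Real.exp (-(cc * R)) := by
  obtain ⟨m, hm, hminv⟩ := hS
  obtain ⟨η0, ε0, hη0, hε0, HH⟩ := good_dense (E := E) l hl N c hnil p Cg hCg hgen C1 M
    (L0 * C2) (by positivity) η hη θ hθ CR hCR
  refine ⟨η0, ε0, hη0, hε0, fun R1 I φ B Bs hR1 hbox => ?_⟩
  obtain ⟨R0, cc, hcc, HHH⟩ := HH R1 I φ B Bs hR1 hbox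
  refine ⟨R0, cc / 2, by positivity, fun W hWL hflat R hR κ J K Lam ψ hlen hK => ?_⟩
  have hi := invMean_ind ρ (prodAct H G) (invMean_prod hν hμ hinv) hm hminv
  refine mean_not_Gd hν hμ hC htr _ (Real.exp_pos _) ?_
  refine (prodMean_not_Good0_le ρ hν hμ hinv hm hminv W (η * R) θ K Lam ψ).trans ?_
  refine (HHH _ (ind ρ (prodAct H G)) _ (fun z => W z.1) hi
    (fun z s => lip_ind ρ (prodAct H G) W L0 hL0 lG l C2 hWL hlG z s)
    (flat_ind ρ φ (prodAct H G) W l R1 B _ _ hflat) R hR κ J K Lam ψ hlen ?_).trans ?_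
  · refine hK.trans (Real.exp_le_exp.2 ?_)
    have : (0 : ℝ) ≤ R := Nat.cast_nonneg _
    nlinarith
  · rw [← Real.exp_nsmul]
    refine le_of_eq ?_
    congr 1
    simp
    ring

end

end Vale.Agent.P188.H382
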