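import Vale.Agent.P188.H382.Ind

/-!
# Good points of an `S`-set

A finite family of conditions: `z` is good if for every `k ∈ K` and most `i ∈ Lam k`, `W` moves
little from `z` to `z * ψ k i`.
-/

set_option linter.unusedSectionVars false

universe u v w x y y'

namespace Vale.Agent.P188.H382

open Finset Vale.Agent.P188

variable {S : Type u} [Group S] {X : Type v} (A : RAct S X) {μ : (X → ℝ) → ℝ}
variable {E : Type w} [NormedAddCommGroup E] {κ : Type y} {I : Type y'}

open Classical in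
/-- Good points. -/
def GoodS (W : X → E) (τ θ : ℝ) (K : Finset κ) (Lam : κ → Finset I) (ψ : κ → I → S) (z : X) :
    Prop :=
  ∀ k ∈ K, (((Lam k).filter fun i => τ < ‖W (A.act z (ψ k i)) - W z‖).card : ℝ)
    ≤ θ * (Lam k).card

open Classical in
/-- Bad points are rare. -/
theorem mean_not_good_le (hμ : InvMean A μ) (W : X → E) (τ θ δ : ℝ) (hθ : 0 < θ)
    (K : Finset κ) (Lam : κ → Finset I) (ψ : κ → I → S)
    (hdev : ∀ k ∈ K, ∀ i ∈ Lam k, dev A μ W τ (ψ k i) ≤ δ) (hδ : 0 ≤ δ) :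
    μ (fun z => if GoodS A W τ θ K Lam ψ z then 0 else 1) ≤ K.card * (δ / θ) := by
  have hm := hμ.mean
  set F : κ → X → ℝ := fun k z => (1 / (θ * (Lam k).card)) *
    ∑ i ∈ Lam k, (if τ < ‖W (A.act z (ψ k i)) - W z‖ then (1 : ℝ) else 0) with hF
  have hFs : ∀ k, Bdd (fun z => ∑ i ∈ Lam k,
      (if τ < ‖W (A.act z (ψ k i)) - W z‖ then (1 : ℝ) else 0)) := fun k =>
    Bdd.sum' _ _ fun i _ => bdd_ite _
  have hFb : ∀ k, Bdd (F k) := fun k => (hFs k).const_mul _
  have hF0 : ∀ k z, 0 ≤ F k z := by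
    intro k z
    refine mul_nonneg (by positivity) (Finset.sum_nonneg fun i _ => ?_)
    split_ifs <;> norm_num
  have h1 : ∀ z, (if GoodS A W τ θ K Lam ψ z then (0 : ℝ) else 1) ≤ ∑ k ∈ K, F k z := by
    intro z
    split_ifs with h
    · exact Finset.sum_nonneg fun k _ => hF0 k z
    · unfold GoodS at h
      push Not at h
      obtain ⟨k, hk, hk2⟩ := h
      have h2 : 1 ≤ F k z := by
        have hcard : 0 < ((Lam k).card : ℝ) := by
          by_contra h0
          have h0' : (Lam k).card = 0 := by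
            have : ((Lam k).card : ℝ) ≤ 0 := not_lt.1 h0
            exact_mod_cast le_antisymm this (Nat.cast_nonneg _)
          rw [Finset.card_eq_zero] at h0'
          rw [h0'] at hk2
          simp at hk2
        rw [hF]
        simp only
        rw [← Finset.sum_filter, Finset.sum_const, nsmul_eq_mul, mul_one, one_div,
          le_inv_mul_iff₀ (by positivity), mul_one]
        exact hk2.le
      exact h2.trans (Finset.single_le_sum (fun k _ => hF0 k z) hk)
  have h2 := hm.le (g := fun z => ∑ k ∈ K, F k z) (by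
    refine ⟨1, fun z => ?_⟩
    dsimp only
    split_ifs <;> simp) (Bdd.sum' K F fun k _ => hFb k) h1
  refine h2.trans ?_
  rw [(hm.sum K F fun k _ => hFb k).2]
  calc ∑ k ∈ K, μ (F k) ≤ ∑ _k ∈ K, δ / θ := by
        refine Finset.sum_le_sum fun k hk => ?_
        rw [hF]
        simp only
        rw [hm.smul _ _ (hFs k), (hm.sum (Lam k) _ fun i _ => bdd_ite _).2]
        have h3 : ∑ i ∈ Lam k, μ (fun z => if τ < ‖W (A.act z (ψ k i)) - W z‖ then (1 : ℝ) else 0)
            ≤ ∑ _i ∈ Lam k, δ := Finset.sum_le_sum fun i hi => by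
              have := hdev k hk i hi
              unfold dev at this
              exact this
        rw [Finset.sum_const, nsmul_eq_mul] at h3
        rcases (Lam k).card.eq_zero_or_pos with h0 | h0
        · rw [h0]; simp; positivity
        · have h0' : (0 : ℝ) < (Lam k).card := by exact_mod_cast h0
          calc 1 / (θ * (Lam k).card) * ∑ i ∈ Lam k,
                μ (fun z => if τ < ‖W (A.act z (ψ k i)) - W z‖ then (1 : ℝ) else 0)
              ≤ 1 / (θ * (Lam k).card) * ((Lam k).card * δ) :=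
                mul_le_mul_of_nonneg_left h3 (by positivity)
            _ = δ / θ := by field_simp
    _ = K.card * (δ / θ) := by rw [Finset.sum_const, nsmul_eq_mul]

open Classical in
/-- Two good points `z`, `z * s` whose boxes match up to bounded error have close values. -/
theorem good_close (W : X → E) (l : S → ℕ) (L : ℝ) (hL : 0 ≤ L)
    (hW : ∀ z h, ‖W (A.act z h) - W z‖ ≤ L * l h) (τ θ : ℝ)
    (K : Finset κ) (Lam : κ → Finset I) (ψ : κ → I → S) (z : X) (s : S)
    (hz : GoodS A W τ θ K Lam ψ z) (hzs : GoodS A W τ θ K Lam ψ (A.act z s))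
    (k1 k2 : κ) (hk1 : k1 ∈ K) (hk2 : k2 ∈ K) (Φ : I → I) (M C : ℕ)
    (hΦ : ∀ i ∈ Lam k1, Φ i ∈ Lam k2)
    (hM : ∀ i' ∈ Lam k2, ((Lam k1).filter fun i => Φ i = i').card ≤ M)
    (hC : ∀ i ∈ Lam k1, l ((s * ψ k1 i)⁻¹ * ψ k2 (Φ i)) ≤ C)
    (hcount : M * (θ * (Lam k2).card) + θ * (Lam k1).card < (Lam k1).card) :
    ‖W (A.act z s) - W z‖ ≤ 2 * τ + L * C := by
  have h2 := hz k2 hk2
  have h1 := hzs k1 hk1
  set bad1 := (Lam k1).filter fun i => τ < ‖W (A.act (A.act z s) (ψ k1 i)) - W (A.act z s)‖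
    with hbad1
  set bad2 := (Lam k2).filter fun i => τ < ‖W (A.act z (ψ k2 i)) - W z‖ with hbad2
  set pre := (Lam k1).filter fun i => Φ i ∈ bad2 with hpre
  have hprecard : (pre.card : ℝ) ≤ M * bad2.card := by
    have : pre.card ≤ M * bad2.card := by
      have h3 : pre ⊆ bad2.biUnion fun i' => (Lam k1).filter fun i => Φ i = i' := by
        intro i hi
        rw [hpre, Finset.mem_filter] at hi
        rw [Finset.mem_biUnion]
        exact ⟨Φ i, hi.2, Finset.mem_filter.2 ⟨hi.1, rfl⟩⟩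
      refine (Finset.card_le_card h3).trans (Finset.card_biUnion_le.trans ?_)
      calc ∑ i' ∈ bad2, ((Lam k1).filter fun i => Φ i = i').card ≤ ∑ _i' ∈ bad2, M :=
            Finset.sum_le_sum fun i' hi' => hM i' (Finset.mem_filter.1 hi').1
        _ = M * bad2.card := by rw [Finset.sum_const, smul_eq_mul, mul_comm]
    exact_mod_cast this
  have hex : ∃ i ∈ Lam k1, i ∉ bad1 ∧ i ∉ pre := by
    by_contra hcon
    push Not at hcon
    have h3 : Lam k1 ⊆ bad1 ∪ pre := by
      intro i hi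
      rw [Finset.mem_union]
      by_cases h : i ∈ bad1
      · exact Or.inl h
      · exact Or.inr (hcon i hi h)
    have h4 : ((Lam k1).card : ℝ) ≤ bad1.card + pre.card := by
      exact_mod_cast (Finset.card_le_card h3).trans (Finset.card_union_le _ _)
    have h5 : (M : ℝ) * bad2.card ≤ M * (θ * (Lam k2).card) :=
      mul_le_mul_of_nonneg_left h2 (Nat.cast_nonneg _)
    linarith
  obtain ⟨i, hi, hi1, hi2⟩ := hex
  have e1 : ‖W (A.act (A.act z s) (ψ k1 i)) - W (A.act z s)‖ ≤ τ := by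
    by_contra h
    exact hi1 (Finset.mem_filter.2 ⟨hi, not_le.1 h⟩)
  have e2 : ‖W (A.act z (ψ k2 (Φ i))) - W z‖ ≤ τ := by
    by_contra h
    exact hi2 (Finset.mem_filter.2 ⟨hi, Finset.mem_filter.2 ⟨hΦ i hi, not_le.1 h⟩⟩)
  have e3 : ‖W (A.act z (ψ k2 (Φ i))) - W (A.act (A.act z s) (ψ k1 i))‖ ≤ L * C := by
    have h6 := hW (A.act (A.act z s) (ψ k1 i)) ((s * ψ k1 i)⁻¹ * ψ k2 (Φ i))
    rw [A.mul, A.mul,
      show s * (ψ k1 i * ((s * ψ k1 i)⁻¹ * ψ k2 (Φ i))) = ψ k2 (Φ i) by group] at h6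
    refine h6.trans (mul_le_mul_of_nonneg_left ?_ hL)
    exact_mod_cast hC i hi
  calc ‖W (A.act z s) - W z‖
      = ‖-(W (A.act (A.act z s) (ψ k1 i)) - W (A.act z s)) +
          (-(W (A.act z (ψ k2 (Φ i))) - W (A.act (A.act z s) (ψ k1 i))) +
            (W (A.act z (ψ k2 (Φ i))) - W z))‖ := by congr 1; abel
    _ ≤ ‖-(W (A.act (A.act z s) (ψ k1 i)) - W (A.act z s))‖ +
          (‖-(W (A.act z (ψ k2 (Φ i))) - W (A.act (A.act z s) (ψ k1 i)))‖ +
            ‖W (A.act z (ψ k2 (Φ i))) - W z‖) :=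
        (norm_add_le _ _).trans (add_le_add_right (norm_add_le _ _) _)
    _ ≤ τ + (L * C + τ) := by
        rw [norm_neg, norm_neg]
        exact add_le_add e1 (add_le_add e3 e2)
    _ = 2 * τ + L * C := by ring

end Vale.Agent.P188.H382
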