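import Vale.Agent.P188.H382.RouteA2

/-!
# Good points: Haar measure versus counting

`net`: a finite family of points of `P` with disjoint cells `y * B0` such that the sets
`y * B0 * B0⁻¹` cover `P`. `goodH_of_goodS`: if the proportion of bad points of the net is at most
`θ`, the proportion (for the Haar measure) of bad points of `P` is at most `C * θ`.
-/

set_option linter.unusedSectionVars false

namespace Vale.Agent.P188.H382

open Finset Vale.Agent.P188 Agent.P188.H428 Vale.Agent.P188.H789 MeasureTheory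
open scoped ENNReal

section net

variable {S : Type*} [Group S] [MeasurableSpace S]

/-- **Nets.** -/
theorem exists_net (μ : Measure S) (hl : ∀ g : S, MeasurePreserving (fun x => g * x) μ μ)
    {P P' B0 : Set S} (hB0 : MeasurableSet B0) (hpos : μ B0 ≠ 0) (h1 : (1 : S) ∈ B0)
    (hP : ∀ y ∈ P, ∀ b ∈ B0, y * b ∈ P') (hfin : μ P' ≠ ⊤) :
    ∃ Y : Finset S, (∀ y ∈ Y, y ∈ P) ∧ (Y.card : ℝ≥0∞) * μ B0 ≤ μ P' ∧
      ∀ y ∈ P, ∃ y' ∈ Y, ∃ b ∈ B0, ∃ b' ∈ B0, y * b = y' * b' := by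
  classical
  -- cells
  have hcell : ∀ y : S, MeasurableSet ((fun x => y⁻¹ * x) ⁻¹' B0) := fun y =>
    (hl y⁻¹).measurable hB0
  have hμc : ∀ y : S, μ ((fun x => y⁻¹ * x) ⁻¹' B0) = μ B0 := fun y =>
    (hl y⁻¹).measure_preimage hB0.nullMeasurableSet
  have hbound : ∀ Y : Finset S, (∀ y ∈ Y, y ∈ P) →
      (∀ y ∈ Y, ∀ y' ∈ Y, y ≠ y' → ∀ b ∈ B0, ∀ b' ∈ B0, y * b ≠ y' * b') →
      (Y.card : ℝ≥0∞) * μ B0 ≤ μ P' := by
    intro Y hY hd
    calc (Y.card : ℝ≥0∞) * μ B0 = ∑ y ∈ Y, μ ((fun x => y⁻¹ * x) ⁻¹' B0) := by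
          rw [Finset.sum_congr rfl fun y _ => hμc y, Finset.sum_const, nsmul_eq_mul]
      _ = μ (⋃ y ∈ Y, (fun x => y⁻¹ * x) ⁻¹' B0) := by
          rw [measure_biUnion_finset]
          · intro y hy y' hy' hne
            rw [Function.onFun, Set.disjoint_left]
            intro x hx hx'
            refine hd y hy y' hy' hne _ hx _ hx' ?_
            simp
          · intro y _
            exact hcell y
      _ ≤ μ P' := by
          refine measure_mono ?_
          intro x hx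
          rw [Set.mem_iUnion₂] at hx
          obtain ⟨y, hy, hx⟩ := hx
          have := hP y (hY y hy) _ hx
          simpa using this
  -- cardinalities are bounded
  have hbnd : ∃ n : ℕ, ∀ Y : Finset S, (∀ y ∈ Y, y ∈ P) →
      (∀ y ∈ Y, ∀ y' ∈ Y, y ≠ y' → ∀ b ∈ B0, ∀ b' ∈ B0, y * b ≠ y' * b') → Y.card ≤ n := by
    have hB0fin : μ B0 ≠ ⊤ ∨ P = ∅ := by
      by_cases hPe : P = ∅
      · exact Or.inr hPe
      · left
        obtain ⟨y, hy⟩ := Set.nonempty_iff_ne_empty.2 hPe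
        have h2 : μ ((fun x => y⁻¹ * x) ⁻¹' B0) ≤ μ P' := by
          refine measure_mono fun x hx => ?_
          have := hP y hy _ hx
          simpa using this
        rw [hμc] at h2
        exact ne_top_of_le_ne_top hfin h2
    rcases hB0fin with hB0f | hPe
    · refine ⟨⌈(μ P' / μ B0).toReal⌉₊, fun Y hY hd => ?_⟩
      have h2 := hbound Y hY hd
      have h3 : (Y.card : ℝ≥0∞) ≤ μ P' / μ B0 := by
        rw [ENNReal.le_div_iff_mul_le (Or.inl hpos) (Or.inl hB0f)]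
        exact h2
      have h4 : (Y.card : ℝ) ≤ (μ P' / μ B0).toReal := by
        have := ENNReal.toReal_mono (ENNReal.div_ne_top hfin hpos) h3
        simpa using this
      have h5 := h4.trans (Nat.le_ceil _)
      exact_mod_cast h5
    · refine ⟨0, fun Y hY _ => ?_⟩
      rw [Nat.le_zero, Finset.card_eq_zero]
      refine Finset.eq_empty_of_forall_notMem fun y hy => ?_
      have := hY y hy
      rw [hPe] at this
      exact this
  -- a family of maximal cardinality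
  obtain ⟨n, hn⟩ := hbnd
  have hex : ∃ m : ℕ, ∃ Y : Finset S, ((∀ y ∈ Y, y ∈ P) ∧
      (∀ y ∈ Y, ∀ y' ∈ Y, y ≠ y' → ∀ b ∈ B0, ∀ b' ∈ B0, y * b ≠ y' * b')) ∧ n - Y.card = m :=
    ⟨_, ∅, ⟨by simp, by simp⟩, rfl⟩
  obtain ⟨Y, ⟨hY, hd⟩, hYm⟩ := Nat.find_spec hex
  refine ⟨Y, hY, hbound Y hY hd, fun y hy => ?_⟩
  by_contra hcon
  push Not at hcon
  have hyY : y ∉ Y := fun h => hcon y h 1 h1 1 h1 rfl
  have hYc := hn Y hY hd
  have hins : ∀ a ∈ insert y Y, ∀ a' ∈ insert y Y, a ≠ a' → ∀ b ∈ B0, ∀ b' ∈ B0,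
      a * b ≠ a' * b' := by
    intro a ha a' ha' hne b hb b' hb'
    rcases Finset.mem_insert.1 ha with e | ha2
    · rcases Finset.mem_insert.1 ha' with e' | ha2'
      · exact absurd (e.trans e'.symm) hne
      · rw [e]; exact hcon a' ha2' b hb b' hb'
    · rcases Finset.mem_insert.1 ha' with e' | ha2'
      · rw [e']; exact fun h => hcon a ha2 b' hb' b hb h.symm
      · exact hd a ha2 a' ha2' hne b hb b' hb'
  have hinsP : ∀ a ∈ insert y Y, a ∈ P := by
    intro a ha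
    rcases Finset.mem_insert.1 ha with rfl | ha
    · exact hy
    · exact hY a ha
  have hc2 := hn _ hinsP hins
  rw [Finset.card_insert_of_notMem hyY] at hc2
  refine Nat.find_min hex (m := n - (Y.card + 1)) (by omega) ⟨insert y Y, ⟨hinsP, hins⟩, ?_⟩
  rw [Finset.card_insert_of_notMem hyY]

end net

section good

variable {S : Type*} [Group S] [MeasurableSpace S] {E : Type*} [NormedAddCommGroup E]
  {κ : Type*}

/-- Good points, for the Haar measure: for every shape `P k` the proportion of the points `y` of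
`P k` with `w (z * y)` far from `w z` is at most `θ`. -/
def GoodH (μ : Measure S) (w : S → E) (τ θ : ℝ) (K : Finset κ) (P : κ → Set S) (z : S) : Prop :=
  ∀ k ∈ K, μ {y | y ∈ P k ∧ τ < ‖w (z * y) - w z‖} ≤ ENNReal.ofReal θ * μ (P k)

open Classical in
/-- one shape -/
theorem haar_le (μ : Measure S) (hl : ∀ g : S, MeasurePreserving (fun x => g * x) μ μ)
    {P P' B0 : Set S} {Y : Finset S}
    (hY : (Y.card : ℝ≥0∞) * μ B0 ≤ μ P')
    (hcov : ∀ y ∈ P, ∃ y' ∈ Y, ∃ b ∈ B0, ∃ b' ∈ B0, y * b = y' * b')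
    {B1 : Set S} (hB1 : MeasurableSet B1) (hB01 : ∀ b ∈ B0, ∀ b' ∈ B0, b' * b⁻¹ ∈ B1)
    {a : ℝ≥0∞} (ha : μ B1 ≤ a * μ B0) (w : S → E) {δ : ℝ}
    (hw : ∀ x, ∀ g ∈ B1, ‖w (x * g) - w x‖ ≤ δ) {z : S} {τ θ : ℝ} (hθ : 0 ≤ θ)
    (hgood : ((Y.filter fun y => τ < ‖w (z * y) - w z‖).card : ℝ) ≤ θ * Y.card) :
    μ {y | y ∈ P ∧ τ + δ < ‖w (z * y) - w z‖} ≤ ENNReal.ofReal θ * (a * μ P') := by
  have hsub : {y | y ∈ P ∧ τ + δ < ‖w (z * y) - w z‖} ⊆
      ⋃ y' ∈ Y.filter fun y => τ < ‖w (z * y) - w z‖, (fun x => y'⁻¹ * x) ⁻¹' B1 := by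
    rintro y ⟨hy, hlt⟩
    obtain ⟨y', hy', b, hb, b', hb', e⟩ := hcov y hy
    have e1 : y = y' * (b' * b⁻¹) := by
      rw [← mul_assoc, ← e, mul_inv_cancel_right]
    rw [Set.mem_iUnion₂]
    refine ⟨y', Finset.mem_filter.2 ⟨hy', ?_⟩, ?_⟩
    · have h1 := hw (z * y') (b' * b⁻¹) (hB01 b hb b' hb')
      rw [mul_assoc, ← e1] at h1
      have h2 : ‖w (z * y) - w z‖ ≤ ‖w (z * y) - w (z * y')‖ + ‖w (z * y') - w z‖ := by
        have : w (z * y) - w z = (w (z * y) - w (z * y')) + (w (z * y') - w z) := by abel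
        rw [this]
        exact norm_add_le _ _
      linarith
    · show y'⁻¹ * y ∈ B1
      rw [e1, inv_mul_cancel_left]
      exact hB01 b hb b' hb'
  set N : ℕ := (Y.filter fun y => τ < ‖w (z * y) - w z‖).card with hN
  calc μ {y | y ∈ P ∧ τ + δ < ‖w (z * y) - w z‖}
      ≤ μ (⋃ y' ∈ Y.filter fun y => τ < ‖w (z * y) - w z‖, (fun x => y'⁻¹ * x) ⁻¹' B1) :=
        measure_mono hsub
    _ ≤ ∑ y' ∈ Y.filter fun y => τ < ‖w (z * y) - w z‖, μ ((fun x => y'⁻¹ * x) ⁻¹' B1) :=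
        measure_biUnion_finset_le _ _
    _ = (N : ℝ≥0∞) * μ B1 := by
        rw [Finset.sum_congr rfl fun y' _ => (hl y'⁻¹).measure_preimage hB1.nullMeasurableSet,
          Finset.sum_const, nsmul_eq_mul]
    _ ≤ (ENNReal.ofReal θ * Y.card) * (a * μ B0) := by
        refine mul_le_mul' ?_ ha
        have h3 : ((N : ℝ≥0∞)) = ENNReal.ofReal (N : ℝ) := (ENNReal.ofReal_natCast N).symm
        rw [h3, ← ENNReal.ofReal_natCast Y.card, ← ENNReal.ofReal_mul hθ]
        exact ENNReal.ofReal_le_ofReal hgood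
    _ = ENNReal.ofReal θ * (a * ((Y.card : ℝ≥0∞) * μ B0)) := by ring
    _ ≤ ENNReal.ofReal θ * (a * μ P') := by gcongr

open Classical in
/-- **From counting to the Haar measure.** For every family of shapes `P k` there are finite nets
`Lam k ⊆ P k` such that every point which is good for the nets is good for the Haar measure, with
`ξ + δ` and `C * θ` (`C = a * c`: `a` compares `B1 ⊇ B0 B0⁻¹` with `B0`, `c` compares `P' k` with
`P k`). -/
theorem goodH_of_goodS (μ : Measure S) (hl : ∀ g : S, MeasurePreserving (fun x => g * x) μ μ)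
    (P P' : κ → Set S) {B0 B1 : Set S} (hB0 : MeasurableSet B0) (hpos : μ B0 ≠ 0)
    (h1 : (1 : S) ∈ B0) (hP : ∀ k, ∀ y ∈ P k, ∀ b ∈ B0, y * b ∈ P' k)
    (hfin : ∀ k, μ (P' k) ≠ ⊤) {c : ℝ} (hc : 0 ≤ c)
    (hPc : ∀ k, μ (P' k) ≤ ENNReal.ofReal c * μ (P k))
    (hB1 : MeasurableSet B1) (hB01 : ∀ b ∈ B0, ∀ b' ∈ B0, b' * b⁻¹ ∈ B1)
    {a : ℝ} (ha0 : 0 ≤ a) (ha : μ B1 ≤ ENNReal.ofReal a * μ B0) :
    ∃ Lam : κ → Finset S, (∀ k, ∀ y ∈ Lam k, y ∈ P k) ∧
      ∀ (w : S → E) (δ : ℝ), (∀ x, ∀ g ∈ B1, ‖w (x * g) - w x‖ ≤ δ) →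
      ∀ (K : Finset κ) (z : S) (τ θ : ℝ), 0 ≤ θ →
        GoodS (selfAct S) w τ θ K Lam (fun _ y => y) z →
        GoodH μ w (τ + δ) (a * c * θ) K P z := by
  choose Lam hL1 hL2 hL3 using fun k => exists_net μ hl hB0 hpos h1 (hP k) (hfin k)
  refine ⟨Lam, hL1, fun w δ hw K z τ θ hθ hg k hk => ?_⟩
  have h2 := haar_le μ hl (hL2 k) (hL3 k) hB1 hB01 ha w hw (z := z) (τ := τ) hθ
    (hg k hk)
  refine h2.trans ?_
  calc ENNReal.ofReal θ * (ENNReal.ofReal a * μ (P' k))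
      ≤ ENNReal.ofReal θ * (ENNReal.ofReal a * (ENNReal.ofReal c * μ (P k))) := by
        gcongr
        exact hPc k
    _ = ENNReal.ofReal (a * c * θ) * μ (P k) := by
        rw [ENNReal.ofReal_mul (mul_nonneg ha0 hc), ENNReal.ofReal_mul ha0]
        ring

end good

end Vale.Agent.P188.H382
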