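import Vale.Agent.P188.H382.IdxStep
import Vale.Agent.P188.H382.MeanConc
import Mathlib.Analysis.SpecialFunctions.Log.Basic
import Mathlib.Analysis.SpecialFunctions.Exp
import Mathlib.Analysis.Complex.ExponentialBounds

/-!
# Concentration for right `S`-sets with an invariant mean, indexed noise
-/

set_option linter.unusedSectionVars false

universe u v w x y

namespace Vale.Agent.P188.H382

open Finset Vale.Agent.P188 Agent.P188.H428
open scoped commutatorElement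

variable {S : Type u} [Group S] [DecidableEq S]
variable {E : Type w} [NormedAddCommGroup E]

/-- All the data at the base scale `R1`. -/
structure SetupI {I : Type y} (φ : I → S) (l : S → ℕ) (N : Subgroup S) (C1 M : ℕ)
    {X : Type v} (A : RAct S X)
    (μ : (X → ℝ) → ℝ) (W : X → E) (L : ℝ) (R1 : ℕ)
    (B Bs : Finset I) (α ε κ : ℝ) : Prop where
  hμ : InvMean A μ
  hR1 : 1 ≤ R1
  hL : 0 ≤ L
  hW : ∀ z h, ‖W (A.act z h) - W z‖ ≤ L * l h
  box : BoxesI φ l N C1 M R1 B Bs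
  hα : 0 ≤ α
  hκ : 0 < κ
  hε0 : 0 ≤ ε
  hε : (M : ℝ) ^ 2 * ε * ((1024 : ℝ) ^ (1 / κ)) ^ 2 ≤ 1
  flat : FlatI A φ l W R1 B α ε

section

variable {I : Type y} {φ : I → S} {l : S → ℕ} {N : Subgroup S} {C1 M : ℕ} {X : Type v} {A : RAct S X}
    {μ : (X → ℝ) → ℝ} {W : X → E} {L : ℝ} {R1 : ℕ} {B Bs : Finset I} {α ε κ : ℝ}

lemma SetupI.tau_nonneg (h : SetupI φ l N C1 M A μ W L R1 B Bs α ε κ) :
    0 ≤ tau C1 R1 L α κ := by
  have h1 := h.hL
  have h2 := h.hα
  have h3 := h.hκ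
  unfold tau; positivity

/-- Level zero: every `x`, modulo `⁅N, N⁆`. -/
lemma level_zeroI (hl : IsLen l) [N.Normal]
    (h : SetupI φ l N C1 M A μ W L R1 B Bs α ε κ) (J : ℕ) (hJ : 1 ≤ J) (x : S)
    (hx : l x ≤ R1 * J) :
    ∃ d, x⁻¹ * d ∈ lcs N 1 ∧
      GmJ A μ l W R1 (tau C1 R1 L α κ) 3 3 (3 * (2 * C1 + 1)) J d := by
  obtain ⟨g, hg, rfl⟩ := hl.cut R1 J h.hR1 x (by rw [mul_comm]; exact hx)
  obtain ⟨d, hd1, hd2⟩ := exists_Gm_modI A φ h.hμ l hl.one hl.mul hl.inv N W L h.hL h.hW C1 M R1 B Bs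
    h.box α ε κ h.hα h.hκ h.hε0 h.hε h.flat J hJ g hg
  refine ⟨d, hd1, ?_⟩
  unfold GmJ
  refine hd2.mono h.hμ ?_ ?_ ?_
  · have h1 := h.hα
    have h2 : 0 ≤ α * (J : ℝ) := by positivity
    unfold tau; push_cast; nlinarith
  · push_cast; exact le_refl _
  · apply le_of_eq; ring

end

/-- Level `i` constants exist. -/
lemma levelI (l : S → ℕ) (hl : IsLen l) (N : Subgroup S) [N.Normal] (p Cg : ℕ) (hCg : 1 ≤ Cg)
    (hgen : Gen l N p Cg) (C1 M : ℕ) (i : ℕ) :
    ∃ a b r : ℕ, ∀ (I : Type y) (φ : I → S) (X : Type v) (A : RAct S X) (μ : (X → ℝ) → ℝ)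
      (W : X → E) (L : ℝ) (R1 : ℕ) (B Bs : Finset I) (α ε κ : ℝ),
      SetupI φ l N C1 M A μ W L R1 B Bs α ε κ → ∀ J : ℕ, 1 ≤ J → ∀ x ∈ lcs N i, l x ≤ R1 * J →
      ∃ d, x⁻¹ * d ∈ lcs N (i + 1) ∧ GmJ A μ l W R1 (tau C1 R1 L α κ) a b r J d := by
  induction i with
  | zero =>
    refine ⟨3, 3, 3 * (2 * C1 + 1), ?_⟩
    intro I φ X A μ W L R1 B Bs α ε κ h J hJ x _ hx
    exact level_zeroI hl h J hJ x hx
  | succ i ih =>
    obtain ⟨a, b, r, H⟩ := ih
    set r0 : ℕ := 3 * (2 * C1 + 1) with hr0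
    refine ⟨p * (2 * (a + 3)) * Cg, p * (2 * (b + 3)), p * (2 * (r + r0)) * Cg, ?_⟩
    intro I φ X A μ W L R1 B Bs α ε κ h J hJ x hxi hx
    have hμ := h.hμ
    have hR1 := h.hR1
    have hRJ : 1 ≤ R1 * J := Nat.mul_pos hR1 hJ
    have hτ := h.tau_nonneg
    set t0 := tau C1 R1 L α κ with ht0
    obtain ⟨ps, hps1, hps2, hps3⟩ := hgen i (R1 * J) hRJ x hxi hx
    -- choose good representatives
    have hJ' : 1 ≤ Cg * J := Nat.mul_pos hCg hJ
    have hrep : ∀ q ∈ ps, ∃ e : S, (QuotientGroup.mk' (lcs N (i + 2))) e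
        = (QuotientGroup.mk' (lcs N (i + 2))) ⁅q.1, q.2⁆ ∧
        Gm A μ l W ((2 * (a + 3)) * Cg * (t0 * J)) ((2 * (b + 3)) * (1 / 16) ^ J)
          ((2 * (r + r0)) * Cg * (R1 * J)) e := by
      intro q hq
      obtain ⟨hq1, hq2, hq3, hq4⟩ := hps2 q hq
      obtain ⟨d, hd1, hd2⟩ := H I φ X A μ W L R1 B Bs α ε κ h (Cg * J) hJ' q.1 hq1
        (by rw [show R1 * (Cg * J) = Cg * (R1 * J) by ring]; exact hq3)
      obtain ⟨d', hd1', hd2'⟩ := level_zeroI hl h (Cg * J) hJ' q.2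
        (by rw [show R1 * (Cg * J) = Cg * (R1 * J) by ring]; exact hq4)
      refine ⟨⁅d, d'⁆, commutator_congr N i q.1 q.2 d d' hq1 hq2 hd1 hd1', ?_⟩
      unfold GmJ at hd2 hd2'
      have h16 : (1 / 16 : ℝ) ^ (Cg * J) ≤ (1 / 16) ^ J :=
        pow_le_pow_of_le_one (by norm_num) (by norm_num) (by nlinarith)
      have h := hd2.comm hμ hl hd2'
      refine h.mono hμ ?_ ?_ ?_
      · push_cast; apply le_of_eq; ring
      · push_cast
        have e1 : (b : ℝ) * (1 / 16) ^ (Cg * J) ≤ b * (1 / 16) ^ J :=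
          mul_le_mul_of_nonneg_left h16 (Nat.cast_nonneg _)
        linarith
      · rw [hr0]; apply le_of_eq; ring
    choose! e he1 he2 using hrep
    set xs : List S := ps.map e with hxs
    have hxlen : xs.length = ps.length := by rw [hxs, List.length_map]
    have hprod := Gm.list_prod hμ hl xs (by
        intro y hy
        rw [hxs, List.mem_map] at hy
        obtain ⟨q, hq, rfl⟩ := hy
        exact he2 q hq)
    refine ⟨xs.prod, ?_, ?_⟩
    · have h1 : (QuotientGroup.mk' (lcs N (i + 2))) xs.prod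
          = (QuotientGroup.mk' (lcs N (i + 2))) (ps.map fun q => ⁅q.1, q.2⁆).prod := by
        rw [map_list_prod, map_list_prod, hxs, List.map_map, List.map_map]
        congr 1
        exact List.map_congr_left fun q hq => he1 q hq
      have h2 : (QuotientGroup.mk' (lcs N (i + 2))) x
          = (QuotientGroup.mk' (lcs N (i + 2))) (ps.map fun q => ⁅q.1, q.2⁆).prod := by
        change ((x : S) : S ⧸ lcs N (i + 2)) = _
        exact QuotientGroup.eq.2 hps3
      have h3 : ((x : S) : S ⧸ lcs N (i + 2)) = (xs.prod : S) := h2.trans h1.symm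
      exact QuotientGroup.eq.1 h3
    · unfold GmJ
      have hp : (ps.length : ℝ) ≤ p := by exact_mod_cast hps1
      rw [hxlen] at hprod
      refine hprod.mono hμ ?_ ?_ ?_
      · push_cast
        have : (0 : ℝ) ≤ 2 * (a + 3) * Cg * (t0 * J) := by positivity
        calc (ps.length : ℝ) * (2 * (a + 3) * Cg * (t0 * J))
            ≤ p * (2 * (a + 3) * Cg * (t0 * J)) := mul_le_mul_of_nonneg_right hp this
          _ = _ := by ring
      · push_cast
        have h0 : (0 : ℝ) ≤ (2 * (b + 3)) * (1 / 16) ^ J := by positivity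
        calc (ps.length : ℝ) * ((2 * (b + 3)) * (1 / 16) ^ J)
            ≤ p * ((2 * (b + 3)) * (1 / 16) ^ J) := mul_le_mul_of_nonneg_right hp h0
          _ = _ := by ring
      · calc ps.length * (2 * (r + r0) * Cg * (R1 * J))
            ≤ p * (2 * (r + r0) * Cg * (R1 * J)) := Nat.mul_le_mul_right _ hps1
          _ = _ := by ring

/-- Descent: every `x` modulo `lcs N (i+1)`. -/
lemma descentI (l : S → ℕ) (hl : IsLen l) (N : Subgroup S) [N.Normal] (p Cg : ℕ) (hCg : 1 ≤ Cg)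
    (hgen : Gen l N p Cg) (C1 M : ℕ) (i : ℕ) :
    ∃ a b r : ℕ, ∀ (I : Type y) (φ : I → S) (X : Type v) (A : RAct S X) (μ : (X → ℝ) → ℝ)
      (W : X → E) (L : ℝ) (R1 : ℕ) (B Bs : Finset I) (α ε κ : ℝ),
      SetupI φ l N C1 M A μ W L R1 B Bs α ε κ → ∀ J : ℕ, 1 ≤ J → ∀ x, l x ≤ R1 * J →
      ∃ d, x⁻¹ * d ∈ lcs N (i + 1) ∧ GmJ A μ l W R1 (tau C1 R1 L α κ) a b r J d := by
  induction i with
  | zero =>
    refine ⟨3, 3, 3 * (2 * C1 + 1), ?_⟩
    intro I φ X A μ W L R1 B Bs α ε κ h J hJ x hx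
    exact level_zeroI hl h J hJ x hx
  | succ i ih =>
    obtain ⟨a, b, r, H⟩ := ih
    obtain ⟨a', b', r', H'⟩ := levelI.{u, v, w, y} (E := E) l hl N p Cg hCg hgen C1 M (i + 1)
    refine ⟨a + a' * (r + 1), b + b', r + r' * (r + 1), ?_⟩
    intro I φ X A μ W L R1 B Bs α ε κ h J hJ x hx
    have hτ := h.tau_nonneg
    obtain ⟨d, hd1, hd2⟩ := H I φ X A μ W L R1 B Bs α ε κ h J hJ x hx
    have he : d⁻¹ * x ∈ lcs N (i + 1) := by
      have := (lcs N (i + 1)).inv_mem hd1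
      rwa [mul_inv_rev, inv_inv] at this
    have hle : l (d⁻¹ * x) ≤ R1 * ((r + 1) * J) := by
      calc l (d⁻¹ * x) ≤ l d⁻¹ + l x := hl.mul _ _
        _ ≤ r * (R1 * J) + R1 * J := by
            rw [hl.inv]; exact add_le_add hd2.1 hx
        _ = R1 * ((r + 1) * J) := by ring
    obtain ⟨d', hd1', hd2'⟩ := H' I φ X A μ W L R1 B Bs α ε κ h ((r + 1) * J)
      (Nat.mul_pos (Nat.succ_pos _) hJ) (d⁻¹ * x) he hle
    refine ⟨d * d', ?_, ?_⟩
    · have : x⁻¹ * (d * d') = (d⁻¹ * x)⁻¹ * d' := by group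
      rw [this]; exact hd1'
    · unfold GmJ at hd2 hd2' ⊢
      have h := hd2.mul h.hμ hl.mul hd2'
      refine h.mono (SetupI.hμ ‹_›) ?_ ?_ ?_
      · push_cast; apply le_of_eq; ring
      · have h16 : (1 / 16 : ℝ) ^ ((r + 1) * J) ≤ (1 / 16) ^ J :=
          pow_le_pow_of_le_one (by norm_num) (by norm_num) (by nlinarith)
        have e1 : (b' : ℝ) * (1 / 16) ^ ((r + 1) * J) ≤ b' * (1 / 16) ^ J :=
          mul_le_mul_of_nonneg_left h16 (Nat.cast_nonneg _)
        push_cast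
        linarith
      · apply le_of_eq; ring

/-- **Concentration, quantitative form, for means.** -/
theorem concentrationI (l : S → ℕ) (hl : IsLen l) (N : Subgroup S) [N.Normal] (c : ℕ)
    (hnil : lcs N c = ⊥) (p Cg : ℕ) (hCg : 1 ≤ Cg) (hgen : Gen l N p Cg) (C1 M : ℕ) :
    ∃ a b : ℕ, ∀ (I : Type y) (φ : I → S) (X : Type v) (A : RAct S X) (μ : (X → ℝ) → ℝ)
      (W : X → E) (L : ℝ) (R1 : ℕ) (B Bs : Finset I) (α ε κ : ℝ),
      SetupI φ l N C1 M A μ W L R1 B Bs α ε κ → ∀ J : ℕ, 1 ≤ J → ∀ x, l x ≤ R1 * J →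
      dev A μ W (a * (tau C1 R1 L α κ * J)) x ≤ b * (1 / 16) ^ J := by
  obtain ⟨a, b, r, H⟩ := descentI.{u, v, w, y} (E := E) l hl N p Cg hCg hgen C1 M c
  refine ⟨a, b, ?_⟩
  intro I φ X A μ W L R1 B Bs α ε κ h J hJ x hx
  obtain ⟨d, hd1, hd2⟩ := H I φ X A μ W L R1 B Bs α ε κ h J hJ x hx
  have hd : d = x := by
    have h1 : x⁻¹ * d ∈ lcs N c := lcs_succ_le N c hd1
    rw [hnil, Subgroup.mem_bot] at h1
    exact (inv_mul_eq_one.1 h1).symm
  rw [← hd]
  exact hd2.2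

/-- **Concentration for right `S`-sets with an invariant mean.**  For every `η > 0` there are
`η0, ε0 > 0` such that: for every scale `R1` and every pair of boxes at this scale there are
`R0` and `cc > 0` such that for every right `S`-set `X` with invariant mean `μ` and every
`L`-Lipschitz `W` on `X` which is `(η0 R1, ε0)`-flat on all translates of the big box: for all
`R ≥ R0` each translation by an element of length `≤ R` moves `W` by at most `η R`, outside a set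
of mean `e^{-cc R}`. -/
theorem concI (l : S → ℕ) (hl : IsLen l) (N : Subgroup S) [N.Normal] (c : ℕ)
    (hnil : lcs N c = ⊥) (p Cg : ℕ) (hCg : 1 ≤ Cg) (hgen : Gen l N p Cg) (C1 M : ℕ)
    (L : ℝ) (hL : 0 ≤ L) (η : ℝ) (hη : 0 < η) :
    ∃ η0 ε0 : ℝ, 0 < η0 ∧ 0 < ε0 ∧ ∀ (R1 : ℕ) (I : Type y) (φ : I → S) (B Bs : Finset I),
      1 ≤ R1 → BoxesI φ l N C1 M R1 B Bs → ∃ (R0 : ℕ) (cc : ℝ), 0 < cc ∧
      ∀ (X : Type v) (A : RAct S X) (μ : (X → ℝ) → ℝ) (W : X → E), InvMean A μ →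
      (∀ z h, ‖W (A.act z h) - W z‖ ≤ L * l h) → FlatI A φ l W R1 B (η0 * R1) ε0 →
      ∀ R : ℕ, R0 ≤ R → ∀ x, l x ≤ R → dev A μ W (η * R) x ≤ Real.exp (-(cc * R)) := by
  obtain ⟨a, b, H⟩ := concentrationI.{u, v, w, y} (E := E) l hl N c hnil p Cg hCg hgen C1 M
  set η0 : ℝ := η / (8 * (a + 1)) with hη0
  set κ : ℝ := η / (4 * (a + 1) * (L * (2 * C1 + 1) + 1)) with hκ
  have ha : (0 : ℝ) < a + 1 := by positivity
  have hη0pos : 0 < η0 := by rw [hη0]; positivity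
  have hκpos : 0 < κ := by rw [hκ]; positivity
  set t : ℝ := (1024 : ℝ) ^ (1 / κ) with ht
  have htpos : 0 < t := by rw [ht]; positivity
  set ε0 : ℝ := 1 / (((M : ℝ) ^ 2 + 1) * t ^ 2) with hε0
  have hε0pos : 0 < ε0 := by rw [hε0]; positivity
  have hMε : (M : ℝ) ^ 2 * ε0 * t ^ 2 ≤ 1 := by
    rw [hε0]
    have : (M : ℝ) ^ 2 * (1 / (((M : ℝ) ^ 2 + 1) * t ^ 2)) * t ^ 2
        = (M : ℝ) ^ 2 / ((M : ℝ) ^ 2 + 1) := by
      field_simp
    rw [this, div_le_one (by positivity)]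
    linarith
  refine ⟨η0, ε0, hη0pos, hε0pos, ?_⟩
  intro R1 I φ B Bs hR1 hbox
  have hR1pos : (0 : ℝ) < R1 := by exact_mod_cast hR1
  -- exponential rate
  have hbexp : ∃ k0 : ℕ, ∀ k : ℕ, k0 ≤ k → (b : ℝ) * (1 / 16) ^ k ≤ (1 / 4) ^ k := by
    refine ⟨b, fun k hk => ?_⟩
    have h1 : (b : ℝ) ≤ 4 ^ k := by
      have h2 : b < 4 ^ b := Nat.lt_pow_self (by norm_num)
      have h3 : (4 : ℕ) ^ b ≤ 4 ^ k := Nat.pow_le_pow_right (by norm_num) hk
      exact_mod_cast (h2.le.trans h3)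
    calc (b : ℝ) * (1 / 16) ^ k ≤ 4 ^ k * (1 / 16) ^ k :=
          mul_le_mul_of_nonneg_right h1 (by positivity)
      _ = (1 / 4) ^ k := by rw [← mul_pow]; norm_num
  obtain ⟨k0, hk0⟩ := hbexp
  refine ⟨R1 * (k0 + 1), 1 / R1, by positivity, ?_⟩
  intro X A μ W hμ hW hflat R hR x hx
  have hRR1 : R1 ≤ R := le_trans (Nat.le_mul_of_pos_right _ (Nat.succ_pos _)) hR
  set J : ℕ := R / R1 + 1 with hJ
  have hJ1 : 1 ≤ J := Nat.succ_pos _
  have hJR : R ≤ R1 * J := by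
    rw [hJ]
    have := Nat.lt_div_mul_add (a := R) hR1
    rw [mul_add, mul_one, mul_comm R1]
    omega
  have hJ2 : R1 * J ≤ 2 * R := by
    rw [hJ, mul_add, mul_one]
    have := Nat.mul_div_le R R1
    omega
  have hset : SetupI φ l N C1 M A μ W L R1 B Bs (η0 * R1) ε0 κ :=
    { hμ := hμ, hR1 := hR1, hL := hL, hW := hW, box := hbox, hα := by positivity,
      hκ := hκpos, hε0 := hε0pos.le, hε := hMε, flat := hflat }
  have h := H I φ X A μ W L R1 B Bs (η0 * R1) ε0 κ hset J hJ1 x (hx.trans hJR)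
  -- compare the drift
  have hdrift : (a : ℝ) * (tau C1 R1 L (η0 * R1) κ * J) ≤ η * R := by
    have e1 : tau C1 R1 L (η0 * R1) κ = (2 * η0 + L * (2 * C1 + 1) * κ) * R1 := by
      unfold tau; push_cast; ring
    have e2 : L * (2 * C1 + 1) * κ ≤ η / (4 * (a + 1)) := by
      have h0 : 0 ≤ L * (2 * C1 + 1) := by positivity
      rw [hκ]
      calc L * (2 * C1 + 1) * (η / (4 * (a + 1) * (L * (2 * C1 + 1) + 1)))
          = (η / (4 * (a + 1))) * (L * (2 * C1 + 1) / (L * (2 * C1 + 1) + 1)) := by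
            field_simp
        _ ≤ (η / (4 * (a + 1))) * 1 := by
            apply mul_le_mul_of_nonneg_left _ (by positivity)
            rw [div_le_one (by positivity)]
            linarith
        _ = η / (4 * (a + 1)) := mul_one _
    have e3 : 2 * η0 = η / (4 * (a + 1)) := by rw [hη0]; field_simp; ring
    have e4 : 2 * η0 + L * (2 * C1 + 1) * κ ≤ η / (2 * (a + 1)) := by
      have : η / (2 * (a + 1)) = η / (4 * (a + 1)) + η / (4 * (a + 1)) := by
        field_simp; ring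
      rw [this, e3]; linarith
    have e5 : ((R1 : ℝ) * J) ≤ 2 * R := by exact_mod_cast hJ2
    rw [e1]
    calc (a : ℝ) * ((2 * η0 + L * (2 * C1 + 1) * κ) * R1 * J)
        = a * (2 * η0 + L * (2 * C1 + 1) * κ) * (R1 * J) := by ring
      _ ≤ a * (η / (2 * (a + 1))) * (2 * R) := by
          apply mul_le_mul _ e5 (by positivity) (by positivity)
          exact mul_le_mul_of_nonneg_left e4 (Nat.cast_nonneg _)
      _ = η * R * (a / (a + 1)) := by field_simp
      _ ≤ η * R * 1 := by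
          apply mul_le_mul_of_nonneg_left _ (by positivity)
          rw [div_le_one (by positivity)]
          linarith
      _ = η * R := mul_one _
  have hmono : dev A μ W (η * R) x ≤ dev A μ W (a * (tau C1 R1 L (η0 * R1) κ * J)) x := by
    have h0 : Gm A μ l W (a * (tau C1 R1 L (η0 * R1) κ * J))
        (dev A μ W (a * (tau C1 R1 L (η0 * R1) κ * J)) x) (l x) x := ⟨le_refl _, le_refl _⟩
    exact (h0.mono hμ hdrift (le_refl _) (le_refl _)).2
  refine hmono.trans (h.trans ?_)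
  have hk : k0 ≤ J := by
    have : k0 + 1 ≤ R / R1 := by
      rw [Nat.le_div_iff_mul_le hR1, mul_comm]; exact hR
    omega
  refine (hk0 J hk).trans ?_
  have h14 : (1 / 4 : ℝ) ≤ Real.exp (-1) := by
    have : Real.exp 1 ≤ 4 := by
      have := Real.exp_one_lt_three
      linarith
    rw [Real.exp_neg, one_div]
    exact inv_anti₀ (Real.exp_pos _) this
  calc (1 / 4 : ℝ) ^ J ≤ Real.exp (-1) ^ J := pow_le_pow_left₀ (by norm_num) h14 J
    _ = Real.exp (-(J : ℝ)) := by rw [← Real.exp_nat_mul]; congr 1; ring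
    _ ≤ Real.exp (-(1 / R1 * R)) := by
        apply Real.exp_le_exp.2
        have : (R : ℝ) ≤ R1 * J := by exact_mod_cast hJR
        have h2 : 1 / (R1 : ℝ) * R ≤ J := by
          rw [one_div, inv_mul_le_iff₀ hR1pos]; exact this
        linarith

end Vale.Agent.P188.H382
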