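import Vale.Agent.P188.H382.MeanStep

/-!
# Random chains with indexed noise and pairwise weights, in a right `S`-set with invariant mean

`φ : I → S` gives the noise; one block goes from `z` to `z * (φ n')⁻¹ * (φ n * g)`,
`n', n ∈ B`, with weight `b Y n' n` where `Y = z * (φ n')⁻¹`.
-/

set_option linter.unusedSectionVars false

universe u v w x y

namespace Vale.Agent.P188.H382

open Finset Vale.Agent.P188 Agent.P188.H428

variable {S : Type u} [Group S] {X : Type v} (A : RAct S X) {μ : (X → ℝ) → ℝ}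
variable {I : Type y} (φ : I → S)

/-- One block operator. -/
def iblk (b : X → I → I → ℝ) (B : Finset I) (g : S) (f : X → ℝ) (z : X) : ℝ :=
  ∑ n' ∈ B, ∑ n ∈ B, b (A.act z (φ n')⁻¹) n' n * f (A.act z ((φ n')⁻¹ * (φ n * g)))

lemma iblk_bdd (b : X → I → I → ℝ) (hb : ∀ h h', Bdd (fun Y => b Y h h')) (B : Finset I) (g : S)
    (f : X → ℝ) (hf : Bdd f) : Bdd (iblk A φ b B g f) := by
  unfold iblk
  refine Bdd.sum' B _ fun n' _ => Bdd.sum' B _ fun n _ => ?_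
  exact Bdd.mul' ((hb n' n).comp _) (hf.comp _)

lemma iblk_sq_le (hμ : InvMean A μ) (b : X → I → I → ℝ) (hb : ∀ h h', Bdd (fun Y => b Y h h'))
    (B : Finset I) (hB : B.Nonempty) (g : S) (f : X → ℝ) (hf : Bdd f) (P : ℝ) (hP0 : 0 ≤ P)
    (hP : ∀ Y, ∑ n' ∈ B, ∑ n ∈ B, b Y n' n ^ 2 ≤ P) :
    μ (fun z => iblk A φ b B g f z ^ 2) ≤ (P * (B.card : ℝ) ^ 2) * μ (fun z => f z ^ 2) := by
  have hm := hμ.mean
  set v : X → ℝ := iblk A φ b B g f with hv
  have hvb : Bdd v := iblk_bdd A φ b hb B g f hf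
  set V : ℝ := μ (fun z => v z ^ 2) with hV
  set U : ℝ := μ (fun z => f z ^ 2) with hU
  set k : ℝ := (B.card : ℝ) with hk
  have hkpos : 0 < k := by rw [hk]; exact_mod_cast hB.card_pos
  set G : X → ℝ := fun Y => ∑ n' ∈ B, ∑ n ∈ B, b Y n' n * v (A.act Y (φ n')) *
    f (A.act Y (φ n * g)) with hG
  have hGb : Bdd G := Bdd.sum' B _ fun n' _ => Bdd.sum' B _ fun n _ =>
    Bdd.mul' (Bdd.mul' (hb n' n) (hvb.comp _)) (hf.comp _)
  have key1 : V = μ G := by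
    have e1 : (fun z => v z ^ 2) = fun z => ∑ n' ∈ B, ∑ n ∈ B,
        b (A.act z (φ n')⁻¹) n' n * v (A.act (A.act z (φ n')⁻¹) (φ n')) *
          f (A.act (A.act z (φ n')⁻¹) (φ n * g)) := by
      funext z
      have h2 : v z ^ 2 = v z * ∑ n' ∈ B, ∑ n ∈ B, b (A.act z (φ n')⁻¹) n' n *
          f (A.act z ((φ n')⁻¹ * (φ n * g))) := by
        rw [sq]; rfl
      rw [h2, Finset.mul_sum]
      refine Finset.sum_congr rfl fun n' _ => ?_
      rw [Finset.mul_sum]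
      refine Finset.sum_congr rfl fun n _ => ?_
      rw [A.mul, inv_mul_cancel, A.one, A.mul]; ring
    have hbd : ∀ n' ∈ B, ∀ n ∈ B, Bdd (fun Y => b Y n' n * v (A.act Y (φ n')) *
        f (A.act Y (φ n * g))) := fun n' _ n _ =>
      Bdd.mul' (Bdd.mul' (hb n' n) (hvb.comp _)) (hf.comp _)
    have hbd1 : ∀ n' ∈ B, Bdd (fun Y => ∑ n ∈ B, b Y n' n * v (A.act Y (φ n')) *
        f (A.act Y (φ n * g))) := fun n' hn' => Bdd.sum' B _ (hbd n' hn')
    rw [hV, e1, hG]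
    rw [(hm.sum B (fun n' z => ∑ n ∈ B, b (A.act z (φ n')⁻¹) n' n *
        v (A.act (A.act z (φ n')⁻¹) (φ n')) * f (A.act (A.act z (φ n')⁻¹) (φ n * g)))
        (fun n' hn' => (hbd1 n' hn').comp (fun z => A.act z (φ n')⁻¹))).2,
      (hm.sum B (fun n' Y => ∑ n ∈ B, b Y n' n * v (A.act Y (φ n')) *
        f (A.act Y (φ n * g))) hbd1).2]
    refine Finset.sum_congr rfl fun n' hn' => ?_
    exact hμ.inv (φ n')⁻¹ _ (hbd1 n' hn')
  set F1 : X → ℝ := fun Y => ∑ n' ∈ B, v (A.act Y (φ n')) ^ 2 with hF1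
  set F2 : X → ℝ := fun Y => ∑ n ∈ B, f (A.act Y (φ n * g)) ^ 2 with hF2
  have hF1b : Bdd F1 := Bdd.sum' B _ fun n' _ => Bdd.sq' (hvb.comp _)
  have hF2b : Bdd F2 := Bdd.sum' B _ fun n' _ => Bdd.sq' (hf.comp _)
  have hμ1 : μ F1 = k * V := by
    rw [hF1, (hm.sum B (fun n' Y => v (A.act Y (φ n')) ^ 2)
      (fun n' _ => Bdd.sq' (hvb.comp _))).2]
    have h3 : ∀ n' ∈ B, μ (fun Y => v (A.act Y (φ n')) ^ 2) = V := fun n' _ =>
      hμ.inv (φ n') (fun z => v z ^ 2) (Bdd.sq' hvb)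
    rw [Finset.sum_congr rfl h3, Finset.sum_const, nsmul_eq_mul]
  have hμ2 : μ F2 = k * U := by
    rw [hF2, (hm.sum B (fun n Y => f (A.act Y (φ n * g)) ^ 2)
      (fun n _ => Bdd.sq' (hf.comp _))).2]
    have h3 : ∀ n ∈ B, μ (fun Y => f (A.act Y (φ n * g)) ^ 2) = U := fun n _ =>
      hμ.inv (φ n * g) (fun z => f z ^ 2) (Bdd.sq' hf)
    rw [Finset.sum_congr rfl h3, Finset.sum_const, nsmul_eq_mul]
  have key2 : ∀ Y, 2 * G Y ≤ (1 / k) * F1 Y + (P * k) * F2 Y := by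
    intro Y
    have h1 : G Y ^ 2 ≤ P * (F1 Y * F2 Y) := by
      have c1 : G Y = ∑ q ∈ B ×ˢ B, b Y q.1 q.2 * (v (A.act Y (φ q.1)) *
          f (A.act Y (φ q.2 * g))) := by
        rw [Finset.sum_product, hG]
        refine Finset.sum_congr rfl fun n' _ => Finset.sum_congr rfl fun n _ => by ring
      have c2 := Finset.sum_mul_sq_le_sq_mul_sq (B ×ˢ B) (fun q => b Y q.1 q.2)
        (fun q => v (A.act Y (φ q.1)) * f (A.act Y (φ q.2 * g)))
      rw [← c1] at c2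
      have c3 : ∑ q ∈ B ×ˢ B, b Y q.1 q.2 ^ 2 ≤ P := by
        rw [Finset.sum_product]; exact hP Y
      have c4 : ∑ q ∈ B ×ˢ B, (v (A.act Y (φ q.1)) * f (A.act Y (φ q.2 * g))) ^ 2
          = F1 Y * F2 Y := by
        rw [Finset.sum_product, hF1, hF2, Finset.sum_mul_sum]
        refine Finset.sum_congr rfl fun n' _ => Finset.sum_congr rfl fun n _ => by ring
      rw [c4] at c2
      refine c2.trans (mul_le_mul_of_nonneg_right c3 ?_)
      rw [← c4]
      exact Finset.sum_nonneg fun q _ => sq_nonneg _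
    have hF10 : 0 ≤ F1 Y := Finset.sum_nonneg fun n _ => sq_nonneg _
    have hF20 : 0 ≤ F2 Y := Finset.sum_nonneg fun n _ => sq_nonneg _
    have h2 : (2 * G Y) ^ 2 ≤ ((1 / k) * F1 Y + (P * k) * F2 Y) ^ 2 := by
      have e : ((1 / k) * F1 Y + (P * k) * F2 Y) ^ 2
          = ((1 / k) * F1 Y - (P * k) * F2 Y) ^ 2 + 4 * (P * (F1 Y * F2 Y)) := by
        field_simp
        ring
      rw [e]
      nlinarith [sq_nonneg ((1 / k) * F1 Y - (P * k) * F2 Y)]
    exact (le_abs_self _).trans (abs_le_of_sq_le_sq h2 (by positivity))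
  have key3 := hm.le (hGb.const_mul 2) ((hF1b.const_mul (1 / k)).add (hF2b.const_mul (P * k)))
    key2
  rw [hm.smul _ _ hGb, hm.add _ _ (hF1b.const_mul (1 / k)) (hF2b.const_mul (P * k)),
    hm.smul _ _ hF1b, hm.smul _ _ hF2b, hμ1, hμ2, ← key1] at key3
  have e1 : (1 / k) * (k * V) = V := by field_simp
  rw [e1] at key3
  calc V ≤ P * k * (k * U) := by linarith
    _ = _ := by ring

/-- Product of the weights along a chain. -/
def iwt (b : S → X → I → I → ℝ) : (J : ℕ) → (Fin J → S) → (Fin J → I × I) → X → ℝ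
  | 0, _, _, _ => 1
  | J + 1, g, ω, z => b (g 0) (A.act z (φ (ω 0).1)⁻¹) (ω 0).1 (ω 0).2 *
      iwt b J (Fin.tail g) (Fin.tail ω) (A.act z ((φ (ω 0).1)⁻¹ * (φ (ω 0).2 * g 0)))

lemma iwt_bdd (b : S → X → I → I → ℝ) (hb : ∀ s h h', Bdd (fun Y => b s Y h h')) (J : ℕ)
    (g : Fin J → S) (ω : Fin J → I × I) : Bdd (iwt A φ b J g ω) := by
  induction J with
  | zero => exact Bdd.const 1
  | succ J ih =>
    have h := ih (Fin.tail g) (Fin.tail ω)
    exact Bdd.mul' ((hb (g 0) (ω 0).1 (ω 0).2).comp (fun z => A.act z (φ (ω 0).1)⁻¹))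
      (h.comp _)

/-- The noise space. -/
def nz (B : Finset I) (J : ℕ) : Finset (Fin J → I × I) :=
  Fintype.piFinset fun _ => B ×ˢ B

lemma mem_nz {B : Finset I} {J : ℕ} {ω : Fin J → I × I} :
    ω ∈ nz B J ↔ ∀ i, (ω i).1 ∈ B ∧ (ω i).2 ∈ B := by
  unfold nz
  rw [Fintype.mem_piFinset]
  simp only [Finset.mem_product]

lemma card_nz (B : Finset I) (J : ℕ) : (nz B J).card = (B.card * B.card) ^ J := by
  unfold nz
  rw [Fintype.card_piFinset]
  simp [Finset.card_product]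

lemma sum_nz_succ (B : Finset I) (J : ℕ) (f : (Fin (J + 1) → I × I) → ℝ) :
    ∑ ω ∈ nz B (J + 1), f ω
      = ∑ n' ∈ B, ∑ n ∈ B, ∑ ω ∈ nz B J, f (Fin.cons (n', n) ω) := by
  rw [← Finset.sum_product' B B (fun n' n => ∑ ω ∈ nz B J, f (Fin.cons (n', n) ω)),
    ← Finset.sum_product' (B ×ˢ B) (nz B J) (fun p ω => f (Fin.cons (p.1, p.2) ω))]
  refine Finset.sum_nbij' (fun ω => (ω 0, Fin.tail ω)) (fun q => Fin.cons q.1 q.2) ?_ ?_ ?_ ?_ ?_
  · intro ω hω
    rw [mem_nz] at hω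
    rw [Finset.mem_product, Finset.mem_product, mem_nz]
    exact ⟨hω 0, fun i => hω i.succ⟩
  · rintro ⟨p, ω⟩ h
    rw [Finset.mem_product, Finset.mem_product, mem_nz] at h
    rw [mem_nz]
    intro i
    refine Fin.cases ?_ (fun j => ?_) i
    · simpa using h.1
    · simpa using h.2 j
  · intro ω _
    exact Fin.cons_self_tail ω
  · rintro ⟨p, ω⟩ _
    simp
  · intro ω _
    simp only [Prod.mk.eta, Fin.cons_self_tail]

lemma sum_iwt_succ (b : S → X → I → I → ℝ) (B : Finset I) (J : ℕ) (g : Fin (J + 1) → S) (z : X) :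
    ∑ ω ∈ nz B (J + 1), iwt A φ b (J + 1) g ω z
      = iblk A φ (b (g 0)) B (g 0) (fun y => ∑ ω ∈ nz B J, iwt A φ b J (Fin.tail g) ω y) z := by
  rw [sum_nz_succ]
  unfold iblk
  refine Finset.sum_congr rfl fun n' _ => Finset.sum_congr rfl fun n _ => ?_
  rw [Finset.mul_sum]
  refine Finset.sum_congr rfl fun ω _ => ?_
  simp only [iwt, Fin.cons_zero, Fin.tail_cons]

lemma mean_iwt_sq_le (hμ : InvMean A μ) (b : S → X → I → I → ℝ)
    (hb : ∀ s h h', Bdd (fun Y => b s Y h h')) (B : Finset I) (hB : B.Nonempty)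
    (P : ℝ) (hP0 : 0 ≤ P) (J : ℕ) (g : Fin J → S)
    (hP : ∀ i Y, ∑ n' ∈ B, ∑ n ∈ B, b (g i) Y n' n ^ 2 ≤ P) :
    μ (fun z => (∑ ω ∈ nz B J, iwt A φ b J g ω z) ^ 2) ≤ (P * (B.card : ℝ) ^ 2) ^ J := by
  induction J with
  | zero =>
    have : ∀ z, ∑ ω ∈ nz B 0, iwt A φ b 0 g ω z = 1 := by
      intro z
      simp only [iwt]
      rw [Finset.sum_const, card_nz]
      simp
    simp only [this]
    simp [hμ.mean.one]
  | succ J ih =>
    have h1 := ih (Fin.tail g) (fun i Y => hP i.succ Y)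
    have h2 := iblk_sq_le A φ hμ (b (g 0)) (hb (g 0)) B hB (g 0)
      (fun y => ∑ ω ∈ nz B J, iwt A φ b J (Fin.tail g) ω y)
      (Bdd.sum' _ _ fun ω _ => iwt_bdd A φ b hb J _ ω) P hP0 (fun Y => hP 0 Y)
    have h3 : (fun z => (∑ ω ∈ nz B (J + 1), iwt A φ b (J + 1) g ω z) ^ 2)
        = fun z => iblk A φ (b (g 0)) B (g 0)
          (fun y => ∑ ω ∈ nz B J, iwt A φ b J (Fin.tail g) ω y) z ^ 2 := by
      funext z; rw [sum_iwt_succ]
    rw [h3]
    refine le_trans h2 ?_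
    rw [pow_succ, mul_comm]
    exact mul_le_mul_of_nonneg_right h1 (by positivity)

end Vale.Agent.P188.H382
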