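import Vale.Agent.P188.H382.IdxConc
import Vale.Agent.P188.H131.MeanSet

/-!
# Induced `S`-sets

`j : G →* S`, every `s : S` is `j (fl s) * r (π s)` (rounding).  A right `G`-set `X` induces the
right `S`-set `X × Q`.
-/

set_option linter.unusedSectionVars false

universe u v w x y

namespace Vale.Agent.P188.H382

open Finset Vale.Agent.P188 Agent.P188.H428 Vale.Agent.P188.H131

/-- A rounding of `S` to `G`. -/
structure Rounding (S : Type u) [Group S] (G : Type v) [Group G] (Q : Type w) where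
  j : G →* S
  fl : S → G
  π : S → Q
  r : Q → S
  eq : ∀ s, j (fl s) * r (π s) = s
  π_j : ∀ g s, π (j g * s) = π s
  fl_j : ∀ g s, fl (j g * s) = g * fl s
  π_r : ∀ q, π (r q) = q
  fl_r : ∀ q, fl (r q) = 1

/-- Existence of a rounding with remainders in a given set `K`. -/
theorem exists_rounding {S : Type u} [Group S] {G : Type v} [Group G] (j : G →* S)
    (hj : Function.Injective j) (K : Set S) (hK : ∀ s, ∃ g, ∃ k ∈ K, j g * k = s) :
    ∃ ρ : Rounding S G (Quotient (QuotientGroup.rightRel j.range)), ρ.j = j ∧ ∀ q, ρ.r q ∈ K := by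
  classical
  set Q := Quotient (QuotientGroup.rightRel j.range) with hQ
  set π : S → Q := fun s => Quotient.mk'' s with hπ
  have hπeq : ∀ s t : S, π s = π t ↔ ∃ g, j g * s = t := by
    intro s t
    rw [hπ]
    show (Quotient.mk'' s : Q) = Quotient.mk'' t ↔ _
    rw [Quotient.eq'', QuotientGroup.rightRel_apply, MonoidHom.mem_range]
    constructor
    · rintro ⟨g, hg⟩; exact ⟨g, by rw [hg]; group⟩
    · rintro ⟨g, hg⟩; exact ⟨g, by rw [← hg]; group⟩
  have hsurj : ∀ q : Q, ∃ s, π s = q := fun q => by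
    obtain ⟨s, hs⟩ := Quotient.exists_rep q
    exact ⟨s, hs⟩
  have hr : ∀ q : Q, ∃ k ∈ K, π k = q := by
    intro q
    obtain ⟨s, hs⟩ := hsurj q
    obtain ⟨g, k, hk, hgk⟩ := hK s
    refine ⟨k, hk, ?_⟩
    rw [← hs]
    exact (hπeq k s).2 ⟨g, hgk⟩
  choose r hrK hr using hr
  have hfl : ∀ s : S, ∃ g, j g * r (π s) = s := fun s => (hπeq _ _).1 (hr (π s))
  choose fl hfl using hfl
  have hπj : ∀ g s, π (j g * s) = π s := fun g s => ((hπeq s (j g * s)).2 ⟨g, rfl⟩).symm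
  refine ⟨{ j := j, fl := fl, π := π, r := r, eq := hfl, π_j := hπj, fl_j := ?_, π_r := hr,
            fl_r := ?_ }, rfl, hrK⟩
  · intro g s
    have h1 := hfl (j g * s)
    have h2 := hfl s
    rw [hπj] at h1
    apply hj
    rw [map_mul]
    have h3 : j (fl (j g * s)) = (j g * s) * (r (π s))⁻¹ := eq_mul_inv_of_mul_eq h1
    have h4 : j (fl s) = s * (r (π s))⁻¹ := eq_mul_inv_of_mul_eq h2
    rw [h3, h4, mul_assoc]
  · intro q
    have h1 := hfl (r q)
    rw [hr] at h1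
    apply hj
    rw [map_one]
    exact mul_eq_right.1 h1

section

variable {S : Type u} [Group S] {G : Type v} [Group G] {Q : Type w} (ρ : Rounding S G Q)
  {X : Type x}

lemma Rounding.r_π (s : S) : ρ.r (ρ.π s) = (ρ.j (ρ.fl s))⁻¹ * s := by
  have := ρ.eq s
  rw [eq_inv_mul_iff_mul_eq]; exact this

lemma Rounding.step (s t : S) : ρ.π (ρ.r (ρ.π s) * t) = ρ.π (s * t) := by
  rw [ρ.r_π, mul_assoc, ← map_inv, ρ.π_j]

lemma Rounding.step_fl (s t : S) : ρ.fl (ρ.r (ρ.π s) * t) = (ρ.fl s)⁻¹ * ρ.fl (s * t) := by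
  rw [ρ.r_π, mul_assoc, ← map_inv, ρ.fl_j]

/-- The induced `S`-set. -/
def ind (A0 : RAct G X) : RAct S (X × Q) where
  act z s := (A0.act z.1 (ρ.fl (ρ.r z.2 * s)), ρ.π (ρ.r z.2 * s))
  one z := by
    rw [mul_one, ρ.fl_r, ρ.π_r, A0.one]
  mul z s t := by
    simp only
    rw [ρ.step, ρ.step_fl, A0.mul, mul_assoc, mul_inv_cancel_left]

lemma ind_act (A0 : RAct G X) (x : X) (q : Q) (s : S) :
    (ind ρ A0).act (x, q) s = (A0.act x (ρ.fl (ρ.r q * s)), ρ.π (ρ.r q * s)) := rfl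

/-- From a point over `x` to a point over `x g`. -/
lemma ind_act_conj (A0 : RAct G X) (x : X) (q q' : Q) (g : G) :
    (ind ρ A0).act (x, q) ((ρ.r q)⁻¹ * (ρ.j g * ρ.r q')) = (A0.act x g, q') := by
  rw [ind_act, mul_inv_cancel_left, ρ.π_j, ρ.fl_j, ρ.π_r, ρ.fl_r, mul_one]

/-- The mean on the induced `S`-set. -/
def indMean (lam : (Q → ℝ) → ℝ) (m : (X → ℝ) → ℝ) (f : X × Q → ℝ) : ℝ :=
  lam fun q => m fun x => f (x, q)

/-- the mean on `Q` coming from a mean on `S`. -/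
def qMean (m : (S → ℝ) → ℝ) (f : Q → ℝ) : ℝ := m fun s => f (ρ.π s)

lemma IsMean.bdd_inner {Y : Type y} {m : (X → ℝ) → ℝ} (hm : IsMean m) {f : X → Y → ℝ}
    (hf : ∃ M : ℝ, ∀ x y, |f x y| ≤ M) : Bdd (fun y => m fun x => f x y) := by
  obtain ⟨M, hM⟩ := hf
  exact ⟨M, fun y => hm.abs_le fun x => hM x y⟩

/-- product of means -/
lemma isMean_prod {Y : Type y} {m : (X → ℝ) → ℝ} (hm : IsMean m) {lam : (Y → ℝ) → ℝ}
    (hl : IsMean lam) : IsMean (fun f : X × Y → ℝ => lam fun q => m fun x => f (x, q)) where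
  add f g hf hg := by
    obtain ⟨M, hM⟩ := hf
    obtain ⟨M', hM'⟩ := hg
    have h1 : (fun q => m fun x => (f + g) (x, q))
        = (fun q => m fun x => f (x, q)) + fun q => m fun x => g (x, q) := by
      funext q
      exact hm.add _ _ ⟨M, fun x => hM _⟩ ⟨M', fun x => hM' _⟩
    rw [h1]
    exact hl.add _ _ (IsMean.bdd_inner hm ⟨M, fun x y => hM (x, y)⟩)
      (IsMean.bdd_inner hm ⟨M', fun x y => hM' (x, y)⟩)
  smul a f hf := by
    obtain ⟨M, hM⟩ := hf
    have h1 : (fun q => m fun x => a * f (x, q)) = fun q => a * m fun x => f (x, q) := by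
      funext q
      exact hm.smul a _ ⟨M, fun x => hM _⟩
    rw [h1]
    exact hl.smul a _ (IsMean.bdd_inner hm ⟨M, fun x y => hM (x, y)⟩)
  nonneg f hf h := by
    obtain ⟨M, hM⟩ := hf
    exact hl.nonneg _ (IsMean.bdd_inner hm ⟨M, fun x y => hM (x, y)⟩)
      fun q => hm.nonneg _ ⟨M, fun x => hM _⟩ fun x => h _
  one := by
    have : (fun _ : Y => m fun _ => (1 : ℝ)) = fun _ => 1 := by funext; exact hm.one
    rw [this]; exact hl.one

theorem qMean_isMean {m : (S → ℝ) → ℝ} (hm : IsMean m) : IsMean (qMean ρ m) :=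
  IsMean.map hm _

theorem invMean_ind (A0 : RAct G X) {m0 : (X → ℝ) → ℝ} (hm0 : InvMean A0 m0)
    {m : (S → ℝ) → ℝ} (hm : IsMean m) (hinv : ∀ (s : S) f, Bdd f → m (fun t => f (t * s)) = m f) :
    InvMean (ind ρ A0) (indMean (qMean ρ m) m0) where
  mean := isMean_prod hm0.mean (qMean_isMean ρ hm)
  inv s f hf := by
    obtain ⟨M, hM⟩ := hf
    unfold indMean qMean
    have h1 : (fun t => m0 fun x => f ((ind ρ A0).act (x, ρ.π t) s))
        = fun t => (fun t' => m0 fun x => f (x, ρ.π t')) (t * s) := by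
      funext t
      simp only [ind_act, ρ.step]
      exact hm0.inv (ρ.fl (ρ.r (ρ.π t) * s)) (fun x => f (x, ρ.π (t * s))) ⟨M, fun x => hM _⟩
    rw [h1]
    exact hinv s (fun t' => m0 fun x => f (x, ρ.π t'))
      ⟨M, fun t => hm0.mean.abs_le fun x => hM (x, ρ.π t)⟩

/-- a pulled back function has the same mean -/
lemma indMean_fst {m : (S → ℝ) → ℝ} (hm : IsMean m) (m0 : (X → ℝ) → ℝ) (f : X → ℝ) :
    indMean (qMean ρ m) m0 (fun z => f z.1) = m0 f := by
  unfold indMean qMean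
  exact hm.const (m0 f)

variable (S) in
/-- `S` acting on itself. -/
def selfAct : RAct S S where
  act z s := z * s
  one := mul_one
  mul := mul_assoc

variable {E : Type*} [NormedAddCommGroup E]

lemma lip_ind (A0 : RAct G X) (W : X → E) (L0 : ℝ) (hL0 : 0 ≤ L0) (lG : G → ℕ) (l : S → ℕ)
    (C : ℕ) (hW : ∀ x g, ‖W (A0.act x g) - W x‖ ≤ L0 * lG g)
    (hC : ∀ q s, lG (ρ.fl (ρ.r q * s)) ≤ C * l s) (z : X × Q) (s : S) :
    ‖(fun z : X × Q => W z.1) ((ind ρ A0).act z s) - (fun z : X × Q => W z.1) z‖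
      ≤ (L0 * C) * l s := by
  obtain ⟨x, q⟩ := z
  refine (hW x _).trans ?_
  rw [mul_assoc]
  refine mul_le_mul_of_nonneg_left ?_ hL0
  exact_mod_cast hC q s

lemma flat_ind {I : Type*} (φ : I → S) (A0 : RAct G X) (W : X → E) (l : S → ℕ) (R1 : ℕ)
    (B : Finset I) (α ε : ℝ)
    (h : ∀ x, FlatI (selfAct S) φ l (fun s => W (A0.act x (ρ.fl s))) R1 B α ε) :
    FlatI (ind ρ A0) φ l (fun z => W z.1) R1 B α ε := by
  intro Y g hg
  obtain ⟨x, q⟩ := Y
  exact h x (ρ.r q) g hg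

end

end Vale.Agent.P188.H382
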