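import Vale.Agent.P188.H382.MeanL2
import Mathlib.Analysis.SpecialFunctions.Pow.Real
import Mathlib.Analysis.Normed.Group.Basic

/-!
# Exponentially rare large displacements along random chains, mean version
-/

set_option linter.unusedSectionVars false

universe u v w x

namespace Vale.Agent.P188.H382

open Finset Vale.Agent.P188 Agent.P188.H428

variable {S : Type u} [Group S] [DecidableEq S] {X : Type v} (A : RAct S X) (μ : (X → ℝ) → ℝ)
variable {E : Type w} [NormedAddCommGroup E]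

open Classical in
/-- mean of the set of points where right translation by `x` moves `W` by more than `τ`. -/
noncomputable def dev (W : X → E) (τ : ℝ) (x : S) : ℝ :=
  μ (fun z => if τ < ‖W (A.act z x) - W z‖ then 1 else 0)

lemma bdd_ite (p : X → Prop) [DecidablePred p] : Bdd (fun z => if p z then (1 : ℝ) else 0) :=
  ⟨1, fun z => by dsimp only; split_ifs <;> simp⟩

variable {μ}

lemma dev_nonneg (hμ : InvMean A μ) (W : X → E) (τ : ℝ) (x : S) : 0 ≤ dev A μ W τ x := by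
  classical
  unfold dev
  refine hμ.mean.nonneg _ (bdd_ite _) fun z => ?_
  split_ifs <;> simp

/-- number of bad events along a chain. -/
def cost (bd : X → S → ℕ) : (J : ℕ) → (Fin J → S) → (Fin J → S × S) → X → ℕ
  | 0, _, _, _ => 0
  | J + 1, g, ω, z => bd (A.act z (ω 0).1⁻¹) (ω 0).1 + bd (A.act z (ω 0).1⁻¹) ((ω 0).2 * g 0) +
      cost bd J (Fin.tail g) (Fin.tail ω) (A.act z ((ω 0).1⁻¹ * ((ω 0).2 * g 0)))

lemma wt_eq_pow (bd : X → S → ℕ) (t : ℝ) (J : ℕ) (g : Fin J → S) (ω : Fin J → S × S) (z : X) :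
    wt A (fun Y h => t ^ bd Y h) J g ω z = t ^ cost A bd J g ω z := by
  induction J generalizing z with
  | zero => simp [wt, cost]
  | succ J ih =>
    simp only [wt, cost]
    rw [ih, pow_add, pow_add]

lemma disp_le (W : X → E) (c : X → E) (bd : X → S → ℕ) (α D : ℝ)
    (hbd : ∀ Y h, bd Y h = 0 → ‖W (A.act Y h) - c Y‖ ≤ α) (hα : 0 ≤ α) (hD : 0 ≤ D)
    (B' B : Finset S) (J : ℕ) (g : Fin J → S)
    (hW : ∀ i, ∀ n' ∈ B', ∀ n ∈ B, ∀ z, ‖W (A.act z (n'⁻¹ * (n * g i))) - W z‖ ≤ D)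
    (ω : Fin J → S × S) (hω : ω ∈ noise B' B J) (z : X) :
    ‖W (A.act z (out J g ω)) - W z‖ ≤ 2 * α * J + D * cost A bd J g ω z := by
  induction J generalizing z with
  | zero => simp [out, cost, A.one]
  | succ J ih =>
    rw [mem_noise] at hω
    have h0 := hω 0
    set z' : X := A.act z ((ω 0).1⁻¹ * ((ω 0).2 * g 0)) with hz'
    have h1 := ih (Fin.tail g) (fun i => hW i.succ) (Fin.tail ω)
      (by rw [mem_noise]; exact fun i => hω i.succ) z'
    have h2 : A.act z (out (J + 1) g ω) = A.act z' (out J (Fin.tail g) (Fin.tail ω)) := by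
      rw [hz', A.mul]; rfl
    have h3 : ‖W z' - W z‖ ≤ 2 * α + D * (bd (A.act z (ω 0).1⁻¹) (ω 0).1 +
        bd (A.act z (ω 0).1⁻¹) ((ω 0).2 * g 0) : ℕ) := by
      by_cases hb : bd (A.act z (ω 0).1⁻¹) (ω 0).1 + bd (A.act z (ω 0).1⁻¹) ((ω 0).2 * g 0) = 0
      · have hb1 : bd (A.act z (ω 0).1⁻¹) (ω 0).1 = 0 := by omega
        have hb2 : bd (A.act z (ω 0).1⁻¹) ((ω 0).2 * g 0) = 0 := by omega
        have e1 := hbd _ _ hb1
        have e2 := hbd _ _ hb2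
        rw [A.mul, inv_mul_cancel, A.one] at e1
        rw [A.mul] at e2
        rw [hb]
        calc ‖W z' - W z‖ = ‖(W z' - c (A.act z (ω 0).1⁻¹)) - (W z - c (A.act z (ω 0).1⁻¹))‖ := by
              congr 1; abel
          _ ≤ ‖W z' - c (A.act z (ω 0).1⁻¹)‖ + ‖W z - c (A.act z (ω 0).1⁻¹)‖ :=
              norm_sub_le _ _
          _ ≤ α + α := add_le_add e2 e1
          _ = 2 * α + D * (0 : ℕ) := by push_cast; ring
      · have hb1 : 1 ≤ bd (A.act z (ω 0).1⁻¹) (ω 0).1 +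
            bd (A.act z (ω 0).1⁻¹) ((ω 0).2 * g 0) := by
          omega
        have e1 := hW 0 _ h0.1 _ h0.2 z
        have hb2 : (1 : ℝ) ≤ (bd (A.act z (ω 0).1⁻¹) (ω 0).1 +
            bd (A.act z (ω 0).1⁻¹) ((ω 0).2 * g 0) : ℕ) := by exact_mod_cast hb1
        calc ‖W z' - W z‖ ≤ D := e1
          _ = D * 1 := (mul_one D).symm
          _ ≤ D * (bd (A.act z (ω 0).1⁻¹) (ω 0).1 +
            bd (A.act z (ω 0).1⁻¹) ((ω 0).2 * g 0) : ℕ) := mul_le_mul_of_nonneg_left hb2 hD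
          _ ≤ _ := by linarith
    rw [h2]
    calc ‖W (A.act z' (out J (Fin.tail g) (Fin.tail ω))) - W z‖
        = ‖(W (A.act z' (out J (Fin.tail g) (Fin.tail ω))) - W z') + (W z' - W z)‖ := by
          congr 1; abel
      _ ≤ ‖W (A.act z' (out J (Fin.tail g) (Fin.tail ω))) - W z'‖ + ‖W z' - W z‖ :=
          norm_add_le _ _
      _ ≤ (2 * α * J + D * cost A bd J (Fin.tail g) (Fin.tail ω) z') + (2 * α + D *
          (bd (A.act z (ω 0).1⁻¹) (ω 0).1 + bd (A.act z (ω 0).1⁻¹) ((ω 0).2 * g 0) : ℕ)) :=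
          add_le_add h1 h3
      _ = 2 * α * (J + 1 : ℕ) + D * cost A bd (J + 1) g ω z := by
          simp only [cost, hz']; push_cast; ring

/-- First moment bound. -/
lemma mean_wt_le (hμ : InvMean A μ) (b : X → S → ℝ) (hb : ∀ h, Bdd (fun Y => b Y h))
    (hb0 : ∀ Y h, 0 ≤ b Y h) (B' B : Finset S) (J : ℕ) (g : Fin J → S)
    (hP' : ∀ Y, ∑ n ∈ B', b Y n ^ 2 ≤ 2 * B'.card)
    (hP : ∀ i Y, ∑ n ∈ B, b Y (n * g i) ^ 2 ≤ 2 * B.card) :
    ∑ ω ∈ noise B' B J, μ (wt A b J g ω) ≤ (2 * (B'.card * B.card)) ^ J := by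
  have hm := hμ.mean
  have hbd : ∀ ω ∈ noise B' B J, Bdd (wt A b J g ω) := fun ω _ => wt_bdd A b hb J g ω
  have h1 := mean_wt_sq_le A hμ b hb B' B (2 * B'.card) (2 * B.card) (by positivity)
    (by positivity) J g hP' hP
  rw [← (hm.sum (noise B' B J) (fun ω => wt A b J g ω) hbd).2]
  have h2 := IsMean.sq_le hm (Bdd.sum' (noise B' B J) (fun ω => wt A b J g ω) hbd)
  have h3 : μ (fun z => ∑ ω ∈ noise B' B J, wt A b J g ω z) ^ 2
      ≤ ((2 * (B'.card * B.card : ℝ)) ^ J) ^ 2 := by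
    calc μ (fun z => ∑ ω ∈ noise B' B J, wt A b J g ω z) ^ 2
        ≤ μ (fun z => (∑ ω ∈ noise B' B J, wt A b J g ω z) ^ 2) := h2
      _ ≤ ((2 * B'.card * B'.card) * (2 * B.card * B.card) : ℝ) ^ J := h1
      _ = ((2 * (B'.card * B.card : ℝ)) ^ J) ^ 2 := by
          rw [← pow_mul, mul_comm J 2, pow_mul]; ring
  have h4 : 0 ≤ (2 * (B'.card * B.card : ℝ)) ^ J := by positivity
  exact (le_abs_self _).trans (abs_le_of_sq_le_sq h3 h4)

lemma cost_bdd_pow (bd : X → S → ℕ) (hbd1 : ∀ Y h, bd Y h ≤ 1) (t : ℝ) (ht : 1 ≤ t) (h : S) :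
    Bdd (fun Y => t ^ bd Y h) := by
  refine ⟨t, fun Y => ?_⟩
  have ht0 : 0 ≤ t := by linarith
  rw [abs_of_nonneg (pow_nonneg ht0 _)]
  calc t ^ bd Y h ≤ t ^ 1 := pow_le_pow_right₀ ht (hbd1 Y h)
    _ = t := pow_one t

open Classical in
/-- Exceptional noise. -/
lemma card_bad_noise (hμ : InvMean A μ) (W : X → E) (c : X → E) (bd : X → S → ℕ) (α D : ℝ)
    (hbd : ∀ Y h, bd Y h = 0 → ‖W (A.act Y h) - c Y‖ ≤ α) (hbd1 : ∀ Y h, bd Y h ≤ 1)
    (hα : 0 ≤ α) (hD : 0 ≤ D) (B' B : Finset S) (J : ℕ) (g : Fin J → S)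
    (hW : ∀ i, ∀ n' ∈ B', ∀ n ∈ B, ∀ z, ‖W (A.act z (n'⁻¹ * (n * g i))) - W z‖ ≤ D)
    (t κ : ℝ) (ht : 1 ≤ t) (htκ : t ^ κ = 1024)
    (hP' : ∀ Y, ∑ n ∈ B', (t ^ bd Y n) ^ 2 ≤ 2 * B'.card)
    (hP : ∀ i Y, ∑ n ∈ B, (t ^ bd Y (n * g i)) ^ 2 ≤ 2 * B.card) :
    ((((noise B' B J).filter fun ω =>
      (1 / 16) ^ J < dev A μ W ((2 * α + D * κ) * J) (out J g ω)).card : ℕ) : ℝ)
      ≤ (1 / 32) ^ J * (noise B' B J).card := by
  set b : X → S → ℝ := fun Y h => t ^ bd Y h with hb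
  have ht0 : 0 < t := lt_of_lt_of_le one_pos ht
  have hb0 : ∀ Y h, 0 ≤ b Y h := fun Y h => pow_nonneg ht0.le _
  have hbb : ∀ h, Bdd (fun Y => b Y h) := fun h => cost_bdd_pow bd hbd1 t ht h
  have h1 := mean_wt_le A hμ b hbb hb0 B' B J g hP' hP
  set Ω := noise B' B J with hΩ
  have hΩcard : (Ω.card : ℝ) = (B'.card * B.card : ℝ) ^ J := by
    rw [hΩ, card_noise]; push_cast; ring
  -- pointwise Markov
  have h2 : ∀ ω ∈ Ω, (dev A μ W ((2 * α + D * κ) * J) (out J g ω) : ℝ) * 1024 ^ J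
      ≤ μ (wt A b J g ω) := by
    intro ω hω
    unfold dev
    rw [mul_comm, ← hμ.mean.smul _ _ (bdd_ite _)]
    refine hμ.mean.le ((bdd_ite _).const_mul _) (wt_bdd A b hbb J g ω) fun z => ?_
    split_ifs with h
    · have h3 := disp_le A W c bd α D hbd hα hD B' B J g hW ω hω z
      have h4 : D * κ * J < D * cost A bd J g ω z := by nlinarith
      have hDpos : 0 < D := by
        rcases hD.eq_or_lt with h0 | h0
        · rw [← h0] at h4; simp at h4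
        · exact h0
      have h5 : κ * J < cost A bd J g ω z := by
        have : D * (κ * J) < D * cost A bd J g ω z := by rw [← mul_assoc]; exact h4
        exact lt_of_mul_lt_mul_left this hD
      rw [hb, wt_eq_pow, mul_one]
      calc (1024 : ℝ) ^ J = (t ^ κ) ^ J := by rw [htκ]
        _ = t ^ (κ * J) := by rw [← Real.rpow_natCast, ← Real.rpow_mul ht0.le]
        _ ≤ t ^ ((cost A bd J g ω z : ℕ) : ℝ) := Real.rpow_le_rpow_of_exponent_le ht h5.le
        _ = t ^ cost A bd J g ω z := Real.rpow_natCast _ _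
    · rw [mul_zero, hb, wt_eq_pow]
      positivity
  have h3 : (∑ ω ∈ Ω, (dev A μ W ((2 * α + D * κ) * J) (out J g ω) : ℝ)) * 1024 ^ J
      ≤ (2 * (B'.card * B.card)) ^ J := by
    rw [Finset.sum_mul]
    exact (Finset.sum_le_sum h2).trans h1
  set Bd := Ω.filter fun ω =>
      (1 / 16) ^ J < dev A μ W ((2 * α + D * κ) * J) (out J g ω) with hB
  have h4 : (Bd.card : ℝ) * ((1 / 16) ^ J)
      ≤ ∑ ω ∈ Ω, (dev A μ W ((2 * α + D * κ) * J) (out J g ω) : ℝ) := by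
    calc (Bd.card : ℝ) * ((1 / 16) ^ J)
        = ∑ _ω ∈ Bd, ((1 / 16 : ℝ) ^ J) := by rw [Finset.sum_const, nsmul_eq_mul]
      _ ≤ ∑ ω ∈ Bd, (dev A μ W ((2 * α + D * κ) * J) (out J g ω) : ℝ) :=
          Finset.sum_le_sum fun ω hω => (Finset.mem_filter.1 hω).2.le
      _ ≤ ∑ ω ∈ Ω, (dev A μ W ((2 * α + D * κ) * J) (out J g ω) : ℝ) :=
          Finset.sum_le_sum_of_subset_of_nonneg (Finset.filter_subset _ _)
            fun _ _ _ => dev_nonneg A hμ W _ _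
  have h5 : (Bd.card : ℝ) * ((1 / 16) ^ J) * 1024 ^ J ≤ (2 * (B'.card * B.card)) ^ J :=
    le_trans (mul_le_mul_of_nonneg_right h4 (by positivity)) h3
  rw [hΩcard]
  have e1 : (Bd.card : ℝ) * ((1 / 16) ^ J) * 1024 ^ J = 64 ^ J * Bd.card := by
    have : (1024 : ℝ) ^ J = 16 ^ J * 64 ^ J := by rw [← mul_pow]; norm_num
    rw [this]
    have e2 : (1 / 16 : ℝ) ^ J * 16 ^ J = 1 := by rw [← mul_pow]; norm_num
    linear_combination (Bd.card : ℝ) * 64 ^ J * e2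
  have h7 : (64 : ℝ) ^ J * ((1 / 32) ^ J * (B'.card * B.card) ^ J)
      = (2 * (B'.card * B.card : ℝ)) ^ J := by
    rw [← mul_pow, ← mul_pow]
    congr 1
    ring
  rw [e1] at h5
  rw [← h7] at h5
  exact le_of_mul_le_mul_left h5 (by positivity)

end Vale.Agent.P188.H382
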