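import Vale.Agent.P188.H382.MeanMarkov
import Vale.Agent.P188.H428.Conc

/-!
# Fixed displacements modulo the commutator subgroup, mean version
-/

set_option linter.unusedSectionVars false

universe u v w x

namespace Vale.Agent.P188.H382

open Finset Vale.Agent.P188 Agent.P188.H428

variable {S : Type u} [Group S] [DecidableEq S]

/-- A big box `B` and a small box `Bs` in `N` at scale `R1`; the overlap of `B * (a⁻¹ * b)` with
`B` (`a, b ∈ Bs`) is only required modulo `⁅N, N⁆`. -/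
structure BoxesM (l : S → ℕ) (N : Subgroup S) (C1 M R1 : ℕ) (B Bs : Finset S) : Prop where
  ne : Bs.Nonempty
  sub : Bs ⊆ B
  mem : ∀ n ∈ B, n ∈ N
  len : ∀ n ∈ B, l n ≤ C1 * R1
  card : B.card ≤ M * Bs.card
  shift : ∀ a ∈ Bs, ∀ b ∈ Bs, ∃ (D : Finset S) (σ : S → S), D ⊆ B ∧ B.card ≤ 2 * D.card ∧
    Set.InjOn σ D ∧ (∀ n ∈ D, σ n ∈ B) ∧ ∀ n ∈ D, (n * (a⁻¹ * b))⁻¹ * σ n ∈ ⁅N, N⁆

variable {X : Type v} (A : RAct S X) {μ : (X → ℝ) → ℝ} {E : Type w} [NormedAddCommGroup E]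

open Classical in
/-- Flatness of `W` on all translates of the box, for most points. -/
def FlatM (l : S → ℕ) (W : X → E) (R1 : ℕ) (B : Finset S) (α ε : ℝ) : Prop :=
  ∀ Y, ∃ c, ∀ g, l g ≤ R1 →
    ((B.filter fun n => α < ‖W (A.act Y (n * g)) - c‖).card : ℝ) ≤ ε * B.card

open Classical in
lemma sum_sq_bd_le (W : X → E) (c : E) (Y : X) (g : S) (B A' Bs : Finset S) (M : ℕ) (α ε t : ℝ)
    (hAB : A' ⊆ B) (hBA : Bs ⊆ A') (hcard : B.card ≤ M * Bs.card)
    (hε : M * ε * t ^ 2 ≤ 1) (hε0 : 0 ≤ ε)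
    (hf : ((B.filter fun n => α < ‖W (A.act Y (n * g)) - c‖).card : ℝ) ≤ ε * B.card) :
    ∑ n ∈ A', (t ^ (if ‖W (A.act Y (n * g)) - c‖ ≤ α then 0 else 1)) ^ 2 ≤ 2 * (A'.card : ℝ) := by
  have h1 : ∀ n ∈ A', (t ^ (if ‖W (A.act Y (n * g)) - c‖ ≤ α then 0 else 1)) ^ 2
      ≤ 1 + (if α < ‖W (A.act Y (n * g)) - c‖ then t ^ 2 else 0) := by
    intro n _
    by_cases h : ‖W (A.act Y (n * g)) - c‖ ≤ α
    · rw [if_pos h, if_neg (not_lt.2 h)]; simp
    · rw [if_neg h, if_pos (not_le.1 h)]; simp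
  have h2 : ∑ n ∈ A', (if α < ‖W (A.act Y (n * g)) - c‖ then t ^ 2 else 0)
      = (A'.filter fun n => α < ‖W (A.act Y (n * g)) - c‖).card * t ^ 2 := by
    rw [← Finset.sum_filter, Finset.sum_const, nsmul_eq_mul]
  have h3 : ((A'.filter fun n => α < ‖W (A.act Y (n * g)) - c‖).card : ℝ)
      ≤ (B.filter fun n => α < ‖W (A.act Y (n * g)) - c‖).card := by
    exact_mod_cast Finset.card_le_card (Finset.filter_subset_filter _ hAB)
  have h4 : (B.card : ℝ) ≤ M * A'.card := by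
    have : B.card ≤ M * A'.card := hcard.trans (Nat.mul_le_mul_left _ (Finset.card_le_card hBA))
    exact_mod_cast this
  have h5 : ((A'.filter fun n => α < ‖W (A.act Y (n * g)) - c‖).card : ℝ) * t ^ 2 ≤ A'.card := by
    calc ((A'.filter fun n => α < ‖W (A.act Y (n * g)) - c‖).card : ℝ) * t ^ 2
        ≤ (ε * (M * A'.card)) * t ^ 2 := by
          apply mul_le_mul_of_nonneg_right _ (sq_nonneg t)
          exact (h3.trans hf).trans (mul_le_mul_of_nonneg_left h4 hε0)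
      _ = (M * ε * t ^ 2) * A'.card := by ring
      _ ≤ 1 * A'.card := mul_le_mul_of_nonneg_right hε (Nat.cast_nonneg _)
      _ = A'.card := one_mul _
  calc ∑ n ∈ A', (t ^ (if ‖W (A.act Y (n * g)) - c‖ ≤ α then 0 else 1)) ^ 2
      ≤ ∑ n ∈ A', (1 + (if α < ‖W (A.act Y (n * g)) - c‖ then t ^ 2 else 0)) :=
        Finset.sum_le_sum h1
    _ = A'.card + (A'.filter fun n => α < ‖W (A.act Y (n * g)) - c‖).card * t ^ 2 := by
        rw [Finset.sum_add_distrib, h2]; simp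
    _ ≤ 2 * (A'.card : ℝ) := by linarith

open Classical in
/-- Existence of three good pieces of noise. -/
lemma exists_three (B Bs : Finset S) (hB : B.Nonempty) (J : ℕ) (P : S → S → Prop)
    (hs : ∀ a ∈ Bs, ∀ b ∈ Bs, ∃ (D : Finset S) (σ : S → S), D ⊆ B ∧ B.card ≤ 2 * D.card ∧
      Set.InjOn σ D ∧ (∀ n ∈ D, σ n ∈ B) ∧ ∀ n ∈ D, P (n * (a⁻¹ * b)) (σ n))
    (T1 T3 : (Fin J → S × S) → Prop) (q : ℝ) (hq : 2 * q < (1 / 2) ^ J)
    (hT1 : (((noise B B J).filter T1).card : ℝ) ≤ q * (noise B B J).card)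
    (hT3 : ((noise Bs Bs J).filter T3).card < (noise Bs Bs J).card) :
    ∃ ω ∈ noise B B J, ∃ ω3 ∈ noise Bs Bs J, ∃ ω' ∈ noise B B J,
      ¬ T1 ω ∧ ¬ T3 ω3 ∧ ¬ T1 ω' ∧ (∀ i, (ω' i).1 = (ω i).1) ∧
      ∀ i, P ((ω i).2 * ((ω3 i).1⁻¹ * (ω3 i).2)) (ω' i).2 := by
  obtain ⟨ω3, hω3, hT3'⟩ : ∃ ω3 ∈ noise Bs Bs J, ¬ T3 ω3 := by
    by_contra hcon
    push Not at hcon
    rw [Finset.filter_true_of_mem hcon] at hT3
    exact lt_irrefl _ hT3
  have hω3' := mem_noise.1 hω3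
  choose D σ hDB hD hσ1 hσ2 hσ3 using fun i => hs _ (hω3' i).1 _ (hω3' i).2
  set Ω := noise B B J with hΩ
  set sh : (Fin J → S × S) → (Fin J → S × S) := fun ω i => ((ω i).1, σ i (ω i).2) with hsh
  set T : Finset (Fin J → S × S) := Fintype.piFinset fun i => B ×ˢ D i with hT
  have hmemT : ∀ ω, ω ∈ T ↔ ∀ i, (ω i).1 ∈ B ∧ (ω i).2 ∈ D i := by
    intro ω
    rw [hT, Fintype.mem_piFinset]
    simp only [Finset.mem_product]
  have hTΩ : ∀ ω ∈ T, ω ∈ Ω := by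
    intro ω hω
    rw [hmemT] at hω
    rw [hΩ, mem_noise]
    exact fun i => ⟨(hω i).1, hDB i (hω i).2⟩
  have hshΩ : ∀ ω ∈ T, sh ω ∈ Ω := by
    intro ω hω
    rw [hmemT] at hω
    rw [hΩ, mem_noise]
    exact fun i => ⟨(hω i).1, hσ2 i _ (hω i).2⟩
  have hinj : Set.InjOn sh T := by
    intro ω hω ω' hω' h
    rw [Finset.mem_coe, hmemT] at hω hω'
    funext i
    have hi := congrFun h i
    simp only [hsh, Prod.mk.injEq] at hi
    exact Prod.ext hi.1 (hσ1 i (hω i).2 (hω' i).2 hi.2)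
  have hcount : Ω.card ≤ 2 ^ J * T.card := by
    rw [hΩ, card_noise, hT, Fintype.card_piFinset]
    have h2 : (B.card * B.card) ^ J = ∏ _i : Fin J, (B.card * B.card) := by simp
    have h3 : (2 : ℕ) ^ J = ∏ _i : Fin J, 2 := by simp
    rw [h2, h3, ← Finset.prod_mul_distrib]
    refine Finset.prod_le_prod' fun i _ => ?_
    rw [Finset.card_product]
    calc B.card * B.card ≤ B.card * (2 * (D i).card) := Nat.mul_le_mul_left _ (hD i)
      _ = 2 * (B.card * (D i).card) := by ring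
  by_contra hcon
  push Not at hcon
  have hsub : T ⊆ (Ω.filter T1) ∪ (T.filter fun ω => T1 (sh ω)) := by
    intro ω hω
    have hω1 := hTΩ ω hω
    rw [Finset.mem_union]
    by_cases h : T1 ω
    · exact Or.inl (Finset.mem_filter.2 ⟨hω1, h⟩)
    · refine Or.inr (Finset.mem_filter.2 ⟨hω, ?_⟩)
      by_contra h'
      obtain ⟨i, hi⟩ := hcon ω hω1 ω3 hω3 (sh ω) (hshΩ ω hω) h hT3' h' (fun i => rfl)
      exact hi (hσ3 i _ ((hmemT ω).1 hω i).2)
  have hc2 : (T.filter fun ω => T1 (sh ω)).card ≤ (Ω.filter T1).card := by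
    refine Finset.card_le_card_of_injOn sh ?_
      (hinj.mono (Finset.coe_subset.2 (Finset.filter_subset _ _)))
    intro ω hω
    have h1 := Finset.mem_filter.1 hω
    exact Finset.mem_coe.2 (Finset.mem_filter.2 ⟨hshΩ ω h1.1, h1.2⟩)
  have hc1 : T.card ≤ (Ω.filter T1).card + (Ω.filter T1).card :=
    le_trans (Finset.card_le_card hsub) (le_trans (Finset.card_union_le _ _)
      (Nat.add_le_add_left hc2 _))
  have hpos : 0 < Ω.card := by
    rw [hΩ, card_noise]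
    exact pow_pos (Nat.mul_pos hB.card_pos hB.card_pos) J
  have hposR : (0 : ℝ) < Ω.card := by exact_mod_cast hpos
  have h1 : (Ω.card : ℝ) ≤ 2 ^ J * T.card := by exact_mod_cast hcount
  have h2 : (T.card : ℝ) ≤ 2 * (q * Ω.card) := by
    have : (T.card : ℝ) ≤ (Ω.filter T1).card + (Ω.filter T1).card := by exact_mod_cast hc1
    linarith
  have h3 : (Ω.card : ℝ) ≤ 2 ^ J * (2 * q) * Ω.card := by
    calc (Ω.card : ℝ) ≤ 2 ^ J * T.card := h1
      _ ≤ 2 ^ J * (2 * (q * Ω.card)) := mul_le_mul_of_nonneg_left h2 (by positivity)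
      _ = _ := by ring
  have h4 : (2 : ℝ) ^ J * (2 * q) < 1 := by
    calc (2 : ℝ) ^ J * (2 * q) < 2 ^ J * (1 / 2) ^ J :=
          mul_lt_mul_of_pos_left hq (by positivity)
      _ = 1 := by rw [← mul_pow]; norm_num
  have h5 : (2 : ℝ) ^ J * (2 * q) * Ω.card < 1 * Ω.card := mul_lt_mul_of_pos_right h4 hposR
  linarith

/-- Good displacements. -/
def Gm (μ : (X → ℝ) → ℝ) (l : S → ℕ) (W : X → E) (τ δ : ℝ) (r : ℕ) (x : S) : Prop :=
  l x ≤ r ∧ dev A μ W τ x ≤ δ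

variable {A}

lemma Gm.mono (hμ : InvMean A μ) {l : S → ℕ} {W : X → E} {τ τ' δ δ' : ℝ} {r r' : ℕ} {x : S}
    (h : Gm A μ l W τ δ r x) (hτ : τ ≤ τ') (hδ : δ ≤ δ') (hr : r ≤ r') :
    Gm A μ l W τ' δ' r' x := by
  classical
  refine ⟨h.1.trans hr, le_trans ?_ (h.2.trans hδ)⟩
  unfold dev
  refine hμ.mean.le (bdd_ite _) (bdd_ite _) fun z => ?_
  split_ifs with h1 h2
  · exact le_refl _
  · exact absurd (lt_of_le_of_lt hτ h1) h2
  · exact zero_le_one
  · exact le_refl _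

lemma dev_shift (hμ : InvMean A μ) (W : X → E) (τ : ℝ) (x y : S) :
    letI := Classical.decPred fun z => τ < ‖W (A.act (A.act z x) y) - W (A.act z x)‖
    μ (fun z => if τ < ‖W (A.act (A.act z x) y) - W (A.act z x)‖ then (1 : ℝ) else 0)
      = dev A μ W τ y := by
  classical
  have := hμ.inv x (fun z => if τ < ‖W (A.act z y) - W z‖ then (1 : ℝ) else 0) (bdd_ite _)
  unfold dev
  rw [← this]

lemma Gm.mul (hμ : InvMean A μ) {l : S → ℕ} {W : X → E} {τ1 τ2 δ1 δ2 : ℝ} {r1 r2 : ℕ}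
    {x y : S} (hmul : ∀ x y, l (x * y) ≤ l x + l y)
    (hx : Gm A μ l W τ1 δ1 r1 x) (hy : Gm A μ l W τ2 δ2 r2 y) :
    Gm A μ l W (τ1 + τ2) (δ1 + δ2) (r1 + r2) (x * y) := by
  classical
  refine ⟨(hmul x y).trans (add_le_add hx.1 hy.1), ?_⟩
  have h1 := dev_shift hμ W τ2 x y
  have h2 : dev A μ W (τ1 + τ2) (x * y) ≤ dev A μ W τ1 x + dev A μ W τ2 y := by
    rw [← h1]
    unfold dev
    rw [← hμ.mean.add _ _ (bdd_ite _) (bdd_ite _)]
    refine hμ.mean.le (bdd_ite _) ((bdd_ite _).add (bdd_ite _)) fun z => ?_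
    simp only [Pi.add_apply]
    by_cases e1 : τ1 < ‖W (A.act z x) - W z‖
    · rw [if_pos e1]
      split_ifs <;> norm_num
    · by_cases e2 : τ2 < ‖W (A.act (A.act z x) y) - W (A.act z x)‖
      · rw [if_pos e2]
        split_ifs <;> norm_num
      · have e3 : ‖W (A.act z (x * y)) - W z‖ ≤ τ1 + τ2 := by
          calc ‖W (A.act z (x * y)) - W z‖
              = ‖(W (A.act z x) - W z) + (W (A.act (A.act z x) y) - W (A.act z x))‖ := by
                rw [A.mul]; congr 1; abel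
            _ ≤ ‖W (A.act z x) - W z‖ + ‖W (A.act (A.act z x) y) - W (A.act z x)‖ :=
                norm_add_le _ _
            _ ≤ τ1 + τ2 := add_le_add (not_lt.1 e1) (not_lt.1 e2)
        rw [if_neg (not_lt.2 e3), if_neg e1, if_neg e2]
        norm_num
  linarith [hx.2, hy.2]

lemma Gm.inv (hμ : InvMean A μ) {l : S → ℕ} {W : X → E} {τ δ : ℝ} {r : ℕ} {x : S}
    (hinv : ∀ x, l x⁻¹ = l x) (hx : Gm A μ l W τ δ r x) : Gm A μ l W τ δ r x⁻¹ := by
  classical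
  refine ⟨by rw [hinv]; exact hx.1, le_trans (le_of_eq ?_) hx.2⟩
  have h1 := hμ.inv x⁻¹ (fun z => if τ < ‖W (A.act z x) - W z‖ then (1 : ℝ) else 0) (bdd_ite _)
  unfold dev
  rw [← h1]
  congr 1
  funext z
  rw [A.mul, inv_mul_cancel, A.one, norm_sub_rev]

/-- `out` modulo a normal subgroup. -/
lemma out_congr {H : Type*} [Group H] (π : S →* H) (J : ℕ) (g : Fin J → S)
    (ω' : Fin J → S × S) (a : Fin J → S) (h : ∀ i, π ((ω' i).1⁻¹ * (ω' i).2) = π (a i)) :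
    π (out J g ω') = π (_root_.Agent.P188.H428.pr J a g) := by
  rw [out_eq_pr]
  induction J with
  | zero => rfl
  | succ J ih =>
    have h0 := h 0
    have h1 := ih (Fin.tail g) (Fin.tail ω') (Fin.tail a) (fun i => h i.succ)
    simp only [_root_.Agent.P188.H428.pr, map_mul] at h1 h0 ⊢
    rw [h0]
    congr 1

variable (A)

/-- **Fixed displacements modulo `⁅N, N⁆`.** -/
theorem exists_Gm_mod (hμ : InvMean A μ) (l : S → ℕ) (h1 : l 1 = 0)
    (hmul : ∀ x y, l (x * y) ≤ l x + l y)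
    (hinv : ∀ x, l x⁻¹ = l x) (N : Subgroup S) [N.Normal] (W : X → E) (L : ℝ) (hL : 0 ≤ L)
    (hW : ∀ z h, ‖W (A.act z h) - W z‖ ≤ L * l h) (C1 M R1 : ℕ) (B Bs : Finset S)
    (hbox : BoxesM l N C1 M R1 B Bs) (α ε κ : ℝ) (hα : 0 ≤ α) (hκ : 0 < κ) (hε0 : 0 ≤ ε)
    (hε : M * ε * ((1024 : ℝ) ^ (1 / κ)) ^ 2 ≤ 1) (hflat : FlatM A l W R1 B α ε)
    (J : ℕ) (hJ : 1 ≤ J) (g : Fin J → S) (hg : ∀ i, l (g i) ≤ R1) :
    ∃ d, (xp J g)⁻¹ * d ∈ ⁅N, N⁆ ∧
      Gm A μ l W (3 * ((2 * α + L * ((2 * C1 + 1) * R1 : ℕ) * κ) * J)) (3 * (1 / 16) ^ J)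
        (3 * ((2 * C1 + 1) * R1 * J)) d := by
  classical
  set t : ℝ := (1024 : ℝ) ^ (1 / κ) with ht
  have ht1 : 1 ≤ t := by
    rw [ht]; exact Real.one_le_rpow (by norm_num) (by positivity)
  have htκ : t ^ κ = 1024 := by
    rw [ht, ← Real.rpow_mul (by norm_num), one_div, inv_mul_cancel₀ hκ.ne', Real.rpow_one]
  choose c hc using hflat
  set bd : X → S → ℕ := fun Y h => if ‖W (A.act Y h) - c Y‖ ≤ α then 0 else 1 with hbd
  have hbd0 : ∀ Y h, bd Y h = 0 → ‖W (A.act Y h) - c Y‖ ≤ α := by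
    intro Y h hh
    by_contra hcon
    simp only [hbd, if_neg hcon] at hh
    exact one_ne_zero hh
  have hbd1 : ∀ Y h, bd Y h ≤ 1 := by
    intro Y h
    simp only [hbd]
    split_ifs <;> omega
  set D : ℝ := L * ((2 * C1 + 1) * R1 : ℕ) with hD
  have hD0 : 0 ≤ D := by positivity
  set r : ℕ := (2 * C1 + 1) * R1 * J with hr
  -- bounds valid for both boxes
  have hlen : ∀ A' : Finset S, A' ⊆ B → ∀ i, ∀ n' ∈ A', ∀ n ∈ A',
      l (n'⁻¹ * (n * g i)) ≤ (2 * C1 + 1) * R1 := by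
    intro A' hA i n' hn' n hn
    calc l (n'⁻¹ * (n * g i)) ≤ l n'⁻¹ + (l n + l (g i)) :=
          (hmul _ _).trans (Nat.add_le_add_left (hmul _ _) _)
      _ ≤ C1 * R1 + (C1 * R1 + R1) := by
          rw [hinv]
          exact add_le_add (hbox.len _ (hA hn')) (add_le_add (hbox.len _ (hA hn)) (hg i))
      _ = (2 * C1 + 1) * R1 := by ring
  have main : ∀ A' : Finset S, A' ⊆ B → Bs ⊆ A' →
      ((((noise A' A' J).filter fun ω =>
      (1 / 16) ^ J < dev A μ W ((2 * α + D * κ) * J) (out J g ω)).card : ℕ) : ℝ)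
      ≤ (1 / 32) ^ J * (noise A' A' J).card := by
    intro A' hAB hBA
    refine card_bad_noise A hμ W c bd α D hbd0 hbd1 hα hD0 A' A' J g ?_ t κ ht1 htκ ?_ ?_
    · intro i n' hn' n hn z
      refine (hW z _).trans (mul_le_mul_of_nonneg_left ?_ hL)
      exact_mod_cast hlen A' hAB i n' hn' n hn
    · intro Y
      have h2 := sum_sq_bd_le A W (c Y) Y 1 B A' Bs M α ε t hAB hBA hbox.card hε hε0
        (hc Y 1 (by rw [h1]; exact Nat.zero_le _))
      simpa only [mul_one, hbd] using h2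
    · intro i Y
      exact sum_sq_bd_le A W (c Y) Y (g i) B A' Bs M α ε t hAB hBA hbox.card hε hε0
        (hc Y (g i) (hg i))
  have mB := main B (Finset.Subset.refl _) hbox.sub
  have mBs := main Bs hbox.sub (Finset.Subset.refl _)
  have hBne : B.Nonempty := hbox.ne.mono hbox.sub
  have hq : 2 * ((1 / 32 : ℝ) ^ J) < (1 / 2) ^ J := by
    have e1 : (1 / 32 : ℝ) ^ J = (1 / 2) ^ J * (1 / 16) ^ J := by rw [← mul_pow]; norm_num
    have e2 : (1 / 16 : ℝ) ^ J ≤ 1 / 16 := by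
      calc (1 / 16 : ℝ) ^ J ≤ (1 / 16) ^ 1 :=
            pow_le_pow_of_le_one (by norm_num) (by norm_num) hJ
        _ = 1 / 16 := pow_one _
    have e3 : (0 : ℝ) < (1 / 2) ^ J := by positivity
    rw [e1]
    nlinarith
  have hT3 : ((noise Bs Bs J).filter fun ω =>
      (1 / 16) ^ J < dev A μ W ((2 * α + D * κ) * J) (out J g ω)).card
      < (noise Bs Bs J).card := by
    have hpos : 0 < (noise Bs Bs J).card := by
      rw [card_noise]
      exact pow_pos (Nat.mul_pos hbox.ne.card_pos hbox.ne.card_pos) J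
    have hposR : (0 : ℝ) < (noise Bs Bs J).card := by exact_mod_cast hpos
    have e1 : (1 / 32 : ℝ) ^ J < 1 := by
      have : (1 / 32 : ℝ) ^ J ≤ (1 / 32) ^ 1 :=
        pow_le_pow_of_le_one (by norm_num) (by norm_num) hJ
      rw [pow_one] at this
      linarith
    have e2 : (1 / 32 : ℝ) ^ J * (noise Bs Bs J).card < (noise Bs Bs J).card := by
      nlinarith
    exact_mod_cast lt_of_le_of_lt mBs e2
  obtain ⟨ω, hω, ω3, hω3, ω', hω', g1, g3, g2, he1, he2⟩ := exists_three B Bs hBne J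
    (fun x y => x⁻¹ * y ∈ ⁅N, N⁆) hbox.shift
    (fun ω => (1 / 16) ^ J < dev A μ W ((2 * α + D * κ) * J) (out J g ω))
    (fun ω => (1 / 16) ^ J < dev A μ W ((2 * α + D * κ) * J) (out J g ω))
    ((1 / 32) ^ J) hq mB hT3
  have k1 : Gm A μ l W ((2 * α + D * κ) * J) ((1 / 16) ^ J) r (out J g ω) :=
    ⟨len_out_le l h1 hmul B B J g _ (hlen B (Finset.Subset.refl _)) ω hω, not_lt.1 g1⟩
  have k2 : Gm A μ l W ((2 * α + D * κ) * J) ((1 / 16) ^ J) r (out J g ω') :=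
    ⟨len_out_le l h1 hmul B B J g _ (hlen B (Finset.Subset.refl _)) ω' hω', not_lt.1 g2⟩
  have k3 : Gm A μ l W ((2 * α + D * κ) * J) ((1 / 16) ^ J) r (out J g ω3) :=
    ⟨len_out_le l h1 hmul Bs Bs J g _ (hlen Bs hbox.sub) ω3 hω3, not_lt.1 g3⟩
  have k4 := (k3.mul hμ hmul (k2.inv hμ hinv)).mul hμ hmul k1
  refine ⟨out J g ω3 * (out J g ω')⁻¹ * out J g ω, ?_, k4.mono hμ ?_ ?_ ?_⟩
  · rw [← QuotientGroup.eq]
    have hN : ∀ a ∈ N, ∀ b ∈ N, (QuotientGroup.mk' ⁅N, N⁆) a * (QuotientGroup.mk' ⁅N, N⁆) b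
        = (QuotientGroup.mk' ⁅N, N⁆) b * (QuotientGroup.mk' ⁅N, N⁆) a := by
      intro a ha b hb
      rw [← map_mul, ← map_mul]
      change ((a * b : S) : S ⧸ ⁅N, N⁆) = ((b * a : S) : S ⧸ ⁅N, N⁆)
      rw [QuotientGroup.eq]
      have := Subgroup.commutator_mem_commutator (H₁ := N) (H₂ := N)
        (N.inv_mem hb) (N.inv_mem ha)
      simpa only [commutatorElement_def, inv_inv, mul_inv_rev, mul_assoc] using this
    have hid := pr_identity (QuotientGroup.mk' ⁅N, N⁆) N hN J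
      (fun i => (ω i).1⁻¹ * (ω i).2) (fun i => (ω3 i).1⁻¹ * (ω3 i).2) g
      (fun i => N.mul_mem (N.inv_mem (hbox.mem _ (mem_noise.1 hω i).1))
        (hbox.mem _ (mem_noise.1 hω i).2))
      (fun i => N.mul_mem (N.inv_mem (hbox.mem _ (hbox.sub (mem_noise.1 hω3 i).1)))
        (hbox.mem _ (hbox.sub (mem_noise.1 hω3 i).2)))
    have e1 : (QuotientGroup.mk' ⁅N, N⁆) (out J g ω') = (QuotientGroup.mk' ⁅N, N⁆)
        (_root_.Agent.P188.H428.pr J (fun i => (ω i).1⁻¹ * (ω i).2 * ((ω3 i).1⁻¹ * (ω3 i).2)) g) := by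
      refine out_congr (QuotientGroup.mk' ⁅N, N⁆) J g ω' _ fun i => ?_
      rw [he1 i]
      have h3 : (QuotientGroup.mk' ⁅N, N⁆) ((ω i).2 * ((ω3 i).1⁻¹ * (ω3 i).2))
          = (QuotientGroup.mk' ⁅N, N⁆) (ω' i).2 := QuotientGroup.eq.2 (he2 i)
      rw [map_mul, ← h3, ← map_mul]
      congr 1
      group
    rw [← e1, ← out_eq_pr, ← out_eq_pr] at hid
    change (QuotientGroup.mk' ⁅N, N⁆) (xp J g) =
      (QuotientGroup.mk' ⁅N, N⁆) (out J g ω3 * (out J g ω')⁻¹ * out J g ω)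
    rw [map_mul, map_mul, map_inv, hid]
    group
  · linarith
  · linarith
  · omega

end Vale.Agent.P188.H382
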