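import Vale.Agent.P188.H382.CmpA

/-!
# Route A: from INPUT at one scale and the neutral comparison in `S` to `Cmp`
-/

set_option linter.unusedSectionVars false

universe u v w x y y' y''

namespace Vale.Agent.P188.H382

open Finset Vale.Agent.P188 Agent.P188.H428 Vale.Agent.P188.H789

section

variable {S : Type u} [Group S] {E : Type w} [NormedAddCommGroup E]
variable {G : Type v} [Group G] {H : Type x} [Group H] {Q : Type y} (ρ : Rounding S G Q)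

lemma Rounding.fl_mul_r (g : G) (q : Q) (s : S) :
    g * ρ.fl (ρ.r q * s) = ρ.fl (ρ.j g * ρ.r q * s) := by
  rw [mul_assoc, ρ.fl_j]

/-- Good points of `H × G` in terms of points of `S`. -/
theorem good0_iff (W : H × G → E) (τ θ : ℝ) {κ : Type y'} {J : Type y''} (K : Finset κ)
    (Lam : κ → Finset J) (ψ : κ → J → S) (h : H) (g : G) :
    Good0 ρ W τ θ K Lam ψ (h, g) ↔
      ∃ q, GoodS (selfAct S) (fun s => W (h, ρ.fl s)) τ θ K Lam ψ (ρ.j g * ρ.r q) := by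
  have e : ∀ q s, (fun z : (H × G) × Q => W z.1) ((ind ρ (prodAct H G)).act ((h, g), q) s)
      = (fun s => W (h, ρ.fl s)) ((selfAct S).act (ρ.j g * ρ.r q) s) := by
    intro q s
    show W (h, g * ρ.fl (ρ.r q * s)) = W (h, ρ.fl (ρ.j g * ρ.r q * s))
    rw [ρ.fl_mul_r]
  have e2 : ∀ q, W (h, ρ.fl (ρ.j g * ρ.r q)) = W (h, g) := by
    intro q
    rw [ρ.fl_j, ρ.fl_r, mul_one]
  unfold Good0 GoodS
  simp only [e, e2]

end

section

variable {H : Type u} [Group H] {G : Type v} [Group G] {k : ℕ}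

/-- Replacing `F (h x)` by `F (h F' (F x))`. -/
lemma exists_close_W (η : G →* Multiplicative (Fin k → ℤ)) {F : H → G} {F' : G → H}
    (hF : Coarse F) (hFF : CloseId (F' ∘ F)) :
    ∃ C1 : ℝ, ∀ h x a, |((Multiplicative.toAdd (η (F (h * x))) a : ℤ) : ℝ)
      - ((Multiplicative.toAdd (η (F x)) a : ℤ) : ℝ)
      - (((Multiplicative.toAdd (η (F (h * F' (F x)))) a : ℤ) : ℝ)
        - ((Multiplicative.toAdd (η (F x)) a : ℤ) : ℝ))| ≤ C1 := by
  classical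
  obtain ⟨E, hE, hE'⟩ := hFF
  obtain ⟨U, hU, hU'⟩ := hF E hE
  refine ⟨∑ u ∈ hU.toFinset, ∑ a, |((Multiplicative.toAdd (η u) a : ℤ) : ℝ)|, fun h x a => ?_⟩
  set u := (F (h * x))⁻¹ * F (h * F' (F x)) with hu
  have hmem : u ∈ hU.toFinset := by
    rw [Set.Finite.mem_toFinset]
    apply hU'
    have : (h * x)⁻¹ * (h * F' (F x)) = x⁻¹ * F' (F x) := by group
    rw [this]
    exact hE' x
  have h1 : F (h * F' (F x)) = F (h * x) * u := by rw [hu]; group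
  have h2 : |((Multiplicative.toAdd (η u) a : ℤ) : ℝ)| ≤
      ∑ u ∈ hU.toFinset, ∑ a, |((Multiplicative.toAdd (η u) a : ℤ) : ℝ)| := by
    refine le_trans ?_ (Finset.single_le_sum
      (f := fun u => ∑ a, |((Multiplicative.toAdd (η u) a : ℤ) : ℝ)|)
      (fun _ _ => Finset.sum_nonneg fun _ _ => abs_nonneg _) hmem)
    exact Finset.single_le_sum (f := fun a => |((Multiplicative.toAdd (η u) a : ℤ) : ℝ)|)
      (fun _ _ => abs_nonneg _) (Finset.mem_univ a)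
  refine le_trans (le_of_eq ?_) h2
  rw [h1, map_mul, toAdd_mul, Pi.add_apply, ← abs_neg]
  congr 1
  push_cast
  ring

end

section

variable {S : Type} [Group S] {G : Type} [Group G] {H : Type} [Group H] {Q : Type} {k : ℕ}

/-- The heights of `G` as real vectors. -/
def htG (η : G →* Multiplicative (Fin k → ℤ)) (g : G) (a : Fin k) : ℝ :=
  ((Multiplicative.toAdd (η g) a : ℤ) : ℝ)

/-- The displacement of the map `F_h = F ∘ L_h ∘ F'` at `g`. -/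
def dispF (η : G →* Multiplicative (Fin k → ℤ)) (F : H → G) (F' : G → H) (z : H × G) :
    Fin k → ℝ := fun a => htG η (F (z.1 * F' z.2)) a - htG η z.2 a

/-- **The comparison along good paths** (NC) for one function `w` on `S`, with error `R / 8`. -/
def NCat (l : S → ℕ) (ht : S → Fin k → ℝ) (w : S → Fin k → ℝ) (A j R : ℕ) (ξ θ : ℝ)
    {κ J : Type} (K : Finset κ) (Lam : κ → Finset J) (ψ : κ → J → S) : Prop :=
  ∀ z : ℕ → S, (∀ i < j, l ((z i)⁻¹ * z (i + 1)) ≤ A) →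
    (∀ i ≤ j, GoodS (selfAct S) w (ξ * R) θ K Lam ψ (z i)) →
    (∀ i ≤ j, ∀ a, |ht (z i) a - ht (z 0) a| ≤ R) → ∀ a, |w (z j) a - w (z 0) a| ≤ R / 8

open Classical in
/-- **Z3, route A.**  INPUT at one scale and the neutral comparison give `Cmp`. -/
theorem cmp_A (l : S → ℕ) (hl : IsLen l) (N : Subgroup S) [N.Normal] (c : ℕ)
    (hnil : lcs N c = ⊥) (p Cg : ℕ) (hCg : 1 ≤ Cg) (hgen : Gen l N p Cg) (C1 M : ℕ)
    (hS : HasMean S) (hG : HasMean G) (ρ : Rounding S G Q) (lG : G → ℕ) (C2 : ℕ)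
    (hlG : ∀ q s, lG (ρ.fl (ρ.r q * s)) ≤ C2 * l s) (Cr : ℕ) (hr : ∀ q, l (ρ.r q) ≤ Cr)
    (η : G →* Multiplicative (Fin k → ℤ)) (F : H → G) (F' : G → H) (hF : Coarse F)
    (hFF : CloseId (F' ∘ F)) (hFF' : CloseId (F ∘ F'))
    (L0 : ℝ) (hL0 : 0 ≤ L0)
    (hWL : ∀ z g, ‖dispF η F F' ((prodAct H G).act z g) - dispF η F F' z‖ ≤ L0 * lG g)
    (ξ : ℝ) (hξ : 0 < ξ) (θ : ℝ) (hθ : 0 < θ) (CR : ℕ) (hCR : 1 ≤ CR)
    {κ J : Type} (K : ℕ → Finset κ) (Lam : ℕ → κ → Finset J) (ψ : ℕ → κ → J → S)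
    (hlen : ∀ R, ∀ k ∈ K R, ∀ i ∈ Lam R k, l (ψ R k i) ≤ CR * R)
    (hK : ∀ ε : ℝ, 0 < ε → ∃ C : ℝ, ∀ R : ℕ, ((K R).card : ℝ) ≤ C * Real.exp (ε * R))
    (hNC : ∀ A : ℕ, ∃ c : ℝ, 0 < c ∧ ∃ R1 : ℕ, ∀ R, R1 ≤ R → ∀ j : ℕ,
      (j : ℝ) ≤ Real.exp (c * R) → ∀ h, NCat l (fun s => htG η (ρ.fl s))
        (fun s => dispF η F F' (h, ρ.fl s)) A j R ξ θ (K R) (Lam R) (ψ R))
    (hinput : ∀ η0 ε0 : ℝ, 0 < η0 → 0 < ε0 → ∃ (R1 : ℕ) (I : Type) (φ : I → S)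
      (B Bs : Finset I), 1 ≤ R1 ∧ BoxesI φ l N C1 M R1 B Bs ∧
      ∀ h g, FlatI (selfAct S) φ l (fun s => dispF η F F' (h, g * ρ.fl s)) R1 B (η0 * R1) ε0) :
    ∃ ν : (H → ℝ) → ℝ, IsMean ν ∧ (∀ (g : H) f, Bdd f → ν (fun x => f (x * g)) = ν f) ∧
      ∀ B : Set H, B.Finite → Cmp ν (hts η F) B := by
  obtain ⟨μ, hμ, hinv⟩ := hG
  obtain ⟨ν, C, hν, hνinv, hC, htr⟩ := exists_transport F F' hF hFF hFF' hμ hinv
  refine ⟨ν, hν, hνinv, fun B hBf => ?_⟩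
  -- the steps in `G`
  obtain ⟨BG, hBGf, hBG⟩ := hF B hBf
  set nj : G → ℕ := fun g => l (ρ.j g) with hnj
  set A : ℕ := 2 * Cr + ∑ g ∈ hBGf.toFinset, nj g with hA
  obtain ⟨cN, hcN, R1N, hN⟩ := hNC A
  obtain ⟨Cw, hCw⟩ := exists_close_W η hF hFF
  obtain ⟨η0, ε0, hη0, hε0, HH⟩ := gd_dense (E := Fin k → ℝ) ρ l hl N c hnil p
    Cg hCg hgen C1 M L0 hL0 C2 ξ hξ θ hθ CR hCR hS lG hlG hν hμ hinv hC htr
  obtain ⟨R1, I, φ, B0, Bs, hR1, hbox, hflat⟩ := hinput η0 ε0 hη0 hε0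
  obtain ⟨R0, cc, hcc, HHH⟩ := HH R1 I φ B0 Bs hR1 hbox
  obtain ⟨CK, hCK⟩ := hK (cc / 2) (by positivity)
  -- large R : |K R| ≤ exp (cc R)
  obtain ⟨R2, hR2⟩ := exists_nat_ge (|CK| * 2 / cc)
  have hKR : ∀ R : ℕ, R2 ≤ R → ((K R).card : ℝ) ≤ Real.exp (cc * R) := by
    intro R hR
    refine (hCK R).trans ?_
    have h1 : |CK| * 2 / cc ≤ R := hR2.trans (by exact_mod_cast hR)
    rw [div_le_iff₀ hcc] at h1
    have h2 := Real.add_one_le_exp (cc / 2 * R)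
    have h3 : CK ≤ Real.exp (cc / 2 * R) := by
      have := le_abs_self CK
      linarith
    calc CK * Real.exp (cc / 2 * R) ≤ Real.exp (cc / 2 * R) * Real.exp (cc / 2 * R) :=
          mul_le_mul_of_nonneg_right h3 (Real.exp_pos _).le
      _ = Real.exp (cc * R) := by rw [← Real.exp_add]; congr 1; ring
  have hdense := fun (R : ℕ) (hR : R0 + R2 ≤ R) =>
    HHH (dispF η F F') hWL (fun z => hflat z.1 z.2) R (by omega) κ J (K R) (Lam R) (ψ R) (hlen R)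
      (hKR R (by omega))
  refine cmp_of_gd hν hνinv F (htG η) B BG hBG (dispF η F F') Cw (fun h x a => hCw h x a)
    (fun R => Good0 ρ (dispF η F F') (ξ * R) θ (K R) (Lam R) (ψ R)) C cc hcc (R0 + R2) hdense
    cN hcN R1N ?_
  intro R hR j hjR h z hz hgood hconf a
  -- lift to `S`
  have hq : ∀ i, ∃ q, i ≤ j → GoodS (selfAct S) (fun s => dispF η F F' (h, ρ.fl s)) (ξ * R) θ
      (K R) (Lam R) (ψ R) (ρ.j (z i) * ρ.r q) := by
    intro i
    by_cases hi : i ≤ j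
    · obtain ⟨q, hq⟩ := (good0_iff ρ (dispF η F F') (ξ * R) θ (K R) (Lam R) (ψ R) h (z i)).1
        (hgood i hi)
      exact ⟨q, fun _ => hq⟩
    · exact ⟨ρ.π 1, fun h => absurd h hi⟩
  choose q hq using hq
  have hfl : ∀ i, ρ.fl (ρ.j (z i) * ρ.r (q i)) = z i := fun i => by
    rw [ρ.fl_j, ρ.fl_r, mul_one]
  have := hN R hR j hjR h (fun i => ρ.j (z i) * ρ.r (q i)) (fun i hi => ?_) (fun i hi => hq i hi)
    (fun i hi a => by
      simp only [hfl]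
      exact hconf i hi a) a
  · simpa only [hfl] using this
  · have e : (ρ.j (z i) * ρ.r (q i))⁻¹ * (ρ.j (z (i + 1)) * ρ.r (q (i + 1)))
        = (ρ.r (q i))⁻¹ * (ρ.j ((z i)⁻¹ * z (i + 1)) * ρ.r (q (i + 1))) := by
      rw [map_mul, map_inv]; group
    rw [e]
    refine (hl.mul _ _).trans ?_
    rw [hl.inv]
    have h1 := hr (q i)
    have h2 := hr (q (i + 1))
    have h3 := hl.mul (ρ.j ((z i)⁻¹ * z (i + 1))) (ρ.r (q (i + 1)))
    have h4 : l (ρ.j ((z i)⁻¹ * z (i + 1))) = nj ((z i)⁻¹ * z (i + 1)) := rfl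
    have h5 : nj ((z i)⁻¹ * z (i + 1)) ≤ ∑ g ∈ hBGf.toFinset, nj g :=
      Finset.single_le_sum (f := nj) (fun _ _ => Nat.zero_le _)
        (by rw [Set.Finite.mem_toFinset]; exact hz i hi)
    omega

end

end Vale.Agent.P188.H382
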