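import Vale.Agent.P188.H382.RouteA

/-!
# Route A with exponentially small proportions

In `cmp_A` the proportion `θ` of bad elements of the shapes is fixed. Here it is `exp (-(c' R))` with
`c' > 0` given by the concentration.
-/

set_option linter.unusedSectionVars false

universe u v w x y y' y''

namespace Vale.Agent.P188.H382

open Finset Vale.Agent.P188 Agent.P188.H428 Vale.Agent.P188.H789

section

variable {S : Type u} [Group S] {E : Type w} [NormedAddCommGroup E]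

open Classical in
/-- **Good points are exponentially dense** (concentration, and a union bound), exponentially small
proportions. -/
theorem good_dense2 (l : S → ℕ) (hl : IsLen l) (N : Subgroup S) [N.Normal] (c : ℕ)
    (hnil : lcs N c = ⊥) (p Cg : ℕ) (hCg : 1 ≤ Cg) (hgen : Gen l N p Cg) (C1 M : ℕ)
    (L : ℝ) (hL : 0 ≤ L) (η : ℝ) (hη : 0 < η) (CR : ℕ) (hCR : 1 ≤ CR) :
    ∃ η0 ε0 : ℝ, 0 < η0 ∧ 0 < ε0 ∧ ∀ (R1 : ℕ) (I : Type y) (φ : I → S) (B Bs : Finset I),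
      1 ≤ R1 → BoxesI φ l N C1 M R1 B Bs → ∃ (R0 : ℕ) (cc : ℝ), 0 < cc ∧
      ∀ (X : Type v) (A : RAct S X) (μ : (X → ℝ) → ℝ) (W : X → E), InvMean A μ →
      (∀ z h, ‖W (A.act z h) - W z‖ ≤ L * l h) → FlatI A φ l W R1 B (η0 * R1) ε0 →
      ∀ R : ℕ, R0 ≤ R → ∀ (κ : Type y') (J : Type y'') (K : Finset κ) (Lam : κ → Finset J)
        (ψ : κ → J → S), (∀ k ∈ K, ∀ i ∈ Lam k, l (ψ k i) ≤ CR * R) →
        (K.card : ℝ) ≤ Real.exp (cc * R) →
        μ (fun z => if GoodS A W (η * R) (Real.exp (-(cc * R))) K Lam ψ z then 0 else 1) ≤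
          Real.exp (-(cc * R)) := by
  have hCR' : (1 : ℝ) ≤ CR := by exact_mod_cast hCR
  obtain ⟨η0, ε0, hη0, hε0, H⟩ := concI.{u, v, w, y} (E := E) l hl N c hnil p Cg hCg hgen C1 M
    L hL (η / CR) (by positivity)
  refine ⟨η0, ε0, hη0, hε0, fun R1 I φ B Bs hR1 hbox => ?_⟩
  obtain ⟨R0, cc, hcc, HH⟩ := H R1 I φ B Bs hR1 hbox
  refine ⟨R0, cc / 3, by positivity, ?_⟩
  intro X A μ W hμ hW hflat R hR κ J K Lam ψ hlen hK
  have hRR : R0 ≤ CR * R := by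
    nlinarith
  have hdev : ∀ k ∈ K, ∀ i ∈ Lam k, dev A μ W (η * R) (ψ k i) ≤ Real.exp (-(cc * R)) := by
    intro k hk i hi
    have h1 := HH X A μ W hμ hW hflat (CR * R) hRR (ψ k i) (hlen k hk i hi)
    have e1 : η / CR * ((CR * R : ℕ) : ℝ) = η * R := by
      push_cast
      field_simp
    rw [e1] at h1
    refine h1.trans (Real.exp_le_exp.2 ?_)
    push_cast
    have : (R : ℝ) ≤ CR * R := by nlinarith [(Nat.cast_nonneg R : (0 : ℝ) ≤ R)]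
    have := mul_le_mul_of_nonneg_left this hcc.le
    linarith
  refine (mean_not_good_le A hμ W (η * R) (Real.exp (-(cc / 3 * R))) (Real.exp (-(cc * R)))
    (Real.exp_pos _) K Lam ψ hdev (Real.exp_pos _).le).trans ?_
  calc (K.card : ℝ) * (Real.exp (-(cc * R)) / Real.exp (-(cc / 3 * R)))
      = K.card * Real.exp (cc / 3 * R) * Real.exp (-(cc * R)) := by
        rw [Real.exp_neg (cc / 3 * R), div_inv_eq_mul]; ring
    _ ≤ Real.exp (cc / 3 * R) * Real.exp (cc / 3 * R) * Real.exp (-(cc * R)) := by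
        refine mul_le_mul_of_nonneg_right ?_ (Real.exp_pos _).le
        exact mul_le_mul_of_nonneg_right hK (Real.exp_pos _).le
    _ = Real.exp (-(cc / 3 * R)) := by
        rw [← Real.exp_add, ← Real.exp_add]
        congr 1
        ring

end

section

variable {S : Type u} [Group S] {E : Type w} [NormedAddCommGroup E]
variable {G : Type v} [Group G] {H : Type x} [Group H] {Q : Type y} (ρ : Rounding S G Q)

open Classical in
/-- **Good elements of `H` are exponentially dense.** -/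
theorem gd_dense2 (l : S → ℕ) (hl : IsLen l) (N : Subgroup S) [N.Normal] (c : ℕ)
    (hnil : lcs N c = ⊥) (p Cg : ℕ) (hCg : 1 ≤ Cg) (hgen : Gen l N p Cg) (C1 M : ℕ)
    (L0 : ℝ) (hL0 : 0 ≤ L0) (C2 : ℕ) (η : ℝ) (hη : 0 < η) (CR : ℕ)
    (hCR : 1 ≤ CR) (hS : HasMean S) (lG : G → ℕ) (hlG : ∀ q s, lG (ρ.fl (ρ.r q * s)) ≤ C2 * l s)
    {F : H → G} {ν : (H → ℝ) → ℝ} (hν : IsMean ν) {μ : (G → ℝ) → ℝ}
    (hμ : IsMean μ) (hinv : ∀ (g : G) f, Bdd f → μ (fun x => f (x * g)) = μ f)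
    {C : ℝ} (hC : 0 < C)
    (htr : ∀ u : G → ℝ, Bdd u → (∀ y, 0 ≤ u y) → ν (fun x => u (F x)) ≤ C * μ u) :
    ∃ η0 ε0 : ℝ, 0 < η0 ∧ 0 < ε0 ∧ ∀ (R1 : ℕ) (I : Type*) (φ : I → S) (B Bs : Finset I),
      1 ≤ R1 → BoxesI φ l N C1 M R1 B Bs → ∃ (R0 : ℕ) (cc : ℝ), 0 < cc ∧
      ∀ W : H × G → E, (∀ z g, ‖W ((prodAct H G).act z g) - W z‖ ≤ L0 * lG g) →
      (∀ z, FlatI (selfAct S) φ l (fun s => W ((prodAct H G).act z (ρ.fl s))) R1 B
        (η0 * R1) ε0) →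
      ∀ R : ℕ, R0 ≤ R → ∀ (κ : Type y') (J : Type y'') (K : Finset κ) (Lam : κ → Finset J)
        (ψ : κ → J → S), (∀ k ∈ K, ∀ i ∈ Lam k, l (ψ k i) ≤ CR * R) →
        (K.card : ℝ) ≤ Real.exp (cc * R) →
        ν (fun x => if x ∈ Gd ν F (Good0 ρ W (η * R) (Real.exp (-(2 * cc * R))) K Lam ψ)
          (Real.exp (-(cc * R)))
          then 0 else 1) ≤ C * Real.exp (-(cc * R)) := by
  obtain ⟨m, hm, hminv⟩ := hS
  obtain ⟨η0, ε0, hη0, hε0, HH⟩ := good_dense2 (E := E) l hl N c hnil p Cg hCg hgen C1 M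
    (L0 * C2) (by positivity) η hη CR hCR
  refine ⟨η0, ε0, hη0, hε0, fun R1 I φ B Bs hR1 hbox => ?_⟩
  obtain ⟨R0, cc, hcc, HHH⟩ := HH R1 I φ B Bs hR1 hbox
  refine ⟨R0, cc / 2, by positivity, fun W hWL hflat R hR κ J K Lam ψ hlen hK => ?_⟩
  have hi := invMean_ind ρ (prodAct H G) (invMean_prod hν hμ hinv) hm hminv
  refine mean_not_Gd hν hμ hC htr _ (Real.exp_pos _) ?_
  have e2 : 2 * (cc / 2) = cc := by ring
  rw [e2]
  refine (prodMean_not_Good0_le ρ hν hμ hinv hm hminv W (η * R) (Real.exp (-(cc * R)))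
    K Lam ψ).trans ?_
  refine (HHH _ (ind ρ (prodAct H G)) _ (fun z => W z.1) hi
    (fun z s => lip_ind ρ (prodAct H G) W L0 hL0 lG l C2 hWL hlG z s)
    (flat_ind ρ φ (prodAct H G) W l R1 B _ _ hflat) R hR κ J K Lam ψ hlen ?_).trans ?_
  · refine hK.trans (Real.exp_le_exp.2 ?_)
    have : (0 : ℝ) ≤ R := Nat.cast_nonneg _
    nlinarith
  · rw [← Real.exp_nsmul]
    refine le_of_eq ?_
    congr 1
    simp
    ring


end

section

variable {S : Type} [Group S] {G : Type} [Group G] {H : Type} [Group H] {Q : Type} {k : ℕ}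

open Classical in
/-- **Z3, route A, exponentially small proportions.**  INPUT at one scale and the neutral
comparison give `Cmp`. The lengths of the shapes are at most `CR * R` with `CR` independent of the
rate `c'`. -/
theorem cmp_A2 (l : S → ℕ) (hl : IsLen l) (N : Subgroup S) [N.Normal] (c : ℕ)
    (hnil : lcs N c = ⊥) (p Cg : ℕ) (hCg : 1 ≤ Cg) (hgen : Gen l N p Cg) (C1 M : ℕ)
    (hS : HasMean S) (hG : HasMean G) (ρ : Rounding S G Q) (lG : G → ℕ) (C2 : ℕ)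
    (hlG : ∀ q s, lG (ρ.fl (ρ.r q * s)) ≤ C2 * l s) (Cr : ℕ) (hr : ∀ q, l (ρ.r q) ≤ Cr)
    (η : G →* Multiplicative (Fin k → ℤ)) (F : H → G) (F' : G → H) (hF : Coarse F)
    (hFF : CloseId (F' ∘ F)) (hFF' : CloseId (F ∘ F'))
    (L0 : ℝ) (hL0 : 0 ≤ L0)
    (hWL : ∀ z g, ‖dispF η F F' ((prodAct H G).act z g) - dispF η F F' z‖ ≤ L0 * lG g)
    (ξ : ℝ) (hξ : 0 < ξ) (CR : ℕ) (hCR : 1 ≤ CR)
    (hNC : ∀ c' : ℝ, 0 < c' → ∃ (κ J : Type) (K : ℕ → Finset κ) (Lam : ℕ → κ → Finset J)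
      (ψ : ℕ → κ → J → S), (∀ R, ∀ k ∈ K R, ∀ i ∈ Lam R k, l (ψ R k i) ≤ CR * R) ∧
      (∀ ε : ℝ, 0 < ε → ∃ C : ℝ, ∀ R : ℕ, ((K R).card : ℝ) ≤ C * Real.exp (ε * R)) ∧
      ∀ A : ℕ, ∃ c : ℝ, 0 < c ∧ ∃ R1 : ℕ, ∀ R, R1 ≤ R → ∀ j : ℕ,
      (j : ℝ) ≤ Real.exp (c * R) → ∀ h, NCat l (fun s => htG η (ρ.fl s))
        (fun s => dispF η F F' (h, ρ.fl s)) A j R ξ (Real.exp (-(c' * R))) (K R) (Lam R) (ψ R))
    (hinput : ∀ η0 ε0 : ℝ, 0 < η0 → 0 < ε0 → ∃ (R1 : ℕ) (I : Type) (φ : I → S)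
      (B Bs : Finset I), 1 ≤ R1 ∧ BoxesI φ l N C1 M R1 B Bs ∧
      ∀ h g, FlatI (selfAct S) φ l (fun s => dispF η F F' (h, g * ρ.fl s)) R1 B (η0 * R1) ε0) :
    ∃ ν : (H → ℝ) → ℝ, IsMean ν ∧ (∀ (g : H) f, Bdd f → ν (fun x => f (x * g)) = ν f) ∧
      ∀ B : Set H, B.Finite → Cmp ν (hts η F) B := by
  obtain ⟨μ, hμ, hinv⟩ := hG
  obtain ⟨ν, C, hν, hνinv, hC, htr⟩ := exists_transport F F' hF hFF hFF' hμ hinv
  refine ⟨ν, hν, hνinv, fun B hBf => ?_⟩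
  -- the steps in `G`
  obtain ⟨BG, hBGf, hBG⟩ := hF B hBf
  set nj : G → ℕ := fun g => l (ρ.j g) with hnj
  set A : ℕ := 2 * Cr + ∑ g ∈ hBGf.toFinset, nj g with hA
  obtain ⟨Cw, hCw⟩ := exists_close_W η hF hFF
  obtain ⟨η0, ε0, hη0, hε0, HH⟩ := gd_dense2 (E := Fin k → ℝ) ρ l hl N c hnil p
    Cg hCg hgen C1 M L0 hL0 C2 ξ hξ CR hCR hS lG hlG hν hμ hinv hC htr
  obtain ⟨R1, I, φ, B0, Bs, hR1, hbox, hflat⟩ := hinput η0 ε0 hη0 hε0
  obtain ⟨R0, cc, hcc, HHH⟩ := HH R1 I φ B0 Bs hR1 hbox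
  obtain ⟨κ, J, K, Lam, ψ, hlen, hK, hNC'⟩ := hNC (2 * cc) (by positivity)
  obtain ⟨cN, hcN, R1N, hN⟩ := hNC' A
  obtain ⟨CK, hCK⟩ := hK (cc / 2) (by positivity)
  -- large R : |K R| ≤ exp (cc R)
  obtain ⟨R2, hR2⟩ := exists_nat_ge (|CK| * 2 / cc)
  have hKR : ∀ R : ℕ, R2 ≤ R → ((K R).card : ℝ) ≤ Real.exp (cc * R) := by
    intro R hR
    refine (hCK R).trans ?_
    have h1 : |CK| * 2 / cc ≤ R := hR2.trans (by exact_mod_cast hR)
    rw [div_le_iff₀ hcc] at h1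
    have h2 := Real.add_one_le_exp (cc / 2 * R)
    have h3 : CK ≤ Real.exp (cc / 2 * R) := by
      have := le_abs_self CK
      linarith
    calc CK * Real.exp (cc / 2 * R) ≤ Real.exp (cc / 2 * R) * Real.exp (cc / 2 * R) :=
          mul_le_mul_of_nonneg_right h3 (Real.exp_pos _).le
      _ = Real.exp (cc * R) := by rw [← Real.exp_add]; congr 1; ring
  have hdense := fun (R : ℕ) (hR : R0 + R2 ≤ R) =>
    HHH (dispF η F F') hWL (fun z => hflat z.1 z.2) R (by omega) κ J (K R) (Lam R) (ψ R) (hlen R)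
      (hKR R (by omega))
  refine cmp_of_gd hν hνinv F (htG η) B BG hBG (dispF η F F') Cw (fun h x a => hCw h x a)
    (fun R => Good0 ρ (dispF η F F') (ξ * R) (Real.exp (-(2 * cc * R))) (K R) (Lam R) (ψ R)) C cc hcc (R0 + R2) hdense
    cN hcN R1N ?_
  intro R hR j hjR h z hz hgood hconf a
  -- lift to `S`
  have hq : ∀ i, ∃ q, i ≤ j → GoodS (selfAct S) (fun s => dispF η F F' (h, ρ.fl s)) (ξ * R)
      (Real.exp (-(2 * cc * R))) (K R) (Lam R) (ψ R) (ρ.j (z i) * ρ.r q) := by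
    intro i
    by_cases hi : i ≤ j
    · obtain ⟨q, hq⟩ := (good0_iff ρ (dispF η F F') (ξ * R) (Real.exp (-(2 * cc * R))) (K R)
        (Lam R) (ψ R) h (z i)).1
        (hgood i hi)
      exact ⟨q, fun _ => hq⟩
    · exact ⟨ρ.π 1, fun h => absurd h hi⟩
  choose q hq using hq
  have hfl : ∀ i, ρ.fl (ρ.j (z i) * ρ.r (q i)) = z i := fun i => by
    rw [ρ.fl_j, ρ.fl_r, mul_one]
  have := hN R hR j hjR h (fun i => ρ.j (z i) * ρ.r (q i)) (fun i hi => ?_) (fun i hi => hq i hi)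
    (fun i hi a => by
      simp only [hfl]
      exact hconf i hi a) a
  · simpa only [hfl] using this
  · have e : (ρ.j (z i) * ρ.r (q i))⁻¹ * (ρ.j (z (i + 1)) * ρ.r (q (i + 1)))
        = (ρ.r (q i))⁻¹ * (ρ.j ((z i)⁻¹ * z (i + 1)) * ρ.r (q (i + 1))) := by
      rw [map_mul, map_inv]; group
    rw [e]
    refine (hl.mul _ _).trans ?_
    rw [hl.inv]
    have h1 := hr (q i)
    have h2 := hr (q (i + 1))
    have h3 := hl.mul (ρ.j ((z i)⁻¹ * z (i + 1))) (ρ.r (q (i + 1)))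
    have h4 : l (ρ.j ((z i)⁻¹ * z (i + 1))) = nj ((z i)⁻¹ * z (i + 1)) := rfl
    have h5 : nj ((z i)⁻¹ * z (i + 1)) ≤ ∑ g ∈ hBGf.toFinset, nj g :=
      Finset.single_le_sum (f := nj) (fun _ _ => Nat.zero_le _)
        (by rw [Set.Finite.mem_toFinset]; exact hz i hi)
    omega


end

end Vale.Agent.P188.H382
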