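import Vale.Agent.P188.H382.Good
import Vale.Agent.P188.H789.Abs

/-!
# Transport of means to `H`, exponentially dense good elements

`F : H → G` a coarse equivalence.  A right invariant mean on `G` gives a right invariant mean `ν`
on `H` with `ν (F⁻¹ B) ≤ C μ (B)`; the good points of the `G`-set `H × G` give good elements of
`H`.
-/

set_option linter.unusedSectionVars false

universe u v w

namespace Vale.Agent.P188.H382

open Finset Vale.Agent.P188 Vale.Agent.P188.H789

lemma bdd_ite' {X : Type u} (p : X → Prop) [DecidablePred p] :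
    Bdd (fun z => if p z then (0 : ℝ) else 1) :=
  ⟨1, fun z => by dsimp only; split_ifs <;> simp⟩

lemma ite01_nonneg (p : Prop) [Decidable p] : 0 ≤ (if p then (0 : ℝ) else 1) := by
  split_ifs <;> simp

/-- Transport of a right invariant mean, with control of the preimages. -/
theorem exists_transport {H : Type u} {G : Type v} [Group H] [Group G] (F : H → G) (F' : G → H)
    (hF : Coarse F) (hFF : CloseId (F' ∘ F)) (hFF' : CloseId (F ∘ F'))
    {μ : (G → ℝ) → ℝ} (hμ : IsMean μ)
    (hinv : ∀ (g : G) f, Bdd f → μ (fun x => f (x * g)) = μ f) :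
    ∃ (ν : (H → ℝ) → ℝ) (C : ℝ), IsMean ν ∧
      (∀ (g : H) f, Bdd f → ν (fun x => f (x * g)) = ν f) ∧ 0 < C ∧
      ∀ u : G → ℝ, Bdd u → (∀ y, 0 ≤ u y) → ν (fun x => u (F x)) ≤ C * μ u := by
  classical
  obtain ⟨E, hE, hE'⟩ := hFF
  obtain ⟨E₂, hE₂, hE₂'⟩ := hFF'
  -- finite fibres
  have hsub : ∀ y : G, {x : H | F x = y} ⊆ (fun e => F' y * e⁻¹) '' E := by
    intro y x hx
    refine ⟨x⁻¹ * F' (F x), hE' x, ?_⟩
    have : F x = y := hx
    simp only [this]
    group
  have hfin : ∀ y : G, {x : H | F x = y}.Finite := fun y => (hE.image _).subset (hsub y)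
  let fib : G → Finset H := fun y => (hfin y).toFinset
  have hfib : ∀ y x, x ∈ fib y ↔ F x = y := by
    intro y x
    simp [fib]
  have hcard : ∀ y, (fib y).card ≤ hE.toFinset.card := by
    intro y
    have : fib y ⊆ hE.toFinset.image (fun e => F' y * e⁻¹) := by
      intro x hx
      rw [hfib] at hx
      obtain ⟨e, he, rfl⟩ := hsub y hx
      exact Finset.mem_image.mpr ⟨e, by simpa using he, rfl⟩
    exact (Finset.card_le_card this).trans Finset.card_image_le
  let ps : (H → ℝ) → G → ℝ := fun f y => ∑ x ∈ fib y, f x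
  have hps : ∀ f, Bdd f → Bdd (ps f) := by
    rintro f ⟨M, hM⟩
    refine ⟨hE.toFinset.card * M, fun y => ?_⟩
    have hM0 : 0 ≤ M := (abs_nonneg _).trans (hM 1)
    calc |ps f y| ≤ ∑ x ∈ fib y, |f x| := Finset.abs_sum_le_sum_abs _ _
      _ ≤ ∑ _x ∈ fib y, M := Finset.sum_le_sum (fun x _ => hM x)
      _ = (fib y).card * M := by simp
      _ ≤ hE.toFinset.card * M := by
          apply mul_le_mul_of_nonneg_right _ hM0
          exact_mod_cast hcard y
  have hps_add : ∀ f g, ps (f + g) = ps f + ps g := by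
    intro f g
    funext y
    simp [ps, Finset.sum_add_distrib]
  have hps_smul : ∀ (a : ℝ) f, ps (fun x => a * f x) = fun y => a * ps f y := by
    intro a f
    funext y
    simp [ps, Finset.mul_sum]
  -- positivity of the total mass
  have hpos : 0 < μ (ps (fun _ => 1)) := by
    have h1 : ∀ y : G, 1 ≤ ∑ e ∈ hE₂.toFinset, ps (fun _ => 1) (y * e) := by
      intro y
      have he : y⁻¹ * F (F' y) ∈ hE₂.toFinset := by simpa using hE₂' y
      have h2 : (1 : ℝ) ≤ ps (fun _ => 1) (y * (y⁻¹ * F (F' y))) := by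
        have : F' y ∈ fib (y * (y⁻¹ * F (F' y))) := by rw [hfib]; group
        have hc : 1 ≤ (fib (y * (y⁻¹ * F (F' y)))).card := Finset.card_pos.mpr ⟨_, this⟩
        simp only [ps, Finset.sum_const, nsmul_eq_mul, mul_one]
        exact_mod_cast hc
      refine h2.trans ?_
      apply Finset.single_le_sum (f := fun e => ps (fun _ => 1) (y * e)) _ he
      intro e _
      exact Finset.sum_nonneg (fun _ _ => zero_le_one)
    have hb1 : Bdd (ps (fun _ => 1)) := hps _ (Bdd.const 1)
    obtain ⟨hb2, hs⟩ := hμ.sum hE₂.toFinset (fun e y => ps (fun _ => 1) (y * e))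
      (fun e _ => hb1.comp _)
    have h3 := hμ.le (Bdd.const 1) hb2 h1
    rw [hμ.one, hs] at h3
    have h4 : ∑ e ∈ hE₂.toFinset, μ (fun y => ps (fun _ => 1) (y * e)) =
        hE₂.toFinset.card * μ (ps (fun _ => 1)) := by
      rw [Finset.sum_congr rfl (fun e _ => hinv e _ hb1)]
      simp
    rw [h4] at h3
    by_contra hneg
    have : (hE₂.toFinset.card : ℝ) * μ (ps (fun _ => 1)) ≤ 0 :=
      mul_nonpos_of_nonneg_of_nonpos (Nat.cast_nonneg _) (not_lt.mp hneg)
    linarith
  set c := μ (ps (fun _ => 1)) with hcdef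
  refine ⟨fun f => μ (ps f) / c, (hE.toFinset.card + 1) / c, ⟨?_, ?_, ?_, ?_⟩, ?_, by positivity,
    ?_⟩
  · intro f g hf hg
    simp only [hps_add]
    rw [hμ.add _ _ (hps f hf) (hps g hg), add_div]
  · intro a f hf
    simp only [hps_smul]
    rw [hμ.smul _ _ (hps f hf), mul_div_assoc]
  · intro f hf h
    apply div_nonneg _ hpos.le
    exact hμ.nonneg _ (hps f hf) (fun y => Finset.sum_nonneg (fun x _ => h x))
  · exact div_self hpos.ne'
  · intro g f hf
    simp only
    congr 1
    obtain ⟨U, hU, hU'⟩ := hF {g⁻¹} (Set.finite_singleton _)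
    have hu : ∀ x : H, (F (x * g))⁻¹ * F x ∈ hU.toFinset := by
      intro x
      have := hU' (x * g) x (by simp)
      simpa using this
    let fu : G → H → ℝ := fun u x => if (F x)⁻¹ * F (x * g⁻¹) = u then f x else 0
    have hfu : ∀ u, Bdd (fu u) := by
      obtain ⟨M, hM⟩ := hf
      have hM0 : 0 ≤ M := (abs_nonneg _).trans (hM 1)
      intro u
      refine ⟨M, fun x => ?_⟩
      simp only [fu]
      split_ifs
      · exact hM x
      · simpa using hM0
    have e1 : ps (fun x => f (x * g)) = fun y => ∑ u ∈ hU.toFinset, ps (fu u) (y * u⁻¹) := by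
      funext y
      have s1 : ps (fun x => f (x * g)) y = ∑ u ∈ hU.toFinset,
          ∑ x ∈ fib y with (F (x * g))⁻¹ * F x = u, f (x * g) := by
        rw [Finset.sum_fiberwise_of_maps_to (fun x _ => hu x)]
      rw [s1]
      apply Finset.sum_congr rfl
      intro u _
      simp only [ps, fu]
      rw [← Finset.sum_filter]
      apply Finset.sum_nbij' (fun x => x * g) (fun x => x * g⁻¹)
      · intro x hx
        rw [Finset.mem_filter, hfib] at hx ⊢
        obtain ⟨h1, h2⟩ := hx
        constructor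
        · rw [← h1, ← h2]; group
        · rw [mul_inv_cancel_right]; exact h2
      · intro x hx
        rw [Finset.mem_filter, hfib] at hx ⊢
        obtain ⟨h1, h2⟩ := hx
        constructor
        · calc F (x * g⁻¹) = F x * ((F x)⁻¹ * F (x * g⁻¹)) := by group
            _ = y := by rw [h2, h1]; group
        · rw [inv_mul_cancel_right]; exact h2
      · intro x _; simp
      · intro x _; simp
      · intro x _; rfl
    have e2 : ps f = fun y => ∑ u ∈ hU.toFinset, ps (fu u) y := by
      funext y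
      simp only [ps]
      rw [Finset.sum_comm]
      apply Finset.sum_congr rfl
      intro x _
      simp only [fu]
      rw [Finset.sum_ite_eq, if_pos]
      have := hu (x * g⁻¹)
      rwa [inv_mul_cancel_right] at this
    obtain ⟨_, s1⟩ := hμ.sum hU.toFinset (fun u y => ps (fu u) (y * u⁻¹))
      (fun u _ => (hps _ (hfu u)).comp _)
    obtain ⟨_, s2⟩ := hμ.sum hU.toFinset (fun u y => ps (fu u) y)
      (fun u _ => hps _ (hfu u))
    rw [e1, s1]
    conv_rhs => rw [e2]
    rw [s2]
    apply Finset.sum_congr rfl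
    intro u _
    exact hinv u⁻¹ _ (hps _ (hfu u))
  · intro w hw hw0
    have h1 : ps (fun x => w (F x)) = fun y => (fib y).card * w y := by
      funext y
      have : ∀ x ∈ fib y, w (F x) = w y := fun x hx => by rw [(hfib y x).1 hx]
      show ∑ x ∈ fib y, w (F x) = _
      rw [Finset.sum_congr rfl this, Finset.sum_const, nsmul_eq_mul]
    have h2 : μ (ps (fun x => w (F x))) ≤ (hE.toFinset.card + 1) * μ w := by
      rw [← hμ.smul _ _ hw]
      refine hμ.le (hps _ (hw.comp F)) (hw.const_mul _) fun y => ?_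
      rw [h1]
      refine mul_le_mul_of_nonneg_right ?_ (hw0 y)
      have : ((fib y).card : ℝ) ≤ hE.toFinset.card := by exact_mod_cast hcard y
      linarith
    show μ (ps (fun x => w (F x))) / c ≤ _
    rw [div_mul_eq_mul_div]
    exact div_le_div_of_nonneg_right h2 hpos.le

section

variable {H : Type u} {G : Type v} [Group H] [Group G]

/-- `G` acts on the second coordinate of `H × G`. -/
def prodAct (H : Type u) (G : Type v) [Group G] : RAct G (H × G) where
  act z g := (z.1, z.2 * g)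
  one z := by rw [mul_one]
  mul z s t := by rw [mul_assoc]

/-- The mean on `H × G`. -/
def prodMean (ν : (H → ℝ) → ℝ) (μ : (G → ℝ) → ℝ) (u : H × G → ℝ) : ℝ :=
  μ fun z => ν fun h => u (h, z)

theorem invMean_prod {ν : (H → ℝ) → ℝ} (hν : IsMean ν) {μ : (G → ℝ) → ℝ} (hμ : IsMean μ)
    (hinv : ∀ (g : G) f, Bdd f → μ (fun x => f (x * g)) = μ f) :
    InvMean (prodAct H G) (prodMean ν μ) where
  mean := isMean_prod hν hμ
  inv s f hf := by
    obtain ⟨M, hM⟩ := hf
    exact hinv s (fun z => ν fun h => f (h, z)) ⟨M, fun z => hν.abs_le fun h => hM (h, z)⟩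

open Classical in
/-- Elements `x` of `H` such that `P (h, F x)` holds for most `h`. -/
def Gd (ν : (H → ℝ) → ℝ) (F : H → G) (P : H × G → Prop) (δ : ℝ) : Set H :=
  {x | ν (fun h => if P (h, F x) then 0 else 1) ≤ δ}

open Classical in
theorem mean_not_Gd {ν : (H → ℝ) → ℝ} (hν : IsMean ν) {μ : (G → ℝ) → ℝ} (hμ : IsMean μ)
    {F : H → G} {C : ℝ} (hC : 0 < C)
    (htr : ∀ u : G → ℝ, Bdd u → (∀ y, 0 ≤ u y) → ν (fun x => u (F x)) ≤ C * μ u)
    (P : H × G → Prop) {δ : ℝ} (hδ : 0 < δ)
    (hP : prodMean ν μ (fun z => if P z then 0 else 1) ≤ δ ^ 2) :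
    ν (fun x => if x ∈ Gd ν F P δ then 0 else 1) ≤ C * δ := by
  set u : G → ℝ := fun g => δ⁻¹ * ν (fun h => if P (h, g) then 0 else 1) with hu
  have hb1 : Bdd (fun g : G => ν (fun h => if P (h, g) then (0 : ℝ) else 1)) :=
    ⟨1, fun g => hν.abs_le fun h => by split_ifs <;> simp⟩
  have h0 : ∀ g : G, 0 ≤ ν (fun h => if P (h, g) then (0 : ℝ) else 1) := fun g =>
    hν.nonneg _ ⟨1, fun h => by dsimp only; split_ifs <;> simp⟩ fun h => by split_ifs <;> simp
  have hub : Bdd u := hb1.const_mul _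
  have hu0 : ∀ g, 0 ≤ u g := fun g => mul_nonneg (inv_nonneg.2 hδ.le) (h0 g)
  have h1 : ∀ x, (if x ∈ Gd ν F P δ then (0 : ℝ) else 1) ≤ u (F x) := by
    intro x
    split_ifs with h
    · exact hu0 _
    · have : δ < ν (fun h => if P (h, F x) then 0 else 1) := not_le.1 h
      rw [hu]
      simp only
      rw [le_inv_mul_iff₀ hδ, mul_one]
      exact this.le
  calc ν (fun x => if x ∈ Gd ν F P δ then 0 else 1) ≤ ν (fun x => u (F x)) :=
        hν.le ⟨1, fun x => by dsimp only; split_ifs <;> simp⟩ (hub.comp F) h1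
    _ ≤ C * μ u := htr u hub hu0
    _ ≤ C * δ := by
        refine mul_le_mul_of_nonneg_left ?_ hC.le
        rw [hu, hμ.smul _ _ hb1, inv_mul_le_iff₀ hδ, ← sq]
        exact hP

open Classical in
/-- Translates of finite sets into a dense set. -/
theorem exists_translate {ν : (H → ℝ) → ℝ} (hν : IsMean ν)
    (hinv : ∀ (g : H) f, Bdd f → ν (fun x => f (x * g)) = ν f) (D : Set H) {β : ℝ}
    (hD : ν (fun x => if x ∈ D then 0 else 1) ≤ β) {ι : Type w} (Y : Finset ι)
    (p : ι → Finset H) (m : ℕ) (hm : ∀ y ∈ Y, (p y).card ≤ m) (hβ : 2 * m * β ≤ 1) :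
    ∃ x : H, (Y.card : ℝ) ≤ 2 * (Y.filter fun y => ∀ g ∈ p y, x * g ∈ D).card := by
  have hβ0 : 0 ≤ β := (hν.nonneg _ (bdd_ite' _) fun x => ite01_nonneg _).trans hD
  by_contra hcon
  push Not at hcon
  set N : H → ℕ := fun x => (Y.filter fun y => ∀ g ∈ p y, x * g ∈ D).card with hN
  have h1 : ∀ x, 2 * (N x : ℝ) ≤ Y.card - 1 := by
    intro x
    have h2 : 2 * N x < Y.card := by exact_mod_cast hcon x
    have h3 : 2 * N x + 1 ≤ Y.card := h2
    have : (2 * (N x : ℝ) + 1) ≤ Y.card := by exact_mod_cast h3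
    linarith
  -- lower bound of the number
  have hbad : ∀ g : H, Bdd (fun x : H => if x * g ∈ D then (0 : ℝ) else 1) := fun g => bdd_ite' _
  set u : H → ℝ := fun x => ∑ y ∈ Y, ∑ g ∈ p y, (if x * g ∈ D then (0 : ℝ) else 1) with hu
  have hub : Bdd u := Bdd.sum' Y _ fun y _ => Bdd.sum' (p y) _ fun g _ => hbad g
  have h2 : ∀ x, (Y.card : ℝ) - u x ≤ N x := by
    intro x
    have h3 : ((Y.filter fun y => ¬ ∀ g ∈ p y, x * g ∈ D).card : ℝ) ≤ u x := by
      rw [hu]
      simp only
      rw [Finset.card_eq_sum_ones, Nat.cast_sum, Finset.sum_filter]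
      refine Finset.sum_le_sum fun y _ => ?_
      by_cases h : ∀ g ∈ p y, x * g ∈ D
      · rw [if_neg (not_not.2 h)]
        exact Finset.sum_nonneg fun g _ => ite01_nonneg _
      · rw [if_pos h]
        push Not at h
        obtain ⟨g, hg, hgD⟩ := h
        have h4 : (1 : ℝ) = (if x * g ∈ D then (0 : ℝ) else 1) := by rw [if_neg hgD]
        rw [Nat.cast_one]
        calc (1 : ℝ) = (if x * g ∈ D then (0 : ℝ) else 1) := h4
          _ ≤ _ := Finset.single_le_sum (f := fun g => if x * g ∈ D then (0 : ℝ) else 1)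
              (fun g _ => ite01_nonneg _) hg
    have h5 := Finset.card_filter_add_card_filter_not (s := Y) (fun y => ∀ g ∈ p y, x * g ∈ D)
    have h6 : (N x : ℝ) + ((Y.filter fun y => ¬ ∀ g ∈ p y, x * g ∈ D).card : ℝ) = Y.card := by
      exact_mod_cast h5
    linarith
  have h3 : ∀ x, ((Y.card : ℝ) + 1) / 2 ≤ u x := fun x => by
    have := h1 x; have := h2 x; linarith
  have h4 := hν.le (Bdd.const (((Y.card : ℝ) + 1) / 2)) hub h3
  rw [hν.const] at h4
  have h5 : ν u ≤ Y.card * (m * β) := by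
    rw [hu, (hν.sum Y _ fun y _ => Bdd.sum' (p y) _ fun g _ => hbad g).2]
    have : ∀ y ∈ Y, ν (fun x => ∑ g ∈ p y, (if x * g ∈ D then (0 : ℝ) else 1)) ≤ m * β := by
      intro y hy
      rw [(hν.sum (p y) _ fun g _ => hbad g).2]
      have h6 : ∀ g ∈ p y, ν (fun x => if x * g ∈ D then (0 : ℝ) else 1) ≤ β := by
        intro g _
        rw [hinv g (fun x => if x ∈ D then (0 : ℝ) else 1) (bdd_ite' _)]
        exact hD
      refine (Finset.sum_le_sum h6).trans ?_
      rw [Finset.sum_const, nsmul_eq_mul]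
      refine mul_le_mul_of_nonneg_right ?_ hβ0
      exact_mod_cast hm y hy
    refine (Finset.sum_le_sum this).trans ?_
    rw [Finset.sum_const, nsmul_eq_mul]
  have h6 : (Y.card : ℝ) * (m * β) ≤ Y.card * (1 / 2) :=
    mul_le_mul_of_nonneg_left (by linarith) (Nat.cast_nonneg _)
  linarith

variable {k : ℕ}

/-- The average displacement. -/
def chi (ν : (H → ℝ) → ℝ) (f : H → Fin k → ℝ) (y : H) (i : Fin k) : ℝ :=
  ν fun h => f (h * y) i - f h i

theorem chi_right {ν : (H → ℝ) → ℝ}
    (hinv : ∀ (g : H) f, Bdd f → ν (fun x => f (x * g)) = ν f) (f : H → Fin k → ℝ)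
    (x y : H) (i : Fin k) {L : ℝ} (hL : ∀ h, |f (h * y) i - f h i| ≤ L) :
    chi ν f y i = ν fun h => f (h * x * y) i - f (h * x) i :=
  (hinv x (fun h => f (h * y) i - f h i) ⟨L, hL⟩).symm

theorem addv_chi {ν : (H → ℝ) → ℝ} (hν : IsMean ν)
    (hinv : ∀ (g : H) f, Bdd f → ν (fun x => f (x * g)) = ν f) (f : H → Fin k → ℝ)
    (hf : ∀ y, ∃ L, ∀ h i, |f (h * y) i - f h i| ≤ L) : Addv (chi ν f) where
  add x y := by
    funext i
    obtain ⟨L, hL⟩ := hf x
    obtain ⟨L', hL'⟩ := hf y
    rw [Pi.add_apply, chi_right hinv f x y i (fun h => hL' h i)]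
    unfold chi
    have hb1 : Bdd (fun h : H => f (h * x) i - f h i) := ⟨L, fun h => hL h i⟩
    have hb2 : Bdd (fun h : H => f (h * x * y) i - f (h * x) i) := ⟨L', fun h => hL' (h * x) i⟩
    rw [← hν.add _ _ hb1 hb2]
    congr 1
    funext h
    simp only [Pi.add_apply]
    rw [← mul_assoc]
    ring

open Classical in
/-- The displacement of a good element is close to the average displacement. -/
theorem chi_close {ν : (H → ℝ) → ℝ} (hν : IsMean ν)
    (hinv : ∀ (g : H) f, Bdd f → ν (fun x => f (x * g)) = ν f) (f : H → Fin k → ℝ)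
    (x y : H) {τ L β : ℝ} (hτ : 0 ≤ τ) (hL0 : 0 ≤ L) (hL : ∀ h i, |f (h * y) i - f h i| ≤ L)
    (B : Set H) (hB : ν (fun h => if h ∈ B then 1 else 0) ≤ β)
    (hgood : ∀ h ∉ B, ∀ i, |f (h * x * y) i - f (h * x) i - (f (x * y) i - f x i)| ≤ τ)
    (i : Fin k) : |f (x * y) i - f x i - chi ν f y i| ≤ τ + 2 * L * β := by
  set a := f (x * y) i - f x i with ha
  have haL : |a| ≤ L := hL x i
  rw [chi_right hinv f x y i (fun h => hL h i)]
  have hb : Bdd (fun h : H => f (h * x * y) i - f (h * x) i) := ⟨L, fun h => hL (h * x) i⟩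
  have hbB : Bdd (fun h => if h ∈ B then (1 : ℝ) else 0) :=
    ⟨1, fun x => by dsimp only; split_ifs <;> simp⟩
  have hw : ∀ h, |f (h * x * y) i - f (h * x) i - a| ≤ τ + 2 * L * (if h ∈ B then 1 else 0) := by
    intro h
    split_ifs with hh
    · have h1 := hL (h * x) i
      have h2 := abs_sub (f (h * x * y) i - f (h * x) i) a
      linarith
    · have := hgood h hh i
      linarith
  have hbu : Bdd ((fun _ : H => τ) + fun h : H => 2 * L * (if h ∈ B then (1 : ℝ) else 0)) :=
    (Bdd.const τ).add (hbB.const_mul _)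
  have hub : ν ((fun _ : H => τ) + fun h : H => 2 * L * (if h ∈ B then (1 : ℝ) else 0))
      ≤ τ + 2 * L * β := by
    rw [hν.add _ _ (Bdd.const τ) (hbB.const_mul _), hν.const, hν.smul _ _ hbB]
    have := mul_le_mul_of_nonneg_left hB (by positivity : (0 : ℝ) ≤ 2 * L)
    linarith
  have e1 : ν (fun h => f (h * x * y) i - f (h * x) i)
      = a + ν (fun h => f (h * x * y) i - f (h * x) i - a) := by
    have h3 : (fun h => f (h * x * y) i - f (h * x) i)
        = (fun _ => a) + fun h => (f (h * x * y) i - f (h * x) i - a) := by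
      funext h; simp only [Pi.add_apply]; ring
    have hb' : Bdd (fun h => f (h * x * y) i - f (h * x) i - a) :=
      ⟨τ + 2 * L, fun h => (hw h).trans (by split_ifs <;> linarith)⟩
    conv_lhs => rw [h3]
    rw [hν.add _ _ (Bdd.const a) hb', hν.const]
  have hb' : Bdd (fun h => f (h * x * y) i - f (h * x) i - a) :=
    ⟨τ + 2 * L, fun h => (hw h).trans (by split_ifs <;> linarith)⟩
  have up : ν (fun h => f (h * x * y) i - f (h * x) i - a) ≤ τ + 2 * L * β :=
    (hν.le hb' hbu fun h => (abs_le.1 (hw h)).2).trans hub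
  have lo : -(τ + 2 * L * β) ≤ ν (fun h => f (h * x * y) i - f (h * x) i - a) := by
    have h5 : ν (fun h => (-1) * (((fun _ : H => τ) + fun h : H => 2 * L * (if h ∈ B then (1 : ℝ) else 0)) h)) ≤ ν (fun h => f (h * x * y) i - f (h * x) i - a) := by
      refine hν.le (hbu.const_mul (-1)) hb' fun h => ?_
      have := (abs_le.1 (hw h)).1
      simp only [Pi.add_apply]
      linarith
    rw [hν.smul _ _ hbu] at h5
    linarith
  rw [e1, abs_le]
  constructor <;> linarith

end

end Vale.Agent.P188.H382
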